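import Vale.Agent.P073.H16.FlatV
import Vale.Agent.P073.H253.R1Parts

/-!
# P073 / H16: the generic origin for the compressed map on the thin beam
-/

namespace Vale.Agent.P073.H16

open MeasureTheory Set Filter Topology Metric Vale.Agent.P073.St Vale.Agent.P073.AB
open Vale.Agent.P073.SQ (ev)
open Vale.Agent.P073.LOC (Near Q1)
open Vale.Agent.P073.H235 (Bx cmpD fl bm P1)
open Vale.Agent.P073.H253 (ledge BVData SpecBV)
open Vale.Agent.P073.H194 (sInt Gen idx)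
open Vale.Agent.P073.H83 (GenB)
open scoped ENNReal

/-- the thin beam of origins -/
noncomputable def thin2 (m : ℕ) : Set V := Icc 0 ![1, 1 / 2 ^ m, 1 / 2 ^ m]

theorem pow_inv_le_one (m : ℕ) : (1:ℝ) / 2 ^ m ≤ 1 := by
  rw [div_le_one (by positivity)]; exact one_le_pow₀ (by norm_num)

theorem thin2_sub (m : ℕ) : thin2 m ⊆ Icc (0:V) 1 := by
  refine Icc_subset_Icc_right fun i => ?_
  fin_cases i
  · exact le_rfl
  · exact pow_inv_le_one m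
  · exact pow_inv_le_one m

theorem thin2_thin (m : ℕ) {v : V} (hv : v ∈ thin2 m) : v ∈ thin 1 m ∧ v ∈ thin 2 m := by
  have h0 := hv.2 0
  have h1 := hv.2 1
  have h2 := hv.2 2
  constructor
  · refine ⟨hv.1, fun i => ?_⟩
    fin_cases i
    · exact h0
    · exact h1
    · exact h2.trans (pow_inv_le_one m)
  · refine ⟨hv.1, fun i => ?_⟩
    fin_cases i
    · exact h0
    · exact h1.trans (pow_inv_le_one m)
    · exact h2

theorem volume_thin2 (m : ℕ) : volume (thin2 m) ≠ 0 := by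
  rw [thin2, Real.volume_Icc_pi, Fin.prod_univ_three]
  have h1 : ENNReal.ofReal ((1:ℝ) / 2 ^ m) ≠ 0 := (ENNReal.ofReal_pos.2 (by positivity)).ne'
  simp only [Pi.zero_apply, sub_zero]
  refine mul_ne_zero (mul_ne_zero ?_ h1) h1
  show ENNReal.ofReal 1 ≠ 0
  simp

theorem bm_pos {θ₁ θ₂ : ℝ} (h1 : 0 < θ₁) (h2 : 0 < θ₂) : ∀ i, 0 < bm θ₁ θ₂ i := by
  intro i
  fin_cases i
  · show (0:ℝ) < 1; norm_num
  · show (0:ℝ) < 2 * θ₁; linarith
  · show (0:ℝ) < 2 * θ₂; linarith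

theorem bm_le_one {θ₁ θ₂ : ℝ} (h1 : θ₁ ≤ 1 / 4) (h2 : θ₂ ≤ 1 / 4) : ∀ i, bm θ₁ θ₂ i ≤ 1 := by
  intro i
  fin_cases i
  · show (1:ℝ) ≤ 1; norm_num
  · show 2 * θ₁ ≤ 1; linarith
  · show 2 * θ₂ ≤ 1; linarith

theorem P1_ev_one : P1 (ev 1) = 0 := by
  show (ev 1 : V) 0 • (ev 0 : V) = 0
  simp [ev]

theorem P1_ev_two : P1 (ev 2) = 0 := by
  show (ev 2 : V) 0 • (ev 0 : V) = 0
  simp [ev]

/-- **[BEAM-V]** -/
theorem specBV : SpecBV := by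
  intro p hp θ₁ θ₂ κ m₀ h1 h1' h2 h2' hκ
  obtain ⟨κ', hκ', HH⟩ := exists_boxV (a := bm θ₁ θ₂) hp (bm_pos h1 h2) (bm_le_one h1' h2')
    (L := P1) (by
      intro j hj
      fin_cases j
      · exact absurd rfl hj
      · exact P1_ev_one
      · exact P1_ev_two) hκ m₀ (Q := thin2 m₀) measurableSet_Icc (thin2_sub m₀) (volume_thin2 m₀)
  refine ⟨κ', hκ', fun Λ f F hN => ?_⟩
  have hhom := isHomeo_cmp (bm_pos h1 h2) hN.homeo
  have hsob := isSobolev_cmp (bm_pos h1 h2) hp hN.sob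
  obtain ⟨v, hv, nn, hnn, H, H₁, N, -, g1, g2, g3, g4, g5, g6, g7, g8, g9, -, g10, gk, g11, g12,
    g13, g14, g15⟩ := HH Λ f F hN (fun _ => True) (Eventually.of_forall fun _ => trivial)
  obtain ⟨hv1, hv2⟩ := thin2_thin m₀ hv
  refine ⟨⟨⟨v, nn, hnn, H, H₁, N, g1, g2, g3, g4, g5, g6, g7, g8, g9, g10, gk, g11, g12, g13,
    ⌊θ₁ * 2 ^ m₀⌋, ⌊θ₂ * 2 ^ m₀⌋, exists_slice hv1, exists_slice hv2,
    fun S hS => g14 1 S fun k hk => (hS k hk).2, fun S hS => ?_⟩⟩, hhom, hsob⟩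
  have hinj : Function.Injective
      fun k : ℤ => (![k, ⌊θ₁ * 2 ^ m₀⌋, ⌊θ₂ * 2 ^ m₀⌋] : Fin 3 → ℤ) := fun k k' h => congrFun h 0
  have h3 := g15 0 (S.image fun k : ℤ => (![k, ⌊θ₁ * 2 ^ m₀⌋, ⌊θ₂ * 2 ^ m₀⌋] : Fin 3 → ℤ)) (by
    intro k hk
    rw [Finset.mem_image] at hk
    obtain ⟨k', hk', rfl⟩ := hk
    exact hS k' hk')
  rw [Finset.sum_image fun a _ b _ h => hinj h] at h3
  exact h3

end Vale.Agent.P073.H16
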