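import Vale.Agent.P073.H235.R2Parts
import Vale.Agent.P073.MM.H694.Dom
import Vale.Agent.P073.H761.SmTools

/-!
# P073 / H16: the compressed map on a flat box
-/

namespace Vale.Agent.P073.H16

open MeasureTheory Set Filter Topology Metric Vale.Agent.P073.St Vale.Agent.P073.AB
open Vale.Agent.P073.SQ (ev)
open Vale.Agent.P073.LOC (Near Q1)
open Vale.Agent.P073.H235 (Bx cmpD fl bm)
open scoped ENNReal

variable {a : V}

/-- the dilation with factors `a i` -/
noncomputable def dil (a : V) (ha : ∀ i, 0 < a i) : V ≃L[ℝ] V :=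
  LinearEquiv.toContinuousLinearEquiv
    { toFun := fun x i => a i * x i
      invFun := fun x i => x i / a i
      map_add' := fun x y => by funext i; show a i * (x i + y i) = a i * x i + a i * y i; ring
      map_smul' := fun c x => by
        funext i; show a i * (c * x i) = c * (a i * x i); ring
      left_inv := fun x => by
        funext i; show a i * x i / a i = x i
        exact mul_div_cancel_left₀ _ (ha i).ne'
      right_inv := fun x => by
        funext i; show a i * (x i / a i) = x i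
        exact mul_div_cancel₀ _ (ha i).ne' }

theorem dil_apply (ha : ∀ i, 0 < a i) (x : V) : dil a ha x = fun i => a i * x i := rfl

theorem dil_symm_apply (ha : ∀ i, 0 < a i) (x : V) : (dil a ha).symm x = fun i => x i / a i := rfl

theorem div_mem_Q1 (ha : ∀ i, 0 < a i) {x : V} : (fun i => x i / a i) ∈ Q1 ↔ x ∈ Bx a := by
  show (∀ i, 0 < x i / a i ∧ x i / a i < 1) ↔ ∀ i, 0 < x i ∧ x i < a i
  refine forall_congr' fun i => ?_
  rw [div_lt_one (ha i)]
  constructor
  · rintro ⟨h1, h2⟩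
    exact ⟨(div_pos_iff_of_pos_right (ha i)).1 h1, h2⟩
  · rintro ⟨h1, h2⟩
    exact ⟨div_pos h1 (ha i), h2⟩

theorem dil_image (ha : ∀ i, 0 < a i) : dil a ha '' Q1 = Bx a := by
  ext x
  constructor
  · rintro ⟨y, hy, rfl⟩
    rw [← div_mem_Q1 ha]
    have : (fun i => dil a ha y i / a i) = y := (dil a ha).symm_apply_apply y
    rw [this]; exact hy
  · intro hx
    exact ⟨(dil a ha).symm x, (div_mem_Q1 ha).2 hx, (dil a ha).apply_symm_apply x⟩

theorem isInv_cmp (ha : ∀ i, 0 < a i) {Λ : Set V} {f h : V → V} (H : IsInv Q1 Λ f h) :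
    IsInv (Bx a) Λ (H235.cmp a f) (fun y => dil a ha (h y)) := by
  constructor
  · intro x hx
    obtain ⟨h1, h2⟩ := H.1 _ ((div_mem_Q1 ha).2 hx)
    refine ⟨h1, ?_⟩
    show dil a ha (h (f fun i => x i / a i)) = x
    rw [h2]
    exact (dil a ha).apply_symm_apply x
  · intro y hy
    obtain ⟨h1, h2⟩ := H.2 y hy
    refine ⟨?_, ?_⟩
    · rw [← dil_image ha]; exact mem_image_of_mem _ h1
    · show f (fun i => dil a ha (h y) i / a i) = y
      have : (fun i => dil a ha (h y) i / a i) = h y := (dil a ha).symm_apply_apply (h y)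
      rw [this, h2]

theorem isHomeo_cmp (ha : ∀ i, 0 < a i) {Λ : Set V} {f : V → V} (H : St.IsHomeo Q1 Λ f) :
    St.IsHomeo (Bx a) Λ (H235.cmp a f) := by
  obtain ⟨h, h1, h2, h3⟩ := H
  refine ⟨fun y => dil a ha (h y), isInv_cmp ha h1, ?_, ?_⟩
  · have : ContinuousOn (fun x : V => f ((dil a ha).symm x)) (Bx a) :=
      h2.comp (dil a ha).symm.continuous.continuousOn fun x hx => (div_mem_Q1 ha).2 hx
    exact this
  · exact (dil a ha).continuous.comp_continuousOn h3

theorem isBoundedDomain_Q1 : St.IsBoundedDomain Q1 :=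
  H761.isBoundedDomain_Bx (a := 1) fun _ => one_pos

theorem isSobolev_cmp (ha : ∀ i, 0 < a i) {p : ℝ} (hp : 1 ≤ p) {f : V → V} {F : V → Mat}
    (H : St.IsSobolev p Q1 f F) : St.IsSobolev p (Bx a) (H235.cmp a f) (cmpD a F) := by
  have h := MM.H694.sobolev_dom hp isBoundedDomain_Q1 (dil a ha)
    (A := fun i j => if i = j then 1 / a j else 0) (by
      intro v
      funext i
      rw [dil_symm_apply]
      show v i / a i = ∑ j, (if i = j then 1 / a j else 0) * v j
      rw [Finset.sum_eq_single i]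
      · rw [if_pos rfl]; ring
      · intro j _ hj
        rw [if_neg (Ne.symm hj), zero_mul]
      · intro hi; exact absurd (Finset.mem_univ i) hi) H
  rw [dil_image ha] at h
  have e : (fun x => mm (F ((dil a ha).symm x)) fun i j => if i = j then 1 / a j else 0) =
      cmpD a F := by
    funext x i j
    show ∑ k, F ((dil a ha).symm x) i k * (if k = j then 1 / a j else 0) =
      F (fun k => x k / a k) i j / a j
    rw [Finset.sum_eq_single j]
    · rw [if_pos rfl, dil_symm_apply]; ring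
    · intro k _ hk
      rw [if_neg hk, mul_zero]
    · intro hj; exact absurd (Finset.mem_univ j) hj
  rw [e] at h
  exact h

/-! ### Energy -/

theorem opNorm_le_sum (T : V →L[ℝ] V) : ‖T‖ ≤ ∑ j, ‖T (ev j)‖ := by
  refine T.opNorm_le_bound (Finset.sum_nonneg fun _ _ => norm_nonneg _) fun w => ?_
  have h1 : w = ∑ j, w j • ev j := by
    funext i
    rw [Finset.sum_apply, Finset.sum_eq_single i]
    · simp [ev]
    · intro j _ hj
      simp [ev, Ne.symm hj]
    · intro hi; exact absurd (Finset.mem_univ i) hi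
  have h2 : T w = ∑ j, w j • T (ev j) := by
    conv_lhs => rw [h1]
    simp only [map_sum, map_smul]
  rw [h2, Finset.sum_mul]
  refine (norm_sum_le _ _).trans (Finset.sum_le_sum fun j _ => ?_)
  rw [norm_smul, mul_comm]
  exact mul_le_mul_of_nonneg_left (norm_le_pi_norm w j) (norm_nonneg _)

theorem cl_cmpD_ev (F : V → Mat) (x : V) (j : Fin 3) :
    cl (cmpD a F x) (ev j) = (1 / a j) • cl (F fun k => x k / a k) (ev j) := by
  funext i
  rw [Pi.smul_apply, PK.cl_apply, PK.cl_apply, Finset.sum_eq_single j, Finset.sum_eq_single j]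
  · show F (fun k => x k / a k) i j / a j * ev j j = (1 / a j) * (F (fun k => x k / a k) i j * ev j j)
    ring
  · intro k _ hk; simp [ev, hk]
  · intro hj; exact absurd (Finset.mem_univ j) hj
  · intro k _ hk; simp [ev, hk]
  · intro hj; exact absurd (Finset.mem_univ j) hj

/-- the pointwise bound: `a j ≠ 1` only in the directions of the kernel of `L` -/
theorem norm_cmpD_sub_le (ha : ∀ i, 0 < a i) {α : ℝ} (hα : 0 < α) (hα1 : ∀ i, α ≤ a i)
    {L : V →L[ℝ] V} (hL : ∀ j, a j ≠ 1 → L (ev j) = 0) (F : V → Mat) (x : V) :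
    ‖cl (cmpD a F x) - L‖ ≤
      1 / α * ∑ j, ‖cl (F fun k => x k / a k) (ev j) - L (ev j)‖ := by
  refine (opNorm_le_sum _).trans ?_
  rw [Finset.mul_sum]
  refine Finset.sum_le_sum fun j _ => ?_
  rw [_root_.sub_apply, cl_cmpD_ev]
  have h1 : L (ev j) = (1 / a j) • L (ev j) := by
    by_cases h : a j = 1
    · rw [h, div_one, one_smul]
    · rw [hL j h, smul_zero]
  rw [h1, ← smul_sub, norm_smul, Real.norm_of_nonneg (by have := ha j; positivity)]
  have h2 : ‖cl (F fun k => x k / a k) (ev j) - L (ev j)‖ =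
      ‖cl (F fun k => x k / a k) (ev j) - (1 / a j) • L (ev j)‖ := by rw [← h1]
  rw [← h2]
  refine mul_le_mul_of_nonneg_right ?_ (norm_nonneg _)
  exact one_div_le_one_div_of_le hα (hα1 j)

theorem rpow_sum_le {p : ℝ} (hp : 0 ≤ p) (t : Fin 3 → ℝ≥0∞) :
    (∑ j, t j) ^ p ≤ 3 ^ p * ∑ j, t j ^ p := by
  obtain ⟨i, -, hi⟩ := Finset.exists_max_image (Finset.univ : Finset (Fin 3)) t
    ⟨0, Finset.mem_univ _⟩
  have h1 : ∑ j, t j ≤ 3 * t i := by
    refine (Finset.sum_le_card_nsmul _ _ (t i) fun j hj => hi j hj).trans ?_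
    simp
  calc (∑ j, t j) ^ p ≤ (3 * t i) ^ p := ENNReal.rpow_le_rpow h1 hp
    _ = 3 ^ p * t i ^ p := ENNReal.mul_rpow_of_nonneg _ _ hp
    _ ≤ 3 ^ p * ∑ j, t j ^ p := by
        gcongr
        exact Finset.single_le_sum (f := fun j => t j ^ p) (fun _ _ => zero_le)
          (Finset.mem_univ i)

theorem lintegral_cmp (ha : ∀ i, 0 < a i) (g : V → ℝ≥0∞) :
    ∫⁻ x in Bx a, g (fun i => x i / a i) =
      ENNReal.ofReal |((dil a ha : V ≃L[ℝ] V) : V →L[ℝ] V).det| * ∫⁻ x in Q1, g x := by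
  rw [← dil_image ha]
  have h := lintegral_image_eq_lintegral_abs_det_fderiv_mul (volume : Measure V)
    isBoundedDomain_Q1.1.measurableSet (f := ⇑(dil a ha))
    (f' := fun _ => ((dil a ha : V ≃L[ℝ] V) : V →L[ℝ] V))
    (fun x _ => (dil a ha).hasFDerivWithinAt) (dil a ha).injective.injOn
    (fun x => g (fun i => x i / a i))
  rw [h, ← lintegral_const_mul' _ _ ENNReal.ofReal_ne_top]
  refine lintegral_congr fun x => ?_
  congr 2
  exact (dil a ha).symm_apply_apply x

/-- the energy of `H235.cmp a f - L` -/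
theorem energy_cmp (ha : ∀ i, 0 < a i) {L : V →L[ℝ] V} (hL : ∀ j, a j ≠ 1 → L (ev j) = 0)
    {p : ℝ} (hp : 1 ≤ p) : ∃ C : ℝ, 0 < C ∧ ∀ (f : V → V) (F : V → Mat),
      St.IsSobolev p Q1 f F → ∫⁻ x in Bx a, ‖cl (cmpD a F x) - L‖ₑ ^ p ≤ ENNReal.ofReal C *
        ∑ j, ∫⁻ x in Q1, ENNReal.ofReal (‖cl (F x) (ev j) - L (ev j)‖ ^ p) := by
  have hp0 : 0 ≤ p := by linarith
  obtain ⟨i, -, hi⟩ := Finset.exists_min_image (Finset.univ : Finset (Fin 3)) a
    ⟨0, Finset.mem_univ _⟩
  have hα : 0 < a i := ha i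
  refine ⟨(|((dil a ha : V ≃L[ℝ] V) : V →L[ℝ] V).det| + 1) * ((1 / a i) ^ p * 3 ^ p),
    by positivity, fun f F hF => ?_⟩
  have h1 : ∀ x : V, ‖cl (cmpD a F x) - L‖ₑ ^ p ≤ (fun y : V => ENNReal.ofReal ((1 / a i) ^ p * 3 ^ p) *
      ∑ j, ENNReal.ofReal (‖cl (F y) (ev j) - L (ev j)‖ ^ p)) (fun k => x k / a k) := by
    intro x
    have h2 := norm_cmpD_sub_le ha hα (fun j => hi j (Finset.mem_univ j)) hL F x
    have h3 : ‖cl (cmpD a F x) - L‖ₑ ≤ ENNReal.ofReal (1 / a i) *
        ∑ j, ENNReal.ofReal ‖cl (F fun k => x k / a k) (ev j) - L (ev j)‖ := by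
      rw [← ofReal_norm, ← ENNReal.ofReal_sum_of_nonneg (fun _ _ => norm_nonneg _),
        ← ENNReal.ofReal_mul (by positivity)]
      exact ENNReal.ofReal_le_ofReal h2
    refine (ENNReal.rpow_le_rpow h3 hp0).trans ?_
    rw [ENNReal.mul_rpow_of_nonneg _ _ hp0]
    have h4 := rpow_sum_le hp0
      (fun j => ENNReal.ofReal ‖cl (F fun k => x k / a k) (ev j) - L (ev j)‖)
    refine (mul_le_mul_right h4 _).trans (le_of_eq ?_)
    have e3 : (3:ℝ≥0∞) ^ p = ENNReal.ofReal (3 ^ p) := by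
      rw [← ENNReal.ofReal_rpow_of_nonneg (by norm_num) hp0]
      norm_num
    rw [e3, ENNReal.ofReal_rpow_of_nonneg (by positivity) hp0, ← mul_assoc,
      ← ENNReal.ofReal_mul (by positivity)]
    congr 1
    refine Finset.sum_congr rfl fun j _ => ?_
    rw [ENNReal.ofReal_rpow_of_nonneg (norm_nonneg _) hp0]
  refine (lintegral_mono h1).trans ?_
  rw [lintegral_cmp ha (fun y : V => ENNReal.ofReal ((1 / a i) ^ p * 3 ^ p) *
    ∑ j, ENNReal.ofReal (‖cl (F y) (ev j) - L (ev j)‖ ^ p)),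
    lintegral_const_mul' _ _ ENNReal.ofReal_ne_top, ← mul_assoc,
    ← ENNReal.ofReal_mul (abs_nonneg _)]
  have hm : AEStronglyMeasurable (fun x => cl (F x)) (volume.restrict Q1) := PK.IsSob.aesm hF
  rw [lintegral_finsetSum' _ fun j _ => ?_]
  · gcongr
    linarith
  · have h5 : AEStronglyMeasurable (fun x => cl (F x) (ev j) - L (ev j)) (volume.restrict Q1) :=
      ((ContinuousLinearMap.apply ℝ V (ev j)).continuous.comp_aestronglyMeasurable hm).sub
        aestronglyMeasurable_const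
    exact (h5.norm.aemeasurable.pow_const p).ennreal_ofReal

end Vale.Agent.P073.H16
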