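import Vale.Agent.P073.GB73.Collar
import Vale.Agent.P073.H399.IsoE

/-!
# P073 / H16: the collar of a box, with control of the size
-/

open Set Metric Topology Filter

namespace P073.H16

open P073 P073.GB73 P073.H399
open Vale.Agent.P073.St (V)

theorem cF_close {A B m κ σ σ' r r' : ℝ} (hκ0 : 0 ≤ κ) (hκ1 : κ ≤ 1) :
    |cF A B m κ σ r - cF A B m κ σ' r'| ≤ 3 * |r - r'| + 2 * |σ - σ'| := by
  unfold cF
  have h1 : |max 0 (r - (B - m)) - max 0 (r' - (B - m))| ≤ |r - r'| := by
    refine (abs_max_sub_max_le_max _ _ _ _).trans (max_le ?_ ?_)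
    · rw [sub_self, abs_zero]; exact abs_nonneg _
    · have : r - (B - m) - (r' - (B - m)) = r - r' := by ring
      rw [this]
  have h2 : |max 0 (A + m - r) - max 0 (A + m - r')| ≤ |r - r'| := by
    refine (abs_max_sub_max_le_max _ _ _ _).trans (max_le ?_ ?_)
    · rw [sub_self, abs_zero]; exact abs_nonneg _
    · have : A + m - r - (A + m - r') = -(r - r') := by ring
      rw [this, abs_neg]
  have hs := abs_nonneg (σ - σ')
  have hr := abs_nonneg (r - r')
  have hk : ∀ u u' : ℝ, |u - u'| ≤ |r - r'| → |min σ (κ * u) - min σ' (κ * u')| ≤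
      |r - r'| + |σ - σ'| := by
    intro u u' hu
    refine (abs_min_sub_min_le_max _ _ _ _).trans (max_le ?_ ?_)
    · linarith
    · have : κ * u - κ * u' = κ * (u - u') := by ring
      rw [this, abs_mul, abs_of_nonneg hκ0]
      have := mul_le_mul hκ1 hu (abs_nonneg _) zero_le_one
      linarith
  have e1 := abs_le.1 (hk _ _ h1)
  have e2 := abs_le.1 (hk _ _ h2)
  have e3 := abs_le.1 (le_refl |r - r'|)
  rw [abs_le]
  constructor <;> linarith [e1.1, e1.2, e2.1, e2.2, e3.1, e3.2]

/-- the collar map moves points by at most three times the distance on the surface, plus twice the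
thickness -/
theorem pC_close {a b : V} {m θ : ℝ} (hm : 0 < m) (hθ : 0 < θ) (hθm : θ < m) {x x' : V}
    {t t' : ℝ} (ht : t ∈ Icc (0:ℝ) 1) (ht' : t' ∈ Icc (0:ℝ) 1) :
    ‖pC a b m θ (x', t') - pC a b m θ (x, t)‖ ≤ 3 * ‖x' - x‖ + 2 * θ := by
  rw [pi_norm_le_iff_of_nonneg (by positivity)]
  intro i
  rw [Pi.sub_apply, Real.norm_eq_abs]
  show |cF (a i) (b i) m (θ / m) (θ * (1 - t')) (x' i) -
    cF (a i) (b i) m (θ / m) (θ * (1 - t)) (x i)| ≤ _
  refine (cF_close (div_pos hθ hm).le ((div_lt_one hm).2 hθm).le).trans ?_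
  have h1 : |x' i - x i| ≤ ‖x' - x‖ := norm_le_pi_norm (x' - x) i
  have h2 : |θ * (1 - t') - θ * (1 - t)| ≤ θ := by
    have : θ * (1 - t') - θ * (1 - t) = θ * (t - t') := by ring
    rw [this, abs_mul, abs_of_pos hθ]
    have h3 : |t - t'| ≤ 1 := by
      rw [abs_le]; constructor <;> linarith [ht.1, ht.2, ht'.1, ht'.2]
    nlinarith
  linarith

section box

variable {a b : V} {m θ : ℝ}

/-- **(collar)** an isotopy of the surface of a box gives an extension to the box which is the
identity inside and on the perpendicular segments at the marked points. -/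
theorem collar_of_isoE {ε : ℝ} (hε : 0 ≤ ε) (hm : 0 < m) (hab : ∀ i, 2 * m < b i - a i) {X : Set V}
    (hXf : X ⊆ frontier (Icc a b))
    (hX : ∀ x ∈ X, ∃ i, (x i = a i ∨ x i = b i) ∧ ∀ j ≠ i, a j + m ≤ x j ∧ x j ≤ b j - m)
    {φ : ConHomeo (frontier (Icc a b)) (frontier (Icc a b))} (hφ : IsoE (frontier (Icc a b)) X ε φ)
    (hθ : 0 < θ) (hθm : θ < m) :
    ∃ Φ : ConHomeo (Icc a b) (Icc a b),
      EqOn Φ.toFun φ.toFun (frontier (Icc a b)) ∧ (∀ x ∈ shr a b θ, Φ.toFun x = x) ∧
      (∀ x ∈ X, ∀ z ∈ Icc a b, ‖z - x‖ ≤ m →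
        (∃ i, (x i = a i ∨ x i = b i) ∧ (∀ j ≠ i, z j = x j)) → Φ.toFun z = z) ∧
      ∀ z ∈ Icc a b, ‖Φ.toFun z - z‖ ≤ 3 * ε + 2 * θ := by
  obtain ⟨F, F1, F2, F3, F4⟩ := hφ
  obtain ⟨Q, hQ⟩ := exists_collar hm hab hθ hθm
  have hab' : ∀ i, a i < b i := fun i => by linarith [hab i]
  have hAB : ∀ i, a i + m < b i - m := fun i => by linarith [hab i]
  let G : ConHomeo (colSet a b θ) (colSet a b θ) := Q.symm.trans (F.trans Q)
  have hG : ∀ x ∈ frontier (Icc a b), ∀ t ∈ Icc (0:ℝ) 1,
      G.toFun (pC a b m θ (x, t)) = pC a b m θ (F.toFun (x, t)) := by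
    intro x hx t ht
    have h1 : Q.invFun (Q.toFun (x, t)) = (x, t) := Q.left_inv ⟨hx, ht⟩
    rw [hQ] at h1
    show Q.toFun (F.toFun (Q.invFun (pC a b m θ (x, t)))) = _
    rw [h1, hQ]
  have h0 : (0:ℝ) ∈ Icc (0:ℝ) 1 := by simp
  have h1 : (1:ℝ) ∈ Icc (0:ℝ) 1 := by simp
  have hcl1 : IsClosed (colSet a b θ) :=
    (isClosed_le continuous_const (continuous_dep a b)).inter
      (isClosed_le (continuous_dep a b) continuous_const)
  have hcl2 : IsClosed (shr a b θ) := isClosed_Icc
  have hshr : ConicalSet (shr a b θ) := (locCone_Icc_pi _ _).conicalSet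
  -- the points of depth `θ`
  have hin : ∀ z, dep a b z = θ → G.toFun z = z := by
    intro z hz
    obtain ⟨g1, g2, g3⟩ := pC_qC hm hab hθ hθm (by rw [hz]; exact hθ.le) hz.le
    have ht : (qC a b m θ z).2 = 0 := by
      show 1 - dep a b z / θ = 0
      rw [hz, div_self hθ.ne', sub_self]
    have hw : qC a b m θ z = ((qC a b m θ z).1, 0) := Prod.ext rfl ht
    rw [hw] at g3
    conv_lhs => rw [← g3]
    rw [hG _ g1 0 h0, F2 _ g1, g3]
  have hag : EqOn G.toFun (ConHomeo.refl hshr).toFun (colSet a b θ ∩ shr a b θ) := by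
    rintro z ⟨hz1, hz2⟩
    exact hin z (le_antisymm hz1.2 (mem_shr.1 hz2))
  have himg : colSet a b θ ∩ shr a b θ ⊆ G.toFun '' (colSet a b θ ∩ shr a b θ) := by
    rintro z ⟨hz1, hz2⟩
    exact ⟨z, ⟨hz1, hz2⟩, hin z (le_antisymm hz1.2 (mem_shr.1 hz2))⟩
  have hun : colSet a b θ ∪ shr a b θ = Icc a b := by
    ext z
    rw [mem_union, mem_shr, mem_Icc_iff_dep]
    constructor
    · rintro (h | h)
      · exact h.1
      · linarith
    · intro h
      rcases le_total (dep a b z) θ with h' | h'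
      · exact Or.inl ⟨h, h'⟩
      · exact Or.inr h'
  have e1 := ConHomeo.glue_left G (ConHomeo.refl hshr) hcl1 hcl2 hcl1 hcl2 hag himg
  have e2 := ConHomeo.glue_right G (ConHomeo.refl hshr) hcl1 hcl2 hcl1 hcl2 hag himg
  refine ⟨(ConHomeo.glue G (ConHomeo.refl hshr) hcl1 hcl2 hcl1 hcl2 hag himg).cast hun hun,
    ?_, ?_, ?_, ?_⟩
  · intro x hx
    have hx0 := (mem_frontier_iff_dep hab').1 hx
    have hxc : x ∈ colSet a b θ := ⟨hx0.ge, by rw [hx0]; exact hθ.le⟩
    have hpx : ∀ y ∈ frontier (Icc a b), pC a b m θ (y, 1) = y := by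
      intro y hy
      funext i
      show cF (a i) (b i) m (θ / m) (θ * (1 - 1)) (y i) = y i
      rw [sub_self, mul_zero]
      unfold cF
      have hk : 0 ≤ θ / m := (div_pos hθ hm).le
      rw [min_eq_left (mul_nonneg hk (le_max_left _ _)),
        min_eq_left (mul_nonneg hk (le_max_left _ _))]
      ring
    rw [ConHomeo.cast_toFun, e1 hxc]
    conv_lhs => rw [← hpx x hx]
    rw [hG x hx 1 h1, F1 x hx, hpx _ (φ.mapsTo hx)]
  · intro x hx
    rw [ConHomeo.cast_toFun, e2 hx]
    rfl
  · rintro x hxX z hz hzx ⟨i, hi, hij⟩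
    rw [ConHomeo.cast_toFun]
    by_cases hzs : z ∈ shr a b θ
    · rw [e2 hzs]; rfl
    · -- the index is the one of the marked point
      obtain ⟨i', hi', hj'⟩ := hX x hxX
      have hii : i = i' := by
        by_contra hne
        obtain ⟨k1, k2⟩ := hj' i hne
        rcases hi with h | h <;> linarith [hAB i]
      subst hii
      have hxf := hXf hxX
      have hdz : 0 ≤ dep a b z := mem_Icc_iff_dep.1 hz
      have hdθ : dep a b z < θ := by
        by_contra hcon
        push Not at hcon
        exact hzs (mem_shr.2 hcon)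
      -- depth is attained in direction `i`
      have hzi : |z i - x i| ≤ m := (norm_le_pi_norm (z - x) i).trans hzx
      have hzi' := abs_le.1 hzi
      have hmem : z ∈ colSet a b θ := ⟨hdz, hdθ.le⟩
      have hother : ∀ j, j ≠ i → m ≤ z j - a j ∧ m ≤ b j - z j := by
        intro j hj
        rw [hij j hj]
        have := hj' j hj
        exact ⟨by linarith [this.1], by linarith [this.2]⟩
      have hzI : a i ≤ z i ∧ z i ≤ b i := ⟨hz.1 i, hz.2 i⟩
      have hdi : dep a b z = min (z i - a i) (b i - z i) := by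
        apply le_antisymm
        · exact le_min (dep_le i).1 (dep_le i).2
        · obtain ⟨k, hk⟩ := exists_dep a b z
          by_cases hki : k = i
          · subst hki
            rcases hk with hk | hk
            · rw [hk]; exact min_le_left _ _
            · rw [hk]; exact min_le_right _ _
          · exfalso
            obtain ⟨o1, o2⟩ := hother k hki
            rcases hk with hk | hk <;> linarith
      have hσ : 0 ≤ dep a b z := hdz
      have hκm : θ / m * m = θ := div_mul_cancel₀ _ hm.ne'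
      have hσm : dep a b z ≤ θ / m * m := by rw [hκm]; exact hdθ.le
      have ht : 1 - dep a b z / θ ∈ Icc (0:ℝ) 1 := by
        have h1 : dep a b z / θ ≤ 1 := (div_le_one hθ).2 hdθ.le
        have h2 : 0 ≤ dep a b z / θ := div_nonneg hdz hθ.le
        exact ⟨by linarith, by linarith⟩
      have hzp : pC a b m θ (x, 1 - dep a b z / θ) = z := by
        funext k
        show cF (a k) (b k) m (θ / m) (θ * (1 - (1 - dep a b z / θ))) (x k) = z k
        have : θ * (1 - (1 - dep a b z / θ)) = dep a b z := by field_simp; ring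
        rw [this]
        by_cases hki : k = i
        · subst hki
          rcases hi with h | h
          · rw [h, cF_A hσ hσm hm (hAB k), hdi]
            rw [h] at hzi'
            rw [min_eq_left (by linarith [hab k])]; ring
          · rw [h, cF_B hσ hσm hm (hAB k), hdi]
            rw [h] at hzi'
            rw [min_eq_right (by linarith [hab k])]; ring
        · have := hj' k hki
          rw [cF_mid hσ (by linarith [this.1]) (by linarith [this.2]), hij k hki]
      rw [e1 hmem]
      conv_lhs => rw [← hzp]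
      rw [hG x hxf _ ht, F3 x hxX _ ht, hzp]
  · intro z hz
    rw [ConHomeo.cast_toFun]
    have hpos : 0 ≤ 3 * ε + 2 * θ := by linarith
    by_cases hzs : z ∈ shr a b θ
    · rw [e2 hzs]
      show ‖z - z‖ ≤ _
      rw [sub_self, norm_zero]; exact hpos
    · have hdz : 0 ≤ dep a b z := mem_Icc_iff_dep.1 hz
      have hdθ : dep a b z < θ := by
        by_contra hcon
        push Not at hcon
        exact hzs (mem_shr.2 hcon)
      have hmem : z ∈ colSet a b θ := ⟨hdz, hdθ.le⟩
      rw [e1 hmem]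
      obtain ⟨g1, g2, g3⟩ := pC_qC hm hab hθ hθm hdz hdθ.le
      have h5 := hG _ g1 _ g2
      rw [Prod.mk.eta, g3] at h5
      have h6 := F.mapsTo (show qC a b m θ z ∈ frontier (Icc a b) ×ˢ Icc (0:ℝ) 1 from ⟨g1, g2⟩)
      have h7 := F4 _ g1 _ g2
      rw [Prod.mk.eta] at h7
      have h8 := pC_close (a := a) (b := b) hm hθ hθm (x := (qC a b m θ z).1)
        (x' := (F.toFun (qC a b m θ z)).1) (t := (qC a b m θ z).2)
        (t' := (F.toFun (qC a b m θ z)).2) g2 h6.2
      rw [Prod.mk.eta, Prod.mk.eta, g3, ← h5] at h8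
      linarith

end box

end P073.H16
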