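import Vale.Agent.P073.H16.CollarE
import Vale.Agent.P073.GB73.SpecCollar
import Vale.Agent.P073.H407.DefsE

/-!
# P073 / H16: `SpecCollar` with control of the size, from the small form of GB4
-/

open Set Metric Topology Filter

namespace P073.H16

open P073 P073.GB73 P073.H399
open Vale.Agent.P073.St (V)
open P073.Cell (CollarPropE)

/-- **(small GB4)** (owner helper399) -/
def SmallGB4 : Prop :=
  ∀ X : Set V, X.Finite → X ⊆ S2 → ∀ ε : ℝ, 0 < ε → ∃ ρ > 0, ∀ φ : ConHomeo S2 S2,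
    (∀ x ∈ X, φ.toFun x = x) → (∀ x ∈ S2, ‖φ.toFun x - x‖ ≤ ρ) → IsoE S2 X ε φ

/-- small GB4 on any conical sphere of three-space -/
theorem isoE_of_conHomeo (h4 : SmallGB4) {S : Set V} (hS : IsCompact S) (g : ConHomeo S S2)
    {X : Set V} (hX : X.Finite) (hXS : X ⊆ S) {ε : ℝ} (hε : 0 < ε) :
    ∃ ρ > 0, ∀ φ : ConHomeo S S, (∀ x ∈ X, φ.toFun x = x) →
      (∀ x ∈ S, ‖φ.toFun x - x‖ ≤ ρ) → IsoE S X ε φ := by
  obtain ⟨ε', hε', hg'⟩ := exists_conj_close (isCompact_sphere (0:V) 1) g.symm hε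
  obtain ⟨ρ1, hρ1, H⟩ := h4 (g.toFun '' X) (hX.image _) (by
    rintro _ ⟨x, hx, rfl⟩; exact g.mapsTo (hXS hx)) ε' hε'
  obtain ⟨ρ, hρ, hg⟩ := exists_conj_close hS g hρ1
  refine ⟨ρ, hρ, fun φ hφ hφc => IsoE.conj (ε' := ε') g hXS (H _ ?_ ?_) ?_⟩
  · rintro _ ⟨x, hx, rfl⟩
    show g.toFun (φ.toFun (g.invFun (g.toFun x))) = g.toFun x
    rw [g.left_inv (hXS hx), hφ x hx]
  · intro v hv
    have hm := g.mapsTo_inv hv
    have := hg _ hm _ (φ.mapsTo hm) (hφc _ hm)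
    rw [g.right_inv hv] at this
    exact this
  · intro x hx y hy hxy
    exact hg' y hy x hx hxy

/-- surface of a box -/
theorem isoE_box (h4 : SmallGB4) {a b : V} (hab : ∀ i, a i < b i) {X : Set V} (hX : X.Finite)
    (hXS : X ⊆ frontier (Icc a b)) {ε : ℝ} (hε : 0 < ε) :
    ∃ ρ > 0, ∀ φ : ConHomeo (frontier (Icc a b)) (frontier (Icc a b)),
      (∀ x ∈ X, φ.toFun x = x) → (∀ x ∈ frontier (Icc a b), ‖φ.toFun x - x‖ ≤ ρ) →
      IsoE (frontier (Icc a b)) X ε φ := by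
  obtain ⟨g, -⟩ := exists_boxSphere hab
  exact isoE_of_conHomeo h4 (isCompact_Icc.of_isClosed_subset isClosed_frontier
      isClosed_Icc.frontier_subset) g.symm hX hXS hε

/-- **(GB4c)** with control of the size -/
theorem specCollarE (h4 : SmallGB4) {a b : V} {m : ℝ} (hm : 0 < m)
    (hab : ∀ i, 2 * m < b i - a i) {X : Set V} (hX : X.Finite)
    (hXf : ∀ x ∈ X, ∃ i, (x i = a i ∨ x i = b i) ∧ ∀ j ≠ i, a j + m ≤ x j ∧ x j ≤ b j - m)
    {ε : ℝ} (hε : 0 < ε) : ∃ ρ > 0, CollarPropE a b m X ρ ε := by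
  have hab' : ∀ i, a i < b i := fun i => by linarith [hab i]
  have hXS : X ⊆ frontier (Icc a b) := fun x hx => mem_frontier_of_face hm hab (hXf x hx)
  obtain ⟨ρ, hρ, H⟩ := isoE_box h4 hab' hX hXS (show 0 < ε / 6 by positivity)
  refine ⟨ρ, hρ, fun φ hφ hφc θ hθ hθm => ?_⟩
  have hθ' : 0 < min θ (ε / 4) := lt_min hθ (by positivity)
  obtain ⟨Φ, h1, h2, h3, h5⟩ := collar_of_isoE (by positivity) hm hab hXS hXf (H φ hφ hφc) hθ'
    ((min_le_left _ _).trans_lt hθm)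
  refine ⟨Φ, h1, fun x hx => h2 x ?_, h3, fun x hx => (h5 x hx).trans ?_⟩
  · rw [mem_shr] at hx ⊢
    exact (min_le_left _ _).trans hx
  · have := min_le_right θ (ε / 4)
    linarith

end P073.H16
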