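import Vale.Agent.P073.H407.Count
import Vale.Agent.P073.H253.R1Parts
import Vale.Agent.P073.H83.Sq
import Vale.Agent.P073.AB.Graph907

/-!
# P073 / H16: squares and edges of several generations (any direction)
-/

open Set Metric Topology Filter MeasureTheory
open scoped ENNReal

namespace Vale.Agent.P073.H16

open Vale.Agent.P073.St (V)
open Vale.Agent.P073.AB
open Vale.Agent.P073.H194 (sInt up)
open Vale.Agent.P073.H253 (rectN redgeN ledge)
open Vale.Agent.P073.H407 (parI subs mem_subs card_subs squ_sub_of_subs sInt_split)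

theorem mem_rectN {l : Fin 3} {a b k : Fin 3 → ℤ} : k ∈ rectN l a b ↔
    k l = a l ∧ ∀ j, j ≠ l → a j ≤ k j ∧ k j < b j := by
  unfold rectN
  rw [Fintype.mem_piFinset]
  constructor
  · intro h
    refine ⟨by simpa using h l, fun j hj => ?_⟩
    have := h j
    rwa [if_neg hj, Finset.mem_Ico] at this
  · rintro ⟨h1, h2⟩ j
    by_cases hj : j = l
    · subst hj; rw [if_pos rfl, Finset.mem_singleton]; exact h1
    · rw [if_neg hj, Finset.mem_Ico]; exact h2 j hj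

theorem parI_eqN {l : Fin 3} {d : ℕ} {w k : Fin 3 → ℤ} (h : w ∈ subs k l d) : parI d w = k := by
  have h2 : (0:ℤ) < 2 ^ d := by positivity
  rw [mem_subs] at h
  funext j
  by_cases hj : j = l
  · subst hj
    show w j / 2 ^ d = k j
    rw [h.1, Int.mul_ediv_cancel _ h2.ne']
  · obtain ⟨h3, h4⟩ := h.2 j hj
    show w j / 2 ^ d = k j
    refine le_antisymm ?_ ?_
    · exact Int.lt_add_one_iff.1 ((Int.ediv_lt_iff_lt_mul h2).2 h4)
    · exact (Int.le_ediv_iff_mul_le h2).2 h3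

theorem mem_rectN_up {l : Fin 3} {m d : ℕ} {α β w : Fin 3 → ℤ} :
    w ∈ rectN l (up m (m + d) α) (up m (m + d) β) ↔
      parI d w ∈ rectN l α β ∧ w ∈ subs (parI d w) l d := by
  have h2 : (0:ℤ) < 2 ^ d := by positivity
  have hup : ∀ (α : Fin 3 → ℤ) j, up m (m + d) α j = α j * 2 ^ d := fun α j => by
    show 2 ^ (m + d - m) * α j = _
    rw [Nat.add_sub_cancel_left, mul_comm]
  rw [mem_rectN, mem_rectN, mem_subs]
  simp only [hup, parI]
  constructor
  · rintro ⟨h3, h4⟩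
    have h5 : w l / 2 ^ d = α l := by rw [h3, Int.mul_ediv_cancel _ h2.ne']
    refine ⟨⟨h5, fun j hj => ?_⟩, by rw [h5, h3], fun j hj => ?_⟩
    · obtain ⟨h6, h7⟩ := h4 j hj
      exact ⟨(Int.le_ediv_iff_mul_le h2).2 h6, (Int.ediv_lt_iff_lt_mul h2).2 h7⟩
    · exact ⟨Int.ediv_mul_le _ h2.ne', Int.lt_ediv_add_one_mul_self _ h2⟩
  · rintro ⟨⟨h3, h4⟩, h5, h6⟩
    refine ⟨by rw [h5, h3], fun j hj => ?_⟩
    obtain ⟨h7, h8⟩ := h4 j hj
    obtain ⟨h9, h10⟩ := h6 j hj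
    have h8' : w j / 2 ^ d + 1 ≤ β j := h8
    constructor
    · exact (mul_le_mul_of_nonneg_right h7 h2.le).trans h9
    · exact lt_of_lt_of_le h10 (mul_le_mul_of_nonneg_right h8' h2.le)

theorem rectN_up {l : Fin 3} {m d : ℕ} {α β : Fin 3 → ℤ} :
    rectN l (up m (m + d) α) (up m (m + d) β) = (rectN l α β).biUnion fun k => subs k l d := by
  ext w
  rw [mem_rectN_up, Finset.mem_biUnion]
  constructor
  · rintro ⟨h1, h2⟩; exact ⟨_, h1, h2⟩
  · rintro ⟨k, h1, h2⟩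
    rw [parI_eqN h2]; exact ⟨h1, h2⟩

theorem subs_disjN (l : Fin 3) (d : ℕ) (S : Set (Fin 3 → ℤ)) :
    S.PairwiseDisjoint fun k => subs k l d := by
  intro k _ k' _ hkk
  show Disjoint (subs k l d) (subs k' l d)
  rw [Finset.disjoint_left]
  intro w hw hw'
  exact hkk ((parI_eqN hw).symm.trans (parI_eqN hw'))

/-- a small square in a large square belongs to the subdivision -/
theorem subs_of_squ_subN {l : Fin 3} {v : V} {m d : ℕ} {k k₀ : Fin 3 → ℤ}
    (h : squ v ((m + d, k), l) ⊆ squ v ((m, k₀), l)) : k ∈ subs k₀ l d := by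
  have hm : (0:ℝ) < 2 ^ m := by positivity
  have hd : (0:ℝ) < 2 ^ d := by positivity
  have e : (2:ℝ) ^ (m + d) = 2 ^ m * 2 ^ d := pow_add _ _ _
  have h1 : (fun j => v j + (k j : ℝ) / 2 ^ (m + d)) ∈ squ v ((m + d, k), l) := by
    refine ⟨rfl, fun j _ => ⟨le_rfl, ?_⟩⟩
    show v j + (k j : ℝ) / 2 ^ (m + d) ≤ v j + (k j + 1) / 2 ^ (m + d)
    gcongr
    linarith
  have h2 : (fun j => if j = l then v l + (k l : ℝ) / 2 ^ (m + d) else
      v j + ((k j : ℝ) + 1) / 2 ^ (m + d)) ∈ squ v ((m + d, k), l) := by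
    refine ⟨by simp, fun j hj => ?_⟩
    simp only at hj ⊢
    rw [if_neg hj]
    refine ⟨?_, le_rfl⟩
    gcongr
    linarith
  have g1 := h h1
  have g2 := h h2
  rw [mem_subs]
  refine ⟨?_, fun j hj => ⟨?_, ?_⟩⟩
  · have := g1.1
    simp only [e] at this
    have h3 : (k l : ℝ) / (2 ^ m * 2 ^ d) = k₀ l / 2 ^ m := by linarith
    have h4 : (k l : ℝ) = k₀ l * 2 ^ d := by
      field_simp at h3
      linarith
    exact_mod_cast h4
  · have := (g1.2 j hj).1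
    simp only [e] at this
    have h3 : (k₀ j : ℝ) / 2 ^ m ≤ k j / (2 ^ m * 2 ^ d) := by linarith
    rw [div_le_div_iff₀ hm (by positivity)] at h3
    have h4 : (k₀ j : ℝ) * 2 ^ d ≤ k j := by
      have : ((k₀ j : ℝ) * 2 ^ d) * 2 ^ m ≤ k j * 2 ^ m := by linarith
      exact le_of_mul_le_mul_right this hm
    exact_mod_cast h4
  · have := (g2.2 j hj).2
    simp only [e, if_neg hj] at this
    have h3 : ((k j : ℝ) + 1) / (2 ^ m * 2 ^ d) ≤ (k₀ j + 1) / 2 ^ m := by linarith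
    rw [div_le_div_iff₀ (by positivity) hm] at h3
    have h4 : (k j : ℝ) + 1 ≤ (k₀ j + 1) * 2 ^ d := by
      have : ((k j : ℝ) + 1) * 2 ^ m ≤ ((k₀ j + 1) * 2 ^ d) * 2 ^ m := by linarith
      exact le_of_mul_le_mul_right this hm
    have h5 : k j + 1 ≤ (k₀ j + 1) * 2 ^ d := by exact_mod_cast h4
    exact h5

theorem card_rectN_up (l : Fin 3) (m d : ℕ) (α β : Fin 3 → ℤ) :
    (rectN l (up m (m + d) α) (up m (m + d) β)).card = (rectN l α β).card * 4 ^ d := by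
  rw [rectN_up, Finset.card_biUnion (fun x hx y hy hxy => subs_disjN l d univ (mem_univ x)
    (mem_univ y) hxy), Finset.sum_congr rfl fun k _ => card_subs k l d, Finset.sum_const,
    smul_eq_mul]

theorem up_up (m d d' : ℕ) (α : Fin 3 → ℤ) :
    up m (m + d + d') α = up (m + d) (m + d + d') (up m (m + d) α) := by
  funext j
  show 2 ^ (m + d + d' - m) * α j = 2 ^ (m + d + d' - (m + d)) * (2 ^ (m + d - m) * α j)
  rw [Nat.add_sub_cancel_left, Nat.add_sub_cancel_left,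
    show m + d + d' - m = d' + d by omega, pow_add]
  ring

/-- squares of the generations `m ≤ n₃ ≤ nS` in the rectangle -/
theorem countN (l : Fin 3) (v : V) (m n₃ nS : ℕ) (α β : Fin 3 → ℤ) (h1 : m ≤ n₃) (h2 : n₃ ≤ nS) :
    ((rectN l (up m n₃ α) (up m n₃ β)).card : ℝ) / 4 ^ n₃ = (rectN l α β).card / 4 ^ m ∧
    (∀ k, (∃ k₀ ∈ rectN l α β, squ v ((n₃, k), l) ⊆ squ v ((m, k₀), l)) →
      k ∈ rectN l (up m n₃ α) (up m n₃ β)) ∧
    (∀ H : V → ℝ≥0∞, Measurable H →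
      ∑ k ∈ rectN l (up m n₃ α) (up m n₃ β), sInt v ((n₃, k), l) H =
        ∑ k ∈ rectN l α β, sInt v ((m, k), l) H) ∧
    ∃ par : (Fin 3 → ℤ) → (Fin 3 → ℤ), (∀ k ∈ rectN l (up m nS α) (up m nS β),
        par k ∈ rectN l (up m n₃ α) (up m n₃ β) ∧
        squ v ((nS, k), l) ⊆ squ v ((n₃, par k), l)) ∧
      ∀ k₃ ∈ rectN l (up m n₃ α) (up m n₃ β),
        (((rectN l (up m nS α) (up m nS β)).filter fun k => par k = k₃).card : ℝ) / 4 ^ nS ≤
          1 / 4 ^ n₃ := by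
  classical
  obtain ⟨d, rfl⟩ := Nat.exists_eq_add_of_le h1
  obtain ⟨d', rfl⟩ := Nat.exists_eq_add_of_le h2
  refine ⟨?_, ?_, ?_, ?_⟩
  · rw [card_rectN_up, pow_add]
    push_cast
    field_simp
  · rintro k ⟨k₀, hk₀, hk⟩
    rw [rectN_up, Finset.mem_biUnion]
    exact ⟨k₀, hk₀, subs_of_squ_subN hk⟩
  · intro H hH
    rw [rectN_up, Finset.sum_biUnion (subs_disjN l d _)]
    exact Finset.sum_congr rfl fun k _ => sInt_split v m k l d hH
  · rw [up_up m d d' α, up_up m d d' β]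
    refine ⟨parI d', fun k hk => ?_, fun k₃ hk₃ => ?_⟩
    · obtain ⟨h3, h4⟩ := mem_rectN_up.1 hk
      exact ⟨h3, squ_sub_of_subs h4⟩
    · have h3 : ((rectN l (up (m + d) (m + d + d') (up m (m + d) α))
          (up (m + d) (m + d + d') (up m (m + d) β))).filter fun k => parI d' k = k₃) ⊆
          subs k₃ l d' := by
        intro k hk
        obtain ⟨h4, h5⟩ := Finset.mem_filter.1 hk
        have := (mem_rectN_up.1 h4).2
        rwa [h5] at this
      have h4 := Finset.card_le_card h3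
      rw [card_subs] at h4
      have h5 : ((((rectN l (up (m + d) (m + d + d') (up m (m + d) α))
          (up (m + d) (m + d + d') (up m (m + d) β))).filter fun k => parI d' k = k₃).card : ℕ) :
          ℝ) ≤ 4 ^ d' := by exact_mod_cast h4
      rw [pow_add _ (m + d) d', div_le_div_iff₀ (by positivity) (by positivity)]
      nlinarith [pow_pos (show (0:ℝ) < 4 by norm_num) (m + d)]

/-! ### Edges of a line -/

theorem mem_Ico_up {d : ℕ} {α β k : ℤ} :
    k ∈ Finset.Ico (2 ^ d * α) (2 ^ d * β) ↔ k / 2 ^ d ∈ Finset.Ico α β := by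
  have h2 : (0:ℤ) < 2 ^ d := by positivity
  rw [Finset.mem_Ico, Finset.mem_Ico, Int.le_ediv_iff_mul_le h2, Int.ediv_lt_iff_lt_mul h2,
    mul_comm α, mul_comm β]

theorem mem_Ico_one {d : ℕ} {a k : ℤ} :
    k ∈ Finset.Ico (2 ^ d * a) (2 ^ d * (a + 1)) ↔ k / 2 ^ d = a := by
  rw [mem_Ico_up, Finset.mem_Ico]
  omega

theorem Ico_up {d : ℕ} {α β : ℤ} :
    Finset.Ico (2 ^ d * α) (2 ^ d * β) =
      (Finset.Ico α β).biUnion fun a => Finset.Ico (2 ^ d * a) (2 ^ d * (a + 1)) := by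
  ext k
  rw [mem_Ico_up, Finset.mem_biUnion]
  constructor
  · intro h; exact ⟨_, h, mem_Ico_one.2 rfl⟩
  · rintro ⟨a, h1, h2⟩
    rw [mem_Ico_one.1 h2]; exact h1

theorem Ico_disjN (d : ℕ) (S : Set ℤ) :
    S.PairwiseDisjoint fun a : ℤ => Finset.Ico (2 ^ d * a) (2 ^ d * (a + 1)) := by
  intro a _ a' _ haa
  show Disjoint (Finset.Ico _ _) (Finset.Ico _ _)
  rw [Finset.disjoint_left]
  intro k hk hk'
  exact haa ((mem_Ico_one.1 hk).symm.trans (mem_Ico_one.1 hk'))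

theorem ledge_split (v : V) (m d : ℕ) (k₁ k₂ a : ℤ) {H : V → ℝ≥0∞} (hH : Measurable H) :
    ∑ k ∈ Finset.Ico (2 ^ d * a) (2 ^ d * (a + 1)),
      eInt v (ledge (m + d) (2 ^ d * k₁) (2 ^ d * k₂) k) H = eInt v (ledge m k₁ k₂ a) H := by
  have h := H83.eInt_split v (Nat.le_add_right m d) ![a, k₁, k₂] 0 hH
  rw [Nat.add_sub_cancel_left] at h
  refine Eq.trans (Finset.sum_congr rfl fun k _ => ?_) h
  have : (![k, 2 ^ d * k₁, 2 ^ d * k₂] : Fin 3 → ℤ) =
      Function.update (fun j => 2 ^ d * (![a, k₁, k₂] : Fin 3 → ℤ) j) 0 k := by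
    funext j
    fin_cases j <;> rfl
  rw [ledge, this]

/-- an edge of the line lies in the edge of the coarser generation -/
theorem ledge_sub {v : V} {m d : ℕ} {k₁ k₂ a k : ℤ} (h : k / 2 ^ d = a) :
    edge v (ledge (m + d) (2 ^ d * k₁) (2 ^ d * k₂) k) ⊆ edge v (ledge m k₁ k₂ a) := by
  have h2 : (0:ℤ) < 2 ^ d := by positivity
  have hm : (0:ℝ) < 2 ^ m := by positivity
  have hd : (0:ℝ) < 2 ^ d := by positivity
  have e : (2:ℝ) ^ (m + d) = 2 ^ m * 2 ^ d := pow_add _ _ _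
  have h3 : a * 2 ^ d ≤ k := by rw [← h]; exact Int.ediv_mul_le _ h2.ne'
  have h4 : k + 1 ≤ (a + 1) * 2 ^ d := by
    rw [← h]; exact Int.lt_ediv_add_one_mul_self _ h2
  have h3' : (a : ℝ) * 2 ^ d ≤ k := by exact_mod_cast h3
  have h4' : (k : ℝ) + 1 ≤ (a + 1) * 2 ^ d := by exact_mod_cast h4
  intro x hx
  rw [Gr.mem_edge] at hx ⊢
  obtain ⟨h5, h6, h7⟩ := hx
  refine ⟨fun j hj => ?_, ?_, ?_⟩
  · rw [h5 j hj]
    have hj0 : j ≠ 0 := hj
    fin_cases j
    · exact absurd rfl hj0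
    · show v 1 + ((2 ^ d * k₁ : ℤ) : ℝ) / 2 ^ (m + d) = v 1 + (k₁ : ℝ) / 2 ^ m
      rw [e]; push_cast; field_simp
    · show v 2 + ((2 ^ d * k₂ : ℤ) : ℝ) / 2 ^ (m + d) = v 2 + (k₂ : ℝ) / 2 ^ m
      rw [e]; push_cast; field_simp
  · refine le_trans ?_ h6
    show v 0 + (a : ℝ) / 2 ^ m ≤ v 0 + (k : ℝ) / 2 ^ (m + d)
    rw [add_le_add_iff_left, e, div_le_div_iff₀ hm (by positivity)]
    nlinarith
  · refine h7.trans ?_
    show v 0 + ((k : ℝ) + 1) / 2 ^ (m + d) ≤ v 0 + ((a : ℝ) + 1) / 2 ^ m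
    rw [add_le_add_iff_left, e, div_le_div_iff₀ (by positivity) hm]
    nlinarith

end Vale.Agent.P073.H16
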