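import Vale.Agent.P073.Gauge.Lin907

/-!
# P073, block GLUE: edge estimates for `φ⁻¹ ∘ h`

`φ : ConHomeo R R'` is a conical homeomorphism of open sets, `γ t = a + t • w` is a segment in `R`
and `h` is uniformly close to `φ` on the segment, with derivative `L¹`-close to the derivative of
`φ`. Then `φ⁻¹ ∘ h ∘ γ` is close to `γ` with derivative `L¹`-close to `w`.
-/

open Set Metric Topology MeasureTheory Filter
open scoped ENNReal NNReal

namespace Vale.Agent.P073.H16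

open _root_.P073
open Vale.Agent.P073.St (V)

section gen

variable {E F : Type*} [NormedAddCommGroup E] [NormedSpace ℝ E]
  [NormedAddCommGroup F] [NormedSpace ℝ F]

/-- conical continuous maps are Lipschitz on compact sets -/
theorem exists_lip_cpt [FiniteDimensional ℝ E] {h : E → F} {Ω : Set E}
    (hΩ : IsOpen Ω) (H : ConicalOn h Ω) (hc : ContinuousOn h Ω) {K : Set E} (hK : IsCompact K)
    (hKΩ : K ⊆ Ω) : ∃ C : ℝ, 0 < C ∧ ∀ x ∈ K, ∀ y ∈ K, ‖h x - h y‖ ≤ C * ‖x - y‖ := by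
  choose δ hδ hb M hM using fun x : Ω => exists_lipschitz_near hΩ H hc x.2
  obtain ⟨T, hT⟩ := hK.elim_nhds_subcover' (fun x hx => ball x (δ ⟨x, hKΩ hx⟩))
    (fun x hx => ball_mem_nhds x (hδ ⟨x, hKΩ hx⟩))
  obtain ⟨ε, hε, hL⟩ := lebesgue_number_lemma_of_metric
    (c := fun x : {x // x ∈ T} => ball (x.1 : E) (δ ⟨x.1, hKΩ x.1.2⟩)) hK
    (fun x => isOpen_ball) (by
      intro y hy
      obtain ⟨x, hx, hxy⟩ := mem_iUnion₂.1 (hT hy)
      exact mem_iUnion.2 ⟨⟨x, hx⟩, hxy⟩)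
  obtain ⟨B, hB⟩ := (hK.image_of_continuousOn (hc.mono hKΩ)).isBounded.exists_norm_le
  have hS : (0:ℝ) ≤ ∑ x ∈ T, (M ⟨x.1, hKΩ x.2⟩ : ℝ) := Finset.sum_nonneg fun x _ => (M _).2
  have hBε : 0 ≤ 2 * |B| / ε := by positivity
  refine ⟨(∑ x ∈ T, (M ⟨x.1, hKΩ x.2⟩ : ℝ)) + 2 * |B| / ε + 1, by positivity,
    fun x hx y hy => ?_⟩
  by_cases hxy : ‖x - y‖ < ε
  · obtain ⟨z, hz⟩ := hL x hx
    have h1 := (hM ⟨z.1, hKΩ z.1.2⟩).dist_le_mul x (hz (mem_ball_self hε)) y
      (hz (by rw [mem_ball, dist_comm, dist_eq_norm]; exact hxy))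
    rw [dist_eq_norm, dist_eq_norm] at h1
    refine h1.trans (mul_le_mul_of_nonneg_right ?_ (norm_nonneg _))
    have h2 : (M ⟨z.1, hKΩ z.1.2⟩ : ℝ) ≤ ∑ x ∈ T, (M ⟨x.1, hKΩ x.2⟩ : ℝ) :=
      Finset.single_le_sum (f := fun x : K => (M ⟨x.1, hKΩ x.2⟩ : ℝ)) (fun x _ => (M _).2) z.2
    linarith
  · push Not at hxy
    have h1 : ‖h x‖ ≤ |B| := (hB _ ⟨x, hx, rfl⟩).trans (le_abs_self B)
    have h2 : ‖h y‖ ≤ |B| := (hB _ ⟨y, hy, rfl⟩).trans (le_abs_self B)
    calc ‖h x - h y‖ ≤ ‖h x‖ + ‖h y‖ := norm_sub_le _ _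
      _ ≤ 2 * |B| / ε * ε := by rw [div_mul_cancel₀ _ hε.ne']; linarith
      _ ≤ 2 * |B| / ε * ‖x - y‖ := mul_le_mul_of_nonneg_left hxy hBε
      _ ≤ _ := mul_le_mul_of_nonneg_right (by linarith) (norm_nonneg _)

variable {R : Set E} {R' : Set F}

/-- near a point of the segment where the direction is in the linearity space, the inverse is
invariant under the translation `(m, w)`. -/
theorem inv_near (hR : IsOpen R) (hR' : IsOpen R') (φ : ConHomeo R R') {a w : E} {t₀ : ℝ}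
    (ht : a + t₀ • w ∈ R) (hw : w ∈ linSpace φ.toFun (a + t₀ • w)) :
    ∃ r > 0, ∃ m : F, ∀ t : ℝ, |t - t₀| < r →
      HasDerivAt (fun s : ℝ => φ.toFun (a + s • w)) m t ∧
      ∀ z : F, ‖z - φ.toFun (a + t • w)‖ < r → ∀ s : ℝ, |s| < r →
        φ.invFun (z + s • m) = φ.invFun z + s • w := by
  set x₀ := a + t₀ • w with hx₀
  set m := tcone φ.toFun x₀ w with hm
  obtain ⟨ρ, hρ, hform⟩ := (φ.conical.conicalAt hR ht).exists_tcone
  obtain ⟨ρ', hρ', hb⟩ := Metric.isOpen_iff.1 hR x₀ ht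
  -- the radius of the neighbourhood of `x₀`
  set κ := min ρ ρ' with hκ
  have hκ0 : 0 < κ := lt_min hρ hρ'
  -- continuity of the inverse at `φ x₀`
  have hp : φ.toFun x₀ ∈ R' := φ.mapsTo ht
  have hcinv : ContinuousAt φ.invFun (φ.toFun x₀) := φ.cont_inv.continuousAt (hR'.mem_nhds hp)
  have hinv : ∀ᶠ z in 𝓝 (φ.toFun x₀), z ∈ R' ∧ ‖φ.invFun z - x₀‖ < κ / 2 := by
    refine (hR'.eventually_mem hp).and ?_
    have h1 : Tendsto φ.invFun (𝓝 (φ.toFun x₀)) (𝓝 x₀) := by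
      have h2 := hcinv.tendsto
      rwa [φ.left_inv ht] at h2
    have h3 := (Metric.tendsto_nhds.1 h1) (κ / 2) (by positivity)
    filter_upwards [h3] with z hz
    rwa [dist_eq_norm] at hz
  obtain ⟨r₁, hr₁, hr₁'⟩ := Metric.eventually_nhds_iff.1 hinv
  -- continuity of `φ ∘ γ` at `t₀`
  have hγ : ∀ t : ℝ, a + t • w = x₀ + (t - t₀) • w := fun t => by rw [hx₀]; module
  have hcw : Continuous fun t : ℝ => ‖(t - t₀) • w‖ := by fun_prop
  have hev : ∀ᶠ t : ℝ in 𝓝 t₀, ‖(t - t₀) • w‖ < κ ∧ ‖φ.toFun (a + t • w) - φ.toFun x₀‖ < r₁ / 2 := by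
    have e1 : ∀ᶠ t : ℝ in 𝓝 t₀, ‖(t - t₀) • w‖ < κ :=
      hcw.continuousAt.eventually_lt_const (by simpa using hκ0)
    refine e1.and ?_
    have hcφ : ContinuousAt (fun t : ℝ => φ.toFun (a + t • w)) t₀ := by
      have h1 : ContinuousAt φ.toFun (a + t₀ • w) := φ.cont.continuousAt (hR.mem_nhds ht)
      exact ContinuousAt.comp (g := φ.toFun) h1 (by fun_prop)
    have h3 := (Metric.tendsto_nhds.1 hcφ.tendsto) (r₁ / 2) (by positivity)
    filter_upwards [h3] with t ht'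
    rwa [dist_eq_norm] at ht'
  obtain ⟨r₂, hr₂, hr₂'⟩ := Metric.eventually_nhds_iff.1 hev
  -- shifts
  have hev3 : ∀ᶠ s : ℝ in 𝓝 0, ‖s • w‖ < κ / 2 := by
    have hc : Continuous fun s : ℝ => ‖s • w‖ := by fun_prop
    exact hc.continuousAt.eventually_lt_const (by simpa using (by positivity : 0 < κ / 2))
  obtain ⟨r₃, hr₃, hr₃'⟩ := Metric.eventually_nhds_iff.1 hev3
  refine ⟨min (min (r₁ / 2) r₂) r₃, by positivity, m, fun t htt => ⟨?_, fun z hz s hs => ?_⟩⟩
  · -- derivative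
    have htt2 : dist t t₀ < r₂ := by
      rw [Real.dist_eq]; exact htt.trans_le ((min_le_left _ _).trans (min_le_right _ _))
    have hlin : HasDerivAt (fun s : ℝ => φ.toFun x₀ + (s - t₀) • m) m t := by
      have h1 : HasDerivAt (fun s : ℝ => s - t₀) 1 t := (hasDerivAt_id t).sub_const t₀
      have h2 := (h1.smul_const m).const_add (φ.toFun x₀)
      rw [one_smul] at h2
      exact h2
    refine hlin.congr_of_eventuallyEq ?_
    have hball : ∀ᶠ s : ℝ in 𝓝 t, dist s t₀ < r₂ := by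
      have : ball t₀ r₂ ∈ 𝓝 t := isOpen_ball.mem_nhds htt2
      exact this
    filter_upwards [hball] with s hs
    have h1 := (hr₂' hs).1
    rw [hγ s, hform _ (h1.le.trans (min_le_left _ _)), tcone_smul_of_mem hw]
  · have htt2 : dist t t₀ < r₂ := by
      rw [Real.dist_eq]; exact htt.trans_le ((min_le_left _ _).trans (min_le_right _ _))
    have h1 := (hr₂' htt2).2
    have hz1 : dist z (φ.toFun x₀) < r₁ := by
      rw [dist_eq_norm]
      have h2 : z - φ.toFun x₀ = (z - φ.toFun (a + t • w)) +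
          (φ.toFun (a + t • w) - φ.toFun x₀) := by abel
      rw [h2]
      refine (norm_add_le _ _).trans_lt ?_
      have h3 := hz.trans_le ((min_le_left _ _).trans (min_le_left _ _))
      linarith
    obtain ⟨hzR, hzn⟩ := hr₁' hz1
    set y := φ.invFun z with hy
    have hsw : ‖s • w‖ < κ / 2 := hr₃' (by
      rw [Real.dist_eq, sub_zero]; exact hs.trans_le (min_le_right _ _))
    set u := y - x₀ with hu
    have hyu : y = x₀ + u := by rw [hu]; abel
    have hus : ‖u + s • w‖ < κ := (norm_add_le _ _).trans_lt (by linarith)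
    have hyR : y + s • w ∈ R := by
      apply hb
      rw [mem_ball, dist_eq_norm, hyu]
      have : x₀ + u + s • w - x₀ = u + s • w := by abel
      rw [this]
      exact hus.trans_le (min_le_right _ _)
    have hφy : φ.toFun y = z := φ.right_inv hzR
    have h5 : φ.toFun (y + s • w) = z + s • m := by
      have h6 : y + s • w = x₀ + (u + s • w) := by rw [hyu]; abel
      have h7 : ‖u‖ ≤ ρ := (hzn.le.trans (half_le_self hκ0.le)).trans (min_le_left _ _)
      rw [h6, hform _ (hus.le.trans (min_le_left _ _)), hw s u, ← add_assoc, ← hform u h7, ← hyu,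
        hφy]
    rw [← h5, φ.left_inv hyR]

/-- uniform version away from finitely many parameters -/
theorem inv_unif (hR : IsOpen R) (hR' : IsOpen R') (φ : ConHomeo R R') {a w : E}
    {K : Set ℝ} (hK : IsCompact K) (hKR : ∀ t ∈ K, a + t • w ∈ R ∧
      w ∈ linSpace φ.toFun (a + t • w)) :
    ∃ r > 0, ∀ t ∈ K, ∃ m : F, HasDerivAt (fun s : ℝ => φ.toFun (a + s • w)) m t ∧
      ∀ z : F, ‖z - φ.toFun (a + t • w)‖ < r → ∀ s : ℝ, |s| < r →
        φ.invFun (z + s • m) = φ.invFun z + s • w := by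
  choose! r hr m hm using fun t (ht : t ∈ K) => inv_near hR hR' φ (hKR t ht).1 (hKR t ht).2
  obtain ⟨T, hT, hcov⟩ := hK.elim_nhds_subcover (fun t => ball t (r t))
    fun t ht => ball_mem_nhds t (hr t ht)
  rcases T.eq_empty_or_nonempty with hTe | hTn
  · refine ⟨1, one_pos, fun t ht => ?_⟩
    obtain ⟨t₁, h1, -⟩ := mem_iUnion₂.1 (hcov ht)
    simp [hTe] at h1
  refine ⟨T.inf' hTn r, (Finset.lt_inf'_iff hTn).2 fun t ht => hr t (hT t ht), fun t ht => ?_⟩
  obtain ⟨t₁, h1, h2⟩ := mem_iUnion₂.1 (hcov ht)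
  rw [mem_ball, Real.dist_eq] at h2
  obtain ⟨hd, hz⟩ := hm t₁ (hT t₁ h1) t h2
  have hle : T.inf' hTn r ≤ r t₁ := Finset.inf'_le _ h1
  exact ⟨m t₁, hd, fun z hz' s hs => hz z (hz'.trans_le hle) s (hs.trans_le hle)⟩

end gen

section edge

/-- a quotient bound: if `‖f (t + s) - f t - s • w‖ ≤ L * ‖h (t + s) - h t - s • m‖` for small `s`
then the derivatives satisfy `‖D - w‖ ≤ L * ‖h' - m‖` -/
theorem deriv_le_of_le {X Y : Type*} [NormedAddCommGroup X] [NormedSpace ℝ X]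
    [NormedAddCommGroup Y] [NormedSpace ℝ Y] {f : ℝ → X} {h : ℝ → Y} {t L : ℝ} {D w : X} {h' m : Y}
    (hf : HasDerivAt f D t) (hh : HasDerivAt h h' t)
    (hb : ∀ᶠ s in 𝓝 (0:ℝ), ‖f (t + s) - f t - s • w‖ ≤ L * ‖h (t + s) - h t - s • m‖) :
    ‖D - w‖ ≤ L * ‖h' - m‖ := by
  have h1 : HasDerivAt (fun s : ℝ => f s - s • w) (D - w) t := by
    have := hf.sub ((hasDerivAt_id t).smul_const w)
    rwa [one_smul] at this
  have h2 : HasDerivAt (fun s : ℝ => h s - s • m) (h' - m) t := by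
    have := hh.sub ((hasDerivAt_id t).smul_const m)
    rwa [one_smul] at this
  have h3 := (hasDerivAt_iff_tendsto_slope_zero.1 h1).norm
  have h4 := ((hasDerivAt_iff_tendsto_slope_zero.1 h2).norm).const_mul L
  refine le_of_tendsto_of_tendsto h3 h4 ?_
  filter_upwards [nhdsWithin_le_nhds hb, self_mem_nhdsWithin] with s hs hs0
  rw [norm_smul, norm_smul]
  have e1 : f (t + s) - (t + s) • w - (f t - t • w) = f (t + s) - f t - s • w := by module
  have e2 : h (t + s) - (t + s) • m - (h t - t • m) = h (t + s) - h t - s • m := by module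
  rw [e1, e2]
  calc ‖s⁻¹‖ * ‖f (t + s) - f t - s • w‖ ≤ ‖s⁻¹‖ * (L * ‖h (t + s) - h t - s • m‖) :=
        mul_le_mul_of_nonneg_left hs (norm_nonneg _)
    _ = _ := by ring

variable {E F : Type*} [NormedAddCommGroup E] [NormedSpace ℝ E] [FiniteDimensional ℝ E]
  [NormedAddCommGroup F] [NormedSpace ℝ F] [FiniteDimensional ℝ F] {R : Set E} {R' : Set F}

/-- **(E1)** `φ⁻¹ ∘ h` along a segment: uniform and `L¹` estimates. -/
theorem edge_comp (hR : IsOpen R) (hR' : IsOpen R') (φ : ConHomeo R R') {a w : E}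
    (hseg : ∀ t ∈ Icc (0:ℝ) 1, a + t • w ∈ R) {ε : ℝ} (hε : 0 < ε) :
    ∃ δ > 0, ∀ c : ℝ → F,
      (∀ t ∈ Icc (0:ℝ) 1, ‖c t - φ.toFun (a + t • w)‖ ≤ δ) →
      (∀ᵐ t : ℝ, t ∈ Ioo (0:ℝ) 1 → DifferentiableAt ℝ c t ∧
        DifferentiableAt ℝ (fun s : ℝ => φ.invFun (c s)) t) →
      ∫⁻ t in Icc (0:ℝ) 1, ‖deriv c t -
        deriv (fun s : ℝ => φ.toFun (a + s • w)) t‖ₑ ≤ ENNReal.ofReal δ →
      (∀ t ∈ Icc (0:ℝ) 1, c t ∈ R' ∧ ‖φ.invFun (c t) - (a + t • w)‖ ≤ ε) ∧
      ∫⁻ t in Icc (0:ℝ) 1, ‖deriv (fun s : ℝ => φ.invFun (c s)) t - w‖ₑ ≤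
        ENNReal.ofReal ε := by
  classical
  have : ProperSpace F := FiniteDimensional.proper ℝ F
  set p : ℝ → F := fun s => φ.toFun (a + s • w) with hpdef
  have hpc : ContinuousOn p (Icc 0 1) :=
    φ.cont.comp (by fun_prop : ContinuousOn (fun s : ℝ => a + s • w) (Icc 0 1)) hseg
  -- a compact neighbourhood of the image
  have hPc : IsCompact (p '' Icc 0 1) := isCompact_Icc.image_of_continuousOn hpc
  have hPR : p '' Icc 0 1 ⊆ R' := by
    rintro _ ⟨t, ht, rfl⟩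
    exact φ.mapsTo (hseg t ht)
  obtain ⟨η₀, hη₀, hth⟩ := hPc.exists_cthickening_subset_open hR' hPR
  obtain ⟨L, hL0, hL⟩ := exists_lip_cpt hR' φ.conical_inv φ.cont_inv hPc.cthickening hth
  have hmemK : ∀ t ∈ Icc (0:ℝ) 1, ∀ z : F, ‖z - p t‖ ≤ η₀ → z ∈ cthickening η₀ (p '' Icc 0 1) := by
    intro t ht z hz
    exact mem_cthickening_of_dist_le z (p t) η₀ _ ⟨t, ht, rfl⟩ (by rwa [dist_eq_norm])
  -- Lipschitz constant of `p`
  obtain ⟨Lp, hLp⟩ := Gauge.exists_lipschitz_segment hR φ.conical φ.cont hseg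
  -- the exceptional parameters
  have hTf := Gauge.finite_notMem_linSpace hR φ.conical hseg
  set T : Finset ℝ := hTf.toFinset ∪ {0, 1} with hT
  set C : ℝ := L * Lp + ‖w‖ with hC
  have hC0 : 0 ≤ C := by positivity
  set η : ℝ := ε / (4 * (C + 1) * (T.card + 1)) with hη
  have hη0 : 0 < η := by positivity
  set K : Set ℝ := Icc 0 1 \ ⋃ τ ∈ T, ball τ η with hK
  have hKc : IsCompact K :=
    isCompact_Icc.diff (isOpen_biUnion fun τ _ => isOpen_ball)
  have hKI : ∀ t ∈ K, t ∈ Ioo (0:ℝ) 1 := by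
    rintro t ⟨⟨h0, h1⟩, h2⟩
    have h3 : t ≠ 0 := by
      rintro rfl
      exact h2 (mem_iUnion₂.2 ⟨0, by simp [hT], mem_ball_self hη0⟩)
    have h4 : t ≠ 1 := by
      rintro rfl
      exact h2 (mem_iUnion₂.2 ⟨1, by simp [hT], mem_ball_self hη0⟩)
    exact ⟨lt_of_le_of_ne h0 (Ne.symm h3), lt_of_le_of_ne h1 h4⟩
  have hKR : ∀ t ∈ K, a + t • w ∈ R ∧ w ∈ linSpace φ.toFun (a + t • w) := by
    rintro t ht
    refine ⟨hseg t ht.1, ?_⟩
    by_contra hcon
    exact ht.2 (mem_iUnion₂.2 ⟨t, by simp only [hT, Finset.mem_union, Finite.mem_toFinset]; exact Or.inl ⟨ht.1, hcon⟩,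
      mem_ball_self hη0⟩)
  obtain ⟨r, hr, hinv⟩ := inv_unif hR hR' φ hKc hKR
  set δ : ℝ := min (min (η₀ / 2) (r / 2)) (ε / (2 * (L + 1))) with hδ
  have hδ0 : 0 < δ := by positivity
  have hδη : δ ≤ η₀ / 2 := (min_le_left _ _).trans (min_le_left _ _)
  have hδr : δ ≤ r / 2 := (min_le_left _ _).trans (min_le_right _ _)
  have hδε : L * δ ≤ ε / 2 := by
    have h1 : δ ≤ ε / (2 * (L + 1)) := min_le_right _ _
    calc L * δ ≤ (L + 1) * (ε / (2 * (L + 1))) := by gcongr; linarith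
      _ = ε / 2 := by field_simp
  refine ⟨δ, hδ0, fun c hh hdiff hint => ⟨fun t ht => ?_, ?_⟩⟩
  · have h1 : c t ∈ cthickening η₀ (p '' Icc 0 1) :=
      hmemK t ht _ ((hh t ht).trans (by linarith))
    have h2 : p t ∈ cthickening η₀ (p '' Icc 0 1) := hmemK t ht _ (by simpa using hη₀.le)
    refine ⟨hth h1, ?_⟩
    have h3 := hL _ h1 _ h2
    rw [show φ.invFun (p t) = a + t • w from φ.left_inv (hseg t ht)] at h3
    refine h3.trans ?_
    have h4 := hh t ht
    calc L * ‖c t - p t‖ ≤ L * δ := mul_le_mul_of_nonneg_left h4 hL0.le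
      _ ≤ ε := by linarith
  -- the pointwise bound
  set q' : ℝ → F := fun t => deriv c t - deriv p t with hq'
  have hq'm : Measurable fun t => ‖q' t‖ₑ := by
    borelize F
    exact ((measurable_deriv _).sub (measurable_deriv _)).enorm
  have key : ∀ᵐ t : ℝ ∂(volume.restrict (Icc (0:ℝ) 1)),
      ‖deriv (fun s : ℝ => φ.invFun (c s)) t - w‖ₑ ≤
        ENNReal.ofReal L * ‖q' t‖ₑ + (⋃ τ ∈ T, ball τ η).indicator (fun _ => ENNReal.ofReal C) t := by
    rw [ae_restrict_iff' measurableSet_Icc]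
    have h01 : ∀ᵐ t : ℝ, t ∉ (T : Set ℝ) := by
      rw [ae_iff]
      simp only [not_not]
      exact T.finite_toSet.measure_zero _
    filter_upwards [hdiff, h01] with t hd htT htI
    have ht : t ∈ Ioo (0:ℝ) 1 := by
      refine ⟨lt_of_le_of_ne htI.1 fun h0 => htT ?_, lt_of_le_of_ne htI.2 fun h1 => htT ?_⟩
      · rw [← h0]; simp [hT]
      · rw [h1]; simp [hT]
    obtain ⟨hd1, hd2⟩ := hd ht
    -- nearby parameters
    have hnear : ∀ᶠ s : ℝ in 𝓝 0, t + s ∈ Icc (0:ℝ) 1 := by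
      have h1 : Tendsto (fun s : ℝ => t + s) (𝓝 0) (𝓝 t) := by
        have : Continuous fun s : ℝ => t + s := by fun_prop
        have := this.tendsto 0
        rwa [add_zero] at this
      exact h1.eventually (Icc_mem_nhds ht.1 ht.2)
    have hmh : ∀ s ∈ Icc (0:ℝ) 1, c s ∈ cthickening η₀ (p '' Icc 0 1) := fun s hs =>
      hmemK s hs _ ((hh s hs).trans (by linarith))
    by_cases htK : t ∈ ⋃ τ ∈ T, ball τ η
    · rw [indicator_of_mem htK]
      have h1 := deriv_le_of_le (L := L) (w := (0 : E)) (m := (0 : F)) hd2.hasDerivAt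
        hd1.hasDerivAt (by
          filter_upwards [hnear] with s hs
          rw [smul_zero, smul_zero, sub_zero, sub_zero]
          exact hL _ (hmh _ hs) _ (hmh _ htI))
      rw [sub_zero, sub_zero] at h1
      have h2 : ‖deriv p t‖ ≤ Lp :=
        norm_deriv_le_of_lipschitzOn (Icc_mem_nhds ht.1 ht.2) hLp
      have h3 : ‖deriv c t‖ ≤ ‖q' t‖ + Lp := by
        have : deriv c t = q' t + deriv p t := by simp [hq']
        rw [this]
        exact (norm_add_le _ _).trans (by gcongr)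
      have h4 : ‖deriv (fun s : ℝ => φ.invFun (c s)) t - w‖ ≤ L * ‖q' t‖ + C := by
        refine (norm_sub_le _ _).trans ?_
        have h5 : L * ‖deriv c t‖ ≤ L * (‖q' t‖ + Lp) :=
          mul_le_mul_of_nonneg_left h3 hL0.le
        rw [hC]
        linarith
      rw [← ofReal_norm, ← ofReal_norm, ← ENNReal.ofReal_mul hL0.le,
        ← ENNReal.ofReal_add (by positivity) hC0]
      exact ENNReal.ofReal_le_ofReal h4
    · have htK' : t ∈ K := ⟨htI, htK⟩
      rw [indicator_of_notMem htK, add_zero]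
      obtain ⟨m, hm, hz⟩ := hinv t htK'
      have hpt : deriv p t = m := hm.deriv
      have hsm : ∀ᶠ s : ℝ in 𝓝 0, |s| < r ∧ ‖s • m‖ < η₀ / 2 := by
        have e1 : ∀ᶠ s : ℝ in 𝓝 0, |s| < r := by
          have hc : Continuous fun s : ℝ => |s| := by fun_prop
          exact hc.continuousAt.eventually_lt_const (by simpa using hr)
        have e2 : ∀ᶠ s : ℝ in 𝓝 0, ‖s • m‖ < η₀ / 2 := by
          have hc : Continuous fun s : ℝ => ‖s • m‖ := by fun_prop
          exact hc.continuousAt.eventually_lt_const (by simpa using (by positivity : 0 < η₀ / 2))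
        exact e1.and e2
      have h1 := deriv_le_of_le (L := L) (w := w) (m := m) hd2.hasDerivAt
        hd1.hasDerivAt (by
          filter_upwards [hnear, hsm] with s hs hs2
          have e1 : φ.invFun (c t) + s • w = φ.invFun (c t + s • m) :=
            (hz _ ((hh t htI).trans_lt (by linarith)) s hs2.1).symm
          have e2 : c t + s • m ∈ cthickening η₀ (p '' Icc 0 1) := by
            refine hmemK t htI _ ?_
            have e3 : c t + s • m - p t = (c t - p t) + s • m := by abel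
            rw [e3]
            refine (norm_add_le _ _).trans ?_
            have e4 := hh t htI
            have e5 : ‖c t - p t‖ ≤ δ := e4
            linarith [hs2.2.le]
          have e6 := hL _ (hmh _ hs) _ e2
          rw [← e1] at e6
          have e7 : φ.invFun (c (t + s)) - φ.invFun (c t) - s • w =
              φ.invFun (c (t + s)) - (φ.invFun (c t) + s • w) := by abel
          have e8 : c (t + s) - c t - s • m =
              c (t + s) - (c t + s • m) := by abel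
          rw [e7, e8]
          exact e6)
      rw [← ofReal_norm, ← ofReal_norm, ← ENNReal.ofReal_mul hL0.le]
      refine ENNReal.ofReal_le_ofReal ?_
      have : q' t = deriv c t - m := by rw [hq', ← hpt]
      rw [this]
      exact h1
  calc ∫⁻ t in Icc (0:ℝ) 1, ‖deriv (fun s : ℝ => φ.invFun (c s)) t - w‖ₑ
      ≤ ∫⁻ t in Icc (0:ℝ) 1, (ENNReal.ofReal L * ‖q' t‖ₑ +
          (⋃ τ ∈ T, ball τ η).indicator (fun _ => ENNReal.ofReal C) t) := lintegral_mono_ae key
    _ = ENNReal.ofReal L * (∫⁻ t in Icc (0:ℝ) 1, ‖q' t‖ₑ) + ∫⁻ t in Icc (0:ℝ) 1,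
          (⋃ τ ∈ T, ball τ η).indicator (fun _ => ENNReal.ofReal C) t := by
        rw [lintegral_add_left (hq'm.const_mul _), lintegral_const_mul _ hq'm]
    _ ≤ ENNReal.ofReal L * ENNReal.ofReal δ + ENNReal.ofReal C * volume (⋃ τ ∈ T, ball τ η) := by
        refine add_le_add (mul_le_mul_right hint _) ?_
        refine (lintegral_indicator_const_le _ _).trans ?_
        exact mul_le_mul_right (Measure.restrict_apply_le _ _) _
    _ ≤ ENNReal.ofReal (ε / 2) + ENNReal.ofReal (ε / 2) := by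
        refine add_le_add ?_ ?_
        · rw [← ENNReal.ofReal_mul hL0.le]
          exact ENNReal.ofReal_le_ofReal hδε
        · have h1 : volume (⋃ τ ∈ T, ball τ η) ≤ ENNReal.ofReal (T.card * (2 * η)) := by
            refine (measure_biUnion_finset_le T _).trans ?_
            simp only [Real.volume_ball, Finset.sum_const, nsmul_eq_mul]
            rw [ENNReal.ofReal_mul (Nat.cast_nonneg _), ENNReal.ofReal_natCast]
          refine (mul_le_mul_right h1 _).trans ?_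
          rw [← ENNReal.ofReal_mul hC0]
          refine ENNReal.ofReal_le_ofReal ?_
          rw [hη]
          have h2 : C * (T.card * (2 * (ε / (4 * (C + 1) * (T.card + 1))))) =
              (C / (C + 1)) * (T.card / (T.card + 1)) * (ε / 2) := by
            field_simp
            ring
          rw [h2]
          have h3 : C / (C + 1) ≤ 1 := by rw [div_le_one (by positivity)]; linarith
          have h4 : (T.card : ℝ) / (T.card + 1) ≤ 1 := by rw [div_le_one (by positivity)]; linarith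
          have h5 : 0 ≤ C / (C + 1) := by positivity
          have h6 : (0:ℝ) ≤ (T.card : ℝ) / (T.card + 1) := by positivity
          calc C / (C + 1) * (T.card / (T.card + 1)) * (ε / 2) ≤ 1 * 1 * (ε / 2) := by gcongr
            _ = ε / 2 := by ring
    _ = ENNReal.ofReal ε := by
        rw [← ENNReal.ofReal_add (by positivity) (by positivity), add_halves]

/-- the form of the block GLUE -/
theorem comp_close {S R' : Set V} (hS : IsOpen S) (hR : IsOpen R') (Ψ : ConHomeo S R') {a w : V}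
    (hseg : ∀ t ∈ Icc (0:ℝ) 1, a + t • w ∈ S) {ε : ℝ} (hε : 0 < ε) :
    ∃ δ > 0, ∀ c : ℝ → V, (∀ t ∈ Icc (0:ℝ) 1, ‖c t - Ψ.toFun (a + t • w)‖ ≤ δ) →
      (∀ᵐ t : ℝ, t ∈ Icc (0:ℝ) 1 → DifferentiableAt ℝ c t) →
      (∀ᵐ t : ℝ, t ∈ Icc (0:ℝ) 1 → DifferentiableAt ℝ (fun s => Ψ.invFun (c s)) t) →
      ∫⁻ t in Icc (0:ℝ) 1, ENNReal.ofReal ‖deriv c t -
        deriv (fun s : ℝ => Ψ.toFun (a + s • w)) t‖ ≤ ENNReal.ofReal δ →
      ∫⁻ t in Icc (0:ℝ) 1, ENNReal.ofReal ‖deriv (fun s => Ψ.invFun (c s)) t - w‖ ≤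
        ENNReal.ofReal ε := by
  obtain ⟨δ, hδ, h1⟩ := edge_comp hS hR Ψ hseg hε
  refine ⟨δ, hδ, fun c hc hd1 hd2 hint => ?_⟩
  simp only [ofReal_norm] at hint ⊢
  refine (h1 c hc ?_ hint).2
  filter_upwards [hd1, hd2] with t h3 h4 ht
  exact ⟨h3 ⟨ht.1.le, ht.2.le⟩, h4 ⟨ht.1.le, ht.2.le⟩⟩

/-- closeness: `φ⁻¹ ∘ c` stays near the segment, and the curve stays in the image -/
theorem comp_near {S R' : Set V} (hR : IsOpen R') (Ψ : ConHomeo S R') {X : Set V}
    (hX : IsCompact X) (hXS : X ⊆ S) :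
    ∃ K : ℝ, 0 < K ∧ ∃ δ > 0, ∀ x ∈ X, ∀ y : V, ‖y - Ψ.toFun x‖ ≤ δ →
      y ∈ R' ∧ ‖Ψ.invFun y - x‖ ≤ K * ‖y - Ψ.toFun x‖ := by
  have hPc : IsCompact (Ψ.toFun '' X) := hX.image_of_continuousOn (Ψ.cont.mono hXS)
  have hPR : Ψ.toFun '' X ⊆ R' := by
    rintro _ ⟨t, ht, rfl⟩
    exact Ψ.mapsTo (hXS ht)
  obtain ⟨η₀, hη₀, hth⟩ := hPc.exists_cthickening_subset_open hR hPR
  obtain ⟨L, hL0, hL⟩ := exists_lip_cpt hR Ψ.conical_inv Ψ.cont_inv hPc.cthickening hth
  refine ⟨L, hL0, η₀, hη₀, fun x hx y hy => ?_⟩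
  have h1 : y ∈ cthickening η₀ (Ψ.toFun '' X) :=
    mem_cthickening_of_dist_le y (Ψ.toFun x) η₀ _ ⟨x, hx, rfl⟩ (by rwa [dist_eq_norm])
  have h2 : Ψ.toFun x ∈ cthickening η₀ (Ψ.toFun '' X) := self_subset_cthickening _ ⟨x, hx, rfl⟩
  have h3 := hL _ h1 _ h2
  rw [Ψ.left_inv (hXS hx)] at h3
  exact ⟨hth h1, h3⟩

/-- **(E2)** the length of the image of a curve under a conical homeomorphism -/
theorem comp_len {S R' : Set V} (hS : IsOpen S) (Ψ : ConHomeo S R') {X : Set V}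
    (hX : IsCompact X) (hXS : X ⊆ S) : ∃ K : ℝ, 0 ≤ K ∧ ∀ c : ℝ → V, ContinuousOn c (Icc 0 1) →
      (∀ t ∈ Icc (0:ℝ) 1, c t ∈ X) → ∀ᵐ t : ℝ, t ∈ Icc (0:ℝ) 1 → DifferentiableAt ℝ c t →
        DifferentiableAt ℝ (fun s => Ψ.toFun (c s)) t →
        ‖deriv (fun s => Ψ.toFun (c s)) t‖ ≤ K * ‖deriv c t‖ := by
  obtain ⟨L, hL0, hL⟩ := exists_lip_cpt hS Ψ.conical Ψ.cont hX hXS
  refine ⟨L, hL0.le, fun c _ hcX => ?_⟩
  have h01 : ∀ᵐ t : ℝ, t ∉ (({0, 1} : Finset ℝ) : Set ℝ) := by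
    rw [ae_iff]
    simp only [not_not]
    exact ({0, 1} : Finset ℝ).finite_toSet.measure_zero _
  filter_upwards [h01] with t htT htI hd1 hd2
  have ht : t ∈ Ioo (0:ℝ) 1 := by
    refine ⟨lt_of_le_of_ne htI.1 fun h0 => htT ?_, lt_of_le_of_ne htI.2 fun h1 => htT ?_⟩
    · rw [← h0]; simp
    · rw [h1]; simp
  have hnear : ∀ᶠ s : ℝ in 𝓝 0, t + s ∈ Icc (0:ℝ) 1 := by
    have h1 : Tendsto (fun s : ℝ => t + s) (𝓝 0) (𝓝 t) := by
      have : Continuous fun s : ℝ => t + s := by fun_prop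
      have := this.tendsto 0
      rwa [add_zero] at this
    exact h1.eventually (Icc_mem_nhds ht.1 ht.2)
  have h1 := deriv_le_of_le (L := L) (w := (0 : V)) (m := (0 : V)) hd2.hasDerivAt
    hd1.hasDerivAt (by
      filter_upwards [hnear] with s hs
      simp only [smul_zero, sub_zero]
      exact hL _ (hcX _ hs) _ (hcX _ htI))
  rwa [sub_zero, sub_zero] at h1

end edge

end Vale.Agent.P073.H16
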