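import Vale.Agent.P073.H16.BoxCmp
import Vale.Agent.P073.H83.Gen
import Vale.Agent.P073.H83.AeRep
import Vale.Agent.P073.H83.Big
import Vale.Agent.P073.H235.R2Parts2
import Vale.Agent.P073.PK.Choice5

/-!
# P073 / H16: the generic origin for the compressed map, with a good slice
-/

namespace Vale.Agent.P073.H16

open MeasureTheory Set Filter Topology Metric Vale.Agent.P073.St Vale.Agent.P073.AB
open Vale.Agent.P073.SQ (ev)
open Vale.Agent.P073.LOC (Near Q1)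
open Vale.Agent.P073.H235 (Bx cmpD fl bm P2 GSet SpecGSet SpecV SpecV2)
open Vale.Agent.P073.H194 (sInt Gen idx)
open Vale.Agent.P073.H83 (GenB)
open _root_.P073.Net (dyc dyo)
open scoped ENNReal

variable {a : V}

/-! ### Slices -/

theorem lintegral_sInt_le (s : Idx × Fin 3) {H : V → ℝ≥0∞} (hH : Measurable H) :
    ∫⁻ v, sInt v s H ≤ ∫⁻ x, H x := by
  simp_rw [H83.sInt_hc]
  rw [lintegral_const_mul' _ _ (by simp),
    H83.lintegral_ps hH (φ := fun y => Function.update y s.2 ((s.1.2 s.2 : ℝ) / 2 ^ s.1.1))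
    (by fun_prop) s.1, ← mul_assoc]
  have h1 : (2:ℝ≥0∞) ^ s.1.1 * volume (H83.hc s.1) ≤ 1 := by
    rw [H83.volume_hc, ← ENNReal.ofReal_ofNat 2, ← ENNReal.ofReal_pow (by norm_num),
      ← ENNReal.ofReal_mul (by positivity)]
    rw [ENNReal.ofReal_le_one]
    have h2 : (1:ℝ) ≤ 2 ^ s.1.1 := one_le_pow₀ (by norm_num)
    have h3 : (2:ℝ) ^ s.1.1 * (1 / 2 ^ s.1.1) ^ 3 = (1 / 2 ^ s.1.1) ^ 2 := by
      field_simp
    rw [h3]
    have h4 : (1:ℝ) / 2 ^ s.1.1 ≤ 1 := by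
      rw [div_le_one (by positivity)]; exact h2
    exact pow_le_one₀ (by positivity) h4
  calc (2:ℝ≥0∞) ^ s.1.1 * volume (H83.hc s.1) * ∫⁻ x, H x ≤ 1 * ∫⁻ x, H x := by gcongr
    _ = _ := one_mul _

theorem eInt_upd (n : ℕ) (w : Fin 3 → ℤ) (k : Fin 3) {H : V → ℝ≥0∞} (hH : Measurable H) (v : V) :
    eInt v ((n, w), k) H = ∫⁻ t in Ico ((w k : ℝ) / 2 ^ n) ((w k + 1) / 2 ^ n),
      H (v + Function.update (fun i => (w i : ℝ) / 2 ^ n) k t) := by
  rw [H83.eInt_hc v n w k hH]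
  refine lintegral_congr fun t => ?_
  congr 1
  funext i
  by_cases hi : i = k
  · subst hi; simp
  · simp [Function.update_of_ne hi, pt]

theorem measurable_upd (n : ℕ) (w : Fin 3 → ℤ) (k : Fin 3) {H : V → ℝ≥0∞} (hH : Measurable H) :
    Measurable fun p : V × ℝ => H (p.1 + Function.update (fun i => (w i : ℝ) / 2 ^ n) k p.2) := by
  refine hH.comp (measurable_fst.add ?_)
  exact (measurable_update (fun i => (w i : ℝ) / 2 ^ n)).comp measurable_snd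

theorem measurable_eInt (e : Idx × Fin 3) {H : V → ℝ≥0∞} (hH : Measurable H) :
    Measurable fun v => eInt v e H := by
  obtain ⟨⟨n, w⟩, k⟩ := e
  simp_rw [eInt_upd n w k hH]
  exact (measurable_upd n w k hH).lintegral_prod_right'

theorem lintegral_eInt_le (e : Idx × Fin 3) {H : V → ℝ≥0∞} (hH : Measurable H) :
    ∫⁻ v, eInt v e H ≤ ∫⁻ x, H x := by
  obtain ⟨⟨n, w⟩, k⟩ := e
  simp_rw [eInt_upd n w k hH]
  rw [lintegral_lintegral_swap (measurable_upd n w k hH).aemeasurable]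
  have h2 : ∀ t : ℝ, ∫⁻ v : V, H (v + Function.update (fun i => (w i : ℝ) / 2 ^ n) k t) =
      ∫⁻ x, H x := fun t => lintegral_add_right_eq_self H _
  simp only [h2]
  rw [lintegral_const, Measure.restrict_apply_univ, Real.volume_Ico]
  have h3 : ENNReal.ofReal ((w k + 1 : ℝ) / 2 ^ n - (w k : ℝ) / 2 ^ n) ≤ 1 := by
    rw [ENNReal.ofReal_le_one, ← sub_div, add_sub_cancel_left, div_le_one (by positivity)]
    exact one_le_pow₀ (by norm_num)
  calc (∫⁻ x, H x) * ENNReal.ofReal ((w k + 1 : ℝ) / 2 ^ n - (w k : ℝ) / 2 ^ n) ≤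
      (∫⁻ x, H x) * 1 := by gcongr
    _ = _ := mul_one _

/-- positions of the squares that can meet the unit cube -/
noncomputable def posK (m : ℕ) : Finset (Fin 3 → ℤ) :=
  Fintype.piFinset fun _ => Finset.Icc (-(2 ^ m : ℤ)) (2 ^ m)

theorem mem_posK_of_pt {m : ℕ} {v : V} (hv : v ∈ Icc (0:V) 1) {k : Fin 3 → ℤ}
    (h2 : pt v m k ∈ Bx a) (ha1 : ∀ i, a i ≤ 1) : k ∈ posK m := by
  rw [posK, Fintype.mem_piFinset]
  intro j
  have h3 := h2 j
  have hv0 := hv.1 j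
  have hv1 := hv.2 j
  simp only [Pi.zero_apply, Pi.one_apply] at hv0 hv1
  have hp : (0:ℝ) < 2 ^ m := by positivity
  have h4 : pt v m k j = v j + (k j : ℝ) / 2 ^ m := rfl
  rw [h4] at h3
  have h5 : (k j : ℝ) / 2 ^ m < 1 := by linarith [h3.2, ha1 j]
  have h6 : -1 < (k j : ℝ) / 2 ^ m := by linarith [h3.1]
  rw [div_lt_one hp] at h5
  rw [lt_div_iff₀ hp] at h6
  rw [Finset.mem_Icc]
  constructor
  · have : (-(2 ^ m : ℤ) : ℝ) < k j := by push_cast; linarith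
    exact_mod_cast this.le
  · have : (k j : ℝ) < ((2 ^ m : ℤ) : ℝ) := by push_cast; exact h5
    exact_mod_cast this.le

theorem mem_posK {m : ℕ} {l : Fin 3} {v : V} (hv : v ∈ Icc (0:V) 1) {k : Fin 3 → ℤ}
    (hk : squ v ((m, k), l) ⊆ Bx a) (ha1 : ∀ i, a i ≤ 1) : k ∈ posK m := by
  have h1 : pt v m k ∈ squ v ((m, k), l) := by
    refine ⟨rfl, fun j _ => ⟨le_rfl, ?_⟩⟩
    show v j + (k j : ℝ) / 2 ^ m ≤ v j + ((k j : ℝ) + 1) / 2 ^ m
    gcongr
    linarith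
  exact mem_posK_of_pt hv (hk h1) ha1

theorem mem_posK_edge {m : ℕ} {l : Fin 3} {v : V} (hv : v ∈ Icc (0:V) 1) {k : Fin 3 → ℤ}
    (hk : edge v ((m, k), l) ⊆ Bx a) (ha1 : ∀ i, a i ≤ 1) : k ∈ posK m :=
  mem_posK_of_pt hv (hk (left_mem_segment ℝ _ _)) ha1

/-- a property of almost all origins together with a small average -/
theorem exists_avg {P : V → Prop} (hP : ∀ᵐ v ∂(volume.restrict (Icc (0:V) 1)), P v) {Q : Set V}
    (hQm : MeasurableSet Q) (hQ : Q ⊆ Icc (0:V) 1) {J : V → ℝ≥0∞} {κ : ℝ≥0∞}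
    (hJ : ∫⁻ v, J v < κ * volume Q) : ∃ v ∈ Q, P v ∧ J v ≤ κ := by
  by_contra hc
  push Not at hc
  have h1 : ∀ᵐ v ∂(volume.restrict Q), κ ≤ J v := by
    have h2 : ∀ᵐ v ∂(volume.restrict Q), P v := ae_mono (Measure.restrict_mono hQ le_rfl) hP
    filter_upwards [h2, ae_restrict_mem hQm] with v h3 h4
    exact (hc v h4 h3).le
  have h3 : κ * volume Q ≤ ∫⁻ v, J v := by
    calc κ * volume Q = ∫⁻ _ in Q, κ := by rw [setLIntegral_const]
      _ ≤ ∫⁻ v in Q, J v := lintegral_mono_ae h1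
      _ ≤ ∫⁻ v, J v := setLIntegral_le_lintegral _ _
  exact absurd (lt_of_lt_of_le hJ h3) (lt_irrefl _)

/-- the thin box of origins -/
noncomputable def thin (l : Fin 3) (m : ℕ) : Set V := Icc 0 (Function.update 1 l (1 / 2 ^ m))

theorem thin_sub (l : Fin 3) (m : ℕ) : thin l m ⊆ Icc (0:V) 1 := by
  refine Icc_subset_Icc_right fun i => ?_
  by_cases h : i = l
  · subst h
    rw [Function.update_self, Pi.one_apply, div_le_one (by positivity)]
    exact one_le_pow₀ (by norm_num)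
  · rw [Function.update_of_ne h]

theorem thin_le {l : Fin 3} {m : ℕ} {v : V} (hv : v ∈ thin l m) : 0 ≤ v l ∧ v l ≤ 1 / 2 ^ m := by
  refine ⟨hv.1 l, ?_⟩
  have := hv.2 l
  rwa [Function.update_self] at this

theorem volume_thin (l : Fin 3) (m : ℕ) : volume (thin l m) = ENNReal.ofReal (1 / 2 ^ m) := by
  rw [thin, Real.volume_Icc_pi, Finset.prod_eq_single l]
  · rw [Function.update_self, Pi.zero_apply, sub_zero]
  · intro i _ hi
    rw [Function.update_of_ne hi, Pi.zero_apply, sub_zero, Pi.one_apply, ENNReal.ofReal_one]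
  · intro h; exact absurd (Finset.mem_univ l) h

/-- the slice near the height `t` -/
theorem exists_slice {t : ℝ} {l : Fin 3} {m : ℕ} {v : V} (hv : v ∈ thin l m) :
    |v l + (⌊t * 2 ^ m⌋ : ℝ) / 2 ^ m - t| ≤ 1 / 2 ^ m := by
  obtain ⟨h0, h1⟩ := thin_le hv
  have hp : (0:ℝ) < 2 ^ m := by positivity
  have h2 := Int.floor_le (t * 2 ^ m)
  have h3 := Int.lt_floor_add_one (t * 2 ^ m)
  have h4 : (⌊t * 2 ^ m⌋ : ℝ) / 2 ^ m ≤ t := by rw [div_le_iff₀ hp]; exact h2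
  have h5 : t - 1 / 2 ^ m < (⌊t * 2 ^ m⌋ : ℝ) / 2 ^ m := by
    rw [lt_div_iff₀ hp, sub_mul, div_mul_cancel₀ _ hp.ne']
    linarith
  rw [abs_le]
  constructor <;> linarith

/-! ### The generic origin -/

/-- **the generic origin** in a given set `Q` of origins, for any compressed box and any linear map
killing the compressed directions; all slices and all lines of generation `m` are good. -/
theorem exists_boxV {p : ℝ} (hp : 1 ≤ p) (ha : ∀ i, 0 < a i) (ha1 : ∀ i, a i ≤ 1)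
    {L : V →L[ℝ] V} (hL : ∀ j, a j ≠ 1 → L (ev j) = 0) {κ : ℝ} (hκ : 0 < κ) (m : ℕ) {Q : Set V}
    (hQm : MeasurableSet Q) (hQ : Q ⊆ Icc (0:V) 1) (hQ0 : volume Q ≠ 0) :
    ∃ κ' > 0, ∀ (Λ : Set V) (f : V → V) (F : V → Mat), Near p κ' L Λ f F →
      ∀ (Pv : V → Prop), (∀ᵐ v : V, Pv v) →
      ∃ v ∈ Q, ∃ nn : ℕ → ℕ, StrictMono nn ∧ ∃ (H H₁ : V → ℝ≥0∞) (N : Set V),
        Pv v ∧ volume N = 0 ∧
        (∀ A A' : V → ℝ≥0∞, (∀ x, x ∉ N → A x = A' x) →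
          (∀ e, eInt v e A = eInt v e A') ∧ ∀ s, sInt v s A = sInt v s A') ∧
        Measurable H ∧ Measurable H₁ ∧ ∫⁻ x, H x ≠ ⊤ ∧
        (∀ x ∈ Bx a, x ∉ N → H x = ‖cl (cmpD a F x)‖ₑ ^ p) ∧
        (∀ x ∈ Bx a, x ∉ N → H₁ x = ‖cl (cmpD a F x) - L‖ₑ ^ p) ∧
        Gen v nn H ∧ GenB v nn H ∧ Gen v nn H₁ ∧ GenB v nn H₁ ∧
        (∀ k : ℕ, Gen v nn (fun x => H x + H194.Bk k x) ∧
          GenB v nn (fun x => H x + H194.Bk k x)) ∧
        RatGood v (Bx a) (H235.cmp a f) (cmpD a F) ∧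
        (∀ h : V → V, St.IsInv (Bx a) Λ (H235.cmp a f) h →
          ∀ᵐ y : V, y ∈ Λ → ∀ n, h y ∈ dyo v n (idx v n (h y))) ∧
        ∫⁻ x in Bx a, H₁ x ≤ ENNReal.ofReal κ ∧
        (∀ (l : Fin 3) (S : Finset (Fin 3 → ℤ)), (∀ k ∈ S, squ v ((m, k), l) ⊆ Bx a) →
          ∑ k ∈ S, sInt v ((m, k), l) H₁ ≤ ENNReal.ofReal κ) ∧
        (∀ (l : Fin 3) (S : Finset (Fin 3 → ℤ)), (∀ k ∈ S, edge v ((m, k), l) ⊆ Bx a) →
          ∑ k ∈ S, eInt v ((m, k), l) H₁ ≤ ENNReal.ofReal κ) := by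
  have hp0 : 0 < p := by linarith
  have hQt : volume Q ≠ ⊤ := ne_top_of_le_ne_top isCompact_Icc.measure_lt_top.ne (measure_mono hQ)
  obtain ⟨q, hq, hqe⟩ : ∃ q : ℝ, 0 < q ∧ volume Q = ENNReal.ofReal q :=
    ⟨(volume Q).toReal, ENNReal.toReal_pos hQ0 hQt, (ENNReal.ofReal_toReal hQt).symm⟩
  have hq1 : q ≤ 1 := by
    have h1 : ENNReal.ofReal q ≤ 1 := by
      rw [← hqe]
      refine (measure_mono hQ).trans ?_
      rw [Real.volume_Icc_pi]; simp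
    rwa [ENNReal.ofReal_le_one] at h1
  obtain ⟨C, hC, hE⟩ := energy_cmp ha hL hp
  obtain ⟨c, hc⟩ : ∃ c : ℕ, c = (posK m).card := ⟨_, rfl⟩
  have hc0 : (0:ℝ) ≤ c := Nat.cast_nonneg c
  obtain ⟨κ', hκ'⟩ : ∃ κ' : ℝ, κ' = κ * q / (C * (6 * c + 1)) := ⟨_, rfl⟩
  have hκ'0 : 0 < κ' := by rw [hκ']; positivity
  have hCκ : C * κ' = κ * q / (6 * c + 1) := by
    rw [hκ']; field_simp
  have hCκ1 : C * κ' ≤ κ := by
    rw [hCκ, div_le_iff₀ (by positivity)]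
    have h2 : q ≤ 6 * (c:ℝ) + 1 := by linarith
    exact mul_le_mul_of_nonneg_left h2 hκ.le
  have hCκ2 : (c:ℝ) * (6 * (C * κ')) < κ * q := by
    rw [hCκ]
    have h1 : (c:ℝ) * (6 * (κ * q / (6 * c + 1))) = κ * q * (6 * c / (6 * c + 1)) := by
      field_simp
    rw [h1]
    have h2 : (6 * c:ℝ) / (6 * c + 1) < 1 := by rw [div_lt_one (by positivity)]; linarith
    have h3 : 0 < κ * q := by positivity
    nlinarith
  refine ⟨κ', hκ'0, fun Λ f F hN Pv hPv => ?_⟩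
  have hhom := isHomeo_cmp ha hN.homeo
  have hsob := isSobolev_cmp ha hp hN.sob
  have hdom : St.IsBoundedDomain (Bx a) := H761.isBoundedDomain_Bx ha
  have hvol : volume (Bx a) ≠ ⊤ := PK.volume_ne_top_of_domain hdom
  obtain ⟨h₀, hinv, hfc, hh₀⟩ := hhom
  have hen : ∫⁻ x in Bx a, ‖cl (cmpD a F x) - L‖ₑ ^ p ≤ ENNReal.ofReal (C * κ') := by
    refine (hE f F hN.sob).trans ?_
    rw [ENNReal.ofReal_mul hC.le]
    exact mul_le_mul_right hN.near _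
  set G₀ : V → ℝ≥0∞ := (Bx a).indicator fun x => ‖cl (cmpD a F x)‖ₑ ^ p with hG₀
  set G₁ : V → ℝ≥0∞ := (Bx a).indicator fun x => ‖cl (cmpD a F x) - L‖ₑ ^ p with hG₁
  have hm0 : AEMeasurable G₀ := by
    rw [hG₀, aemeasurable_indicator_iff hdom.1.measurableSet]
    exact (PK.IsSob.aesm hsob).enorm.pow_const p
  have hm1 : AEMeasurable G₁ := by
    rw [hG₁, aemeasurable_indicator_iff hdom.1.measurableSet]
    exact ((PK.IsSob.aesm hsob).sub aestronglyMeasurable_const).enorm.pow_const p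
  obtain ⟨H, hHm, hHe⟩ : ∃ H : V → ℝ≥0∞, Measurable H ∧ G₀ =ᵐ[volume] H :=
    ⟨_, hm0.measurable_mk, hm0.ae_eq_mk⟩
  obtain ⟨H₁, hH1m, hH1e⟩ : ∃ H : V → ℝ≥0∞, Measurable H ∧ G₁ =ᵐ[volume] H :=
    ⟨_, hm1.measurable_mk, hm1.ae_eq_mk⟩
  have hint : ∫⁻ x, H x ≠ ⊤ := by
    rw [← lintegral_congr_ae hHe, hG₀, lintegral_indicator hdom.1.measurableSet]
    exact PK.IsSob.lintegral_ne_top hp hsob
  have hint1 : ∫⁻ x, H₁ x ≤ ENNReal.ofReal (C * κ') := by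
    rw [← lintegral_congr_ae hH1e, hG₁, lintegral_indicator hdom.1.measurableSet]
    exact hen
  have hint1' : ∫⁻ x, H₁ x ≠ ⊤ := ne_top_of_le_ne_top ENNReal.ofReal_ne_top hint1
  have hnull : volume ({x | ¬ G₀ x = H x} ∪ {x | ¬ G₁ x = H₁ x}) = 0 :=
    measure_union_null hHe hH1e
  obtain ⟨nn, hnn, h1⟩ := H83.exists_gen (ι := Bool ⊕ ℕ) (κ := Empty)
    (Sum.elim (fun b => if b then H else H₁) fun k x => H x + H194.Bk k x) ∅
    (fun k => k.elim) (by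
      rintro (b | k)
      · cases b; exacts [hH1m, hHm]
      · exact hHm.add (H194.measurable_Bk k))
    (by
      rintro (b | k)
      · cases b; exacts [hint1', hint]
      · show ∫⁻ x, (H x + H194.Bk k x) ≠ ⊤
        rw [lintegral_add_left hHm]
        exact ENNReal.add_ne_top.2 ⟨hint, H194.lintegral_Bk k⟩) countable_empty
    (fun k => k.elim) (fun k => k.elim) strictMono_id
  have h2 := ae_restrict_of_ae (s := Icc (0:V) 1) (PK.ae_ratGood hp hdom.1 hvol hfc hsob)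
  have h3 := ae_restrict_of_ae (s := Icc (0:V) 1) (H83.ae_rep hnull)
  have h4 := ae_restrict_of_ae (s := Icc (0:V) 1) (H83.ae_planes hN.dom.1 hh₀)
  have h5 := ae_restrict_of_ae (s := Icc (0:V) 1) hPv
  set J : V → ℝ≥0∞ := fun v => ∑ k ∈ posK m,
    ∑ l : Fin 3, (sInt v ((m, k), l) H₁ + eInt v ((m, k), l) H₁) with hJdef
  have hJm : ∀ k ∈ posK m, Measurable fun v : V =>
      ∑ l : Fin 3, (sInt v ((m, k), l) H₁ + eInt v ((m, k), l) H₁) := fun k _ =>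
    Finset.measurable_sum _ fun l _ => (H83.measurable_sInt _ hH1m).add (measurable_eInt _ hH1m)
  have hJ : ∫⁻ v, J v < ENNReal.ofReal κ * volume Q := by
    rw [hJdef, lintegral_finsetSum _ hJm]
    have hk : ∀ k ∈ posK m, ∫⁻ v : V, ∑ l : Fin 3, (sInt v ((m, k), l) H₁ +
        eInt v ((m, k), l) H₁) ≤ ENNReal.ofReal (6 * (C * κ')) := by
      intro k _
      have hml : ∀ l ∈ (Finset.univ : Finset (Fin 3)), Measurable fun v : V =>
          sInt v ((m, k), l) H₁ + eInt v ((m, k), l) H₁ := fun l _ =>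
        (H83.measurable_sInt _ hH1m).add (measurable_eInt _ hH1m)
      rw [lintegral_finsetSum _ hml]
      have hl : ∀ l ∈ (Finset.univ : Finset (Fin 3)), ∫⁻ v : V, (sInt v ((m, k), l) H₁ +
          eInt v ((m, k), l) H₁) ≤ ENNReal.ofReal (2 * (C * κ')) := by
        intro l _
        rw [lintegral_add_left (H83.measurable_sInt _ hH1m)]
        refine (add_le_add ((lintegral_sInt_le ((m, k), l) hH1m).trans hint1)
          ((lintegral_eInt_le ((m, k), l) hH1m).trans hint1)).trans (le_of_eq ?_)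
        rw [← ENNReal.ofReal_add (by positivity) (by positivity)]
        congr 1; ring
      refine (Finset.sum_le_card_nsmul _ _ _ hl).trans (le_of_eq ?_)
      rw [Finset.card_univ, Fintype.card_fin, nsmul_eq_mul, ← ENNReal.ofReal_natCast,
        ← ENNReal.ofReal_mul (Nat.cast_nonneg _)]
      congr 1; push_cast; ring
    refine lt_of_le_of_lt (Finset.sum_le_card_nsmul _ _ _ hk) ?_
    rw [hqe, ← ENNReal.ofReal_mul hκ.le, nsmul_eq_mul, ← hc, ← ENNReal.ofReal_natCast,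
      ← ENNReal.ofReal_mul (Nat.cast_nonneg c)]
    exact (ENNReal.ofReal_lt_ofReal_iff (by positivity)).2 hCκ2
  obtain ⟨v, hvQ, ⟨k1, k2, k3, k4, k5⟩, hvJ⟩ := exists_avg
    (h1.and (h2.and (h3.and (h4.and h5)))) hQm hQ hJ
  refine ⟨v, hvQ, fun l => nn l, hnn, H, H₁, _, k5, hnull, fun A A' hA => ?_, hHm, hH1m, hint,
    ?_, ?_, k1.1 (Sum.inl true), k1.2.1 (Sum.inl true), k1.1 (Sum.inl false),
    k1.2.1 (Sum.inl false), fun k => ⟨k1.1 (Sum.inr k), k1.2.1 (Sum.inr k)⟩, k2, ?_, ?_, ?_, ?_⟩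
  · exact k3 A A' hA
  · intro x hx hxN
    have : G₀ x = H x := by
      by_contra hcon
      exact hxN (Or.inl hcon)
    rw [← this, hG₀, indicator_of_mem hx]
  · intro x hx hxN
    have : G₁ x = H₁ x := by
      by_contra hcon
      exact hxN (Or.inr hcon)
    rw [← this, hG₁, indicator_of_mem hx]
  · intro h hh
    filter_upwards [k4] with y hy hyΛ
    have e : h y = h₀ y := by
      obtain ⟨e1, e2⟩ := hinv.2 y hyΛ
      have e3 := (hh.1 _ e1).2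
      rw [e2] at e3
      exact e3
    rw [e]
    exact hy hyΛ
  · exact (setLIntegral_le_lintegral _ _).trans (hint1.trans (ENNReal.ofReal_le_ofReal hCκ1))
  · intro l S hS
    refine le_trans ?_ hvJ
    refine (Finset.sum_le_sum fun k _ => ?_).trans (Finset.sum_le_sum_of_subset fun k hk => ?_)
    · exact le_self_add.trans (Finset.single_le_sum
        (f := fun l => sInt v ((m, k), l) H₁ + eInt v ((m, k), l) H₁) (fun _ _ => zero_le)
        (Finset.mem_univ l))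
    · exact mem_posK (hQ hvQ) (hS k hk) ha1
  · intro l S hS
    refine le_trans ?_ hvJ
    refine (Finset.sum_le_sum fun k _ => ?_).trans (Finset.sum_le_sum_of_subset fun k hk => ?_)
    · exact le_add_self.trans (Finset.single_le_sum
        (f := fun l => sInt v ((m, k), l) H₁ + eInt v ((m, k), l) H₁) (fun _ _ => zero_le)
        (Finset.mem_univ l))
    · exact mem_posK_edge (hQ hvQ) (hS k hk) ha1

/-- the data of `SpecV` for any box, any linear map, any slice -/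
theorem exists_flatV {p : ℝ} (hp : 1 ≤ p) (ha : ∀ i, 0 < a i) (ha1 : ∀ i, a i ≤ 1)
    {L : V →L[ℝ] V} (hL : ∀ j, a j ≠ 1 → L (ev j) = 0) {κ : ℝ} (hκ : 0 < κ) (m : ℕ) (l : Fin 3) :
    ∃ κ' > 0, ∀ (Λ : Set V) (f : V → V) (F : V → Mat), Near p κ' L Λ f F →
      ∀ (Pv : V → Prop), (∀ᵐ v : V, Pv v) →
      ∃ v ∈ thin l m, ∃ nn : ℕ → ℕ, StrictMono nn ∧ ∃ (H H₁ : V → ℝ≥0∞) (N : Set V),
        Pv v ∧ volume N = 0 ∧
        (∀ A A' : V → ℝ≥0∞, (∀ x, x ∉ N → A x = A' x) →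
          (∀ e, eInt v e A = eInt v e A') ∧ ∀ s, sInt v s A = sInt v s A') ∧
        Measurable H ∧ Measurable H₁ ∧ ∫⁻ x, H x ≠ ⊤ ∧
        (∀ x ∈ Bx a, x ∉ N → H x = ‖cl (cmpD a F x)‖ₑ ^ p) ∧
        (∀ x ∈ Bx a, x ∉ N → H₁ x = ‖cl (cmpD a F x) - L‖ₑ ^ p) ∧
        Gen v nn H ∧ GenB v nn H ∧ Gen v nn H₁ ∧ GenB v nn H₁ ∧
        (∀ k : ℕ, Gen v nn (fun x => H x + H194.Bk k x) ∧
          GenB v nn (fun x => H x + H194.Bk k x)) ∧
        RatGood v (Bx a) (H235.cmp a f) (cmpD a F) ∧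
        (∀ h : V → V, St.IsInv (Bx a) Λ (H235.cmp a f) h →
          ∀ᵐ y : V, y ∈ Λ → ∀ n, h y ∈ dyo v n (idx v n (h y))) ∧
        ∫⁻ x in Bx a, H₁ x ≤ ENNReal.ofReal κ ∧
        (∀ S : Finset (Fin 3 → ℤ), (∀ k ∈ S, squ v ((m, k), l) ⊆ Bx a) →
          ∑ k ∈ S, sInt v ((m, k), l) H₁ ≤ ENNReal.ofReal κ) := by
  obtain ⟨κ', hκ', HH⟩ := exists_boxV hp ha ha1 hL hκ m (Q := thin l m) measurableSet_Icc
    (thin_sub l m) (by
      rw [volume_thin]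
      exact (ENNReal.ofReal_pos.2 (by positivity)).ne')
  refine ⟨κ', hκ', fun Λ f F hN Pv hPv => ?_⟩
  obtain ⟨v, hv, nn, hnn, H, H₁, N, g0, g1, g2, g3, g4, g5, g6, g7, g8, g9, g9', gk, g10, g11, g12,
    g13, g14, -⟩ := HH Λ f F hN Pv hPv
  exact ⟨v, hv, nn, hnn, H, H₁, N, g0, g1, g2, g3, g4, g5, g6, g7, g8, g9, g9', gk, g10, g11, g12,
    g13, g14 l⟩

theorem fl_pos {θ : ℝ} (hθ : 0 < θ) : ∀ i, 0 < fl θ i := by
  intro i
  fin_cases i
  · show (0:ℝ) < 1; norm_num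
  · show (0:ℝ) < 1; norm_num
  · show (0:ℝ) < 2 * θ; linarith

theorem fl_le_one {θ : ℝ} (hθ : θ ≤ 1 / 2) : ∀ i, fl θ i ≤ 1 := by
  intro i
  fin_cases i
  · show (1:ℝ) ≤ 1; norm_num
  · show (1:ℝ) ≤ 1; norm_num
  · show 2 * θ ≤ 1; linarith

theorem P2_ev_two : P2 (ev 2) = 0 := by
  show ev 2 - (ev 2 : V) 2 • (ev 2 : V) = 0
  simp [ev]

/-- **[FLAT-V]**, generic also for `H + 1` -/
theorem specV2 : SpecV2 := by
  intro p C₀ hp hG θ κ m₀ hθ hθ1 hκ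
  obtain ⟨κ', hκ', HH⟩ := exists_flatV (a := fl θ) hp (fl_pos hθ) (fl_le_one hθ1) (L := P2) (by
    intro j hj
    fin_cases j
    · exact absurd rfl hj
    · exact absurd rfl hj
    · exact P2_ev_two) hκ m₀ 2
  refine ⟨κ', hκ', fun Λ f F hN => ?_⟩
  have hhom := isHomeo_cmp (fl_pos hθ) hN.homeo
  have hsob := isSobolev_cmp (fl_pos hθ) hp hN.sob
  have hdom : St.IsBoundedDomain (Bx (fl θ)) := H761.isBoundedDomain_Bx (fl_pos hθ)
  have hvol : volume (Bx (fl θ)) ≠ ⊤ := PK.volume_ne_top_of_domain hdom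
  have hfc : ContinuousOn (H235.cmp (fl θ) f) (Bx (fl θ)) := by
    obtain ⟨h, -, h2, -⟩ := hhom; exact h2
  obtain ⟨v, hv, nn, hnn, H, H₁, N, g0, g1, g2, g3, g4, g5, g6, g7, g8, g9, -, g10, gk, g11, g12,
    g13, g14⟩ := HH Λ f F hN _ (hG p _ _ _ hp hdom.1 hvol hfc hsob)
  refine ⟨⟨⟨⟨v, nn, hnn, H, H₁, N, g1, g2, g3, g4, g5, g6, g7, g8, g9, g10, g11, g0, g12, g13,
    ⌊θ * 2 ^ m₀⌋, exists_slice hv, fun S hS => g14 S fun k hk => (hS k hk).2⟩, gk⟩⟩, hhom, hsob⟩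

/-- **[FLAT-V]** -/
theorem specV : SpecV := by
  intro p C₀ hp hG θ κ m₀ hθ hθ1 hκ
  obtain ⟨κ', hκ', HH⟩ := specV2 p C₀ hp hG θ κ m₀ hθ hθ1 hκ
  refine ⟨κ', hκ', fun Λ f F hN => ?_⟩
  obtain ⟨⟨D⟩, h1, h2⟩ := HH Λ f F hN
  exact ⟨⟨D.toVData⟩, h1, h2⟩

end Vale.Agent.P073.H16
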