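import Vale.Agent.P073.H716.GSet2
import Vale.Agent.P073.H235.R2Parts

/-!
# P073 / H16: large closed sets with a small Lipschitz constant in every dyadic square
-/

namespace Vale.Agent.P073.H16

open MeasureTheory Set Filter Topology Metric Vale.Agent.P073.St Vale.Agent.P073.AB
open Vale.Agent.P073.SQ (ev)
open Vale.Agent.P073.H235 (P2 GSet SpecGSet)
open Vale.Agent.P073.H194 (sInt)
open Vale.Agent.P073.H716 (bInt GSetGood)
open scoped ENNReal

theorem blk_one (s : Idx × Fin 3) (v : V) : blk v s.1.1 s.1.2 s.2 1 = squ v s := by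
  have e : ∀ l, pt v s.1.1 s.1.2 l + ((1:ℕ):ℝ) / 2 ^ s.1.1 =
      v l + (s.1.2 l + 1) / 2 ^ s.1.1 := by
    intro l
    show v l + (s.1.2 l : ℝ) / 2 ^ s.1.1 + ((1:ℕ):ℝ) / 2 ^ s.1.1 = _
    rw [Nat.cast_one]; ring
  ext x
  constructor
  · intro hx
    exact ⟨hx.1, fun l hl => ⟨(hx.2 l hl).1, (hx.2 l hl).2.trans (e l).le⟩⟩
  · intro hx
    exact ⟨hx.1, fun l hl => ⟨(hx.2 l hl).1, (hx.2 l hl).2.trans (e l).ge⟩⟩

theorem bInt_one (s : Idx × Fin 3) (v : V) (H : V → ℝ≥0∞) :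
    bInt v s.1.1 s.1.2 s.2 1 H = sInt v s H := by
  have hmem : s.1.2 ∈ Bsq s.1.2 s.2 1 := ⟨rfl, fun l _ => ⟨le_rfl, by
    rw [Nat.cast_one]; exact lt_add_one _⟩⟩
  have huniq : ∀ w : Bsq s.1.2 s.2 1, w = ⟨s.1.2, hmem⟩ := by
    rintro ⟨w, hw1, hw2⟩
    apply Subtype.ext
    funext l
    by_cases hl : l = s.2
    · rw [hl]; exact hw1
    · have h1 := hw2 l hl
      rw [Nat.cast_one] at h1
      show w l = s.1.2 l
      omega
  rw [bInt, tsum_eq_single (⟨s.1.2, hmem⟩ : Bsq s.1.2 s.2 1)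
    (fun w hw => absurd (huniq w) hw)]

/-- the good sets for one origin -/
theorem gset_of_good {v : V} {Ω : Set V} {f : V → V} {F : V → Mat}
    (h : GSetGood Ω f (fun x => cl (F x)) v) :
    GSet 16 v Ω f fun x => ‖cl (F x) - P2‖ₑ := by
  intro s _ hsub k hk
  obtain ⟨G, h1, h2, h3, h4, -⟩ := h s.1.1 s.1.2 s.2 1 one_pos (by rw [blk_one]; exact hsub) P2 1
    le_rfl (fun T => ‖T - P2‖ₑ) (by fun_prop) (by
      intro T l _
      rw [ENNReal.rpow_one, ← ContinuousLinearMap.sub_apply]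
      refine (ContinuousLinearMap.le_opNorm_enorm _ _).trans (le_of_eq ?_)
      have : ‖(ev l : V)‖ₑ = 1 := by
        rw [← ofReal_norm, show ‖(ev l : V)‖ = 1 from by unfold ev; rw [Pi.norm_single]; simp,
          ENNReal.ofReal_one]
      rw [this, mul_one]) (ENNReal.ofReal k)
  rw [blk_one] at h2
  rw [bInt_one, bInt_one, ENNReal.rpow_one] at h3
  refine ⟨G, h2, h1, ?_, fun x hx y hy => ?_⟩
  · have hk0 : ENNReal.ofReal k ≠ 0 := (ENNReal.ofReal_pos.2 hk).ne'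
    rw [← ENNReal.le_div_iff_mul_le (Or.inl hk0) (Or.inl ENNReal.ofReal_ne_top)] at h3
    refine h3.trans (le_of_eq ?_)
    rw [ENNReal.ofReal_div_of_pos hk, ENNReal.ofReal_ofNat, ENNReal.div_eq_inv_mul,
      ENNReal.div_eq_inv_mul]
    ring
  · have h5 := h4 x hx y hy
    rw [← ofReal_norm, ← ofReal_norm, show (12:ℝ≥0∞) = ENNReal.ofReal 12 from
      (ENNReal.ofReal_ofNat 12).symm, ← ENNReal.ofReal_mul (by norm_num),
      ← ENNReal.ofReal_mul (by positivity), ENNReal.ofReal_le_ofReal_iff (by positivity)] at h5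
    refine h5.trans ?_
    gcongr
    norm_num

/-- **[GSET]** -/
theorem specGSet : SpecGSet 16 := by
  intro p Ω f F hp hΩ hv hf hS
  filter_upwards [H716.ae_gset hΩ hf (PK.IsSob.locallyIntegrableOn_cl hp hv hS)
    (PK.IsSob.weakDeriv hp hv hS)] with v h
  exact gset_of_good h

end Vale.Agent.P073.H16
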