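import Vale.Agent.P073.H16.Mor2A

/-!
# P073 / H16: good lines of a square

`u` is controlled by `h` on almost all lines parallel to the axes.  If the mean of `h` over the
square is small then most lines are good, and `u` is almost constant on the net of all good lines.
No exponent is involved.
-/

namespace Vale.Agent.P073.H16

open MeasureTheory Set Filter Topology
open scoped ENNReal NNReal

variable {E' : Type*} [NormedAddCommGroup E'] {u : ℝ × ℝ → E'} {h : ℝ × ℝ → ℝ≥0∞}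
  {A B R l : ℝ}

/-- the vertical line at `a` is good: `u` is controlled by `h` on it and `h` has small integral -/
def GV (u : ℝ × ℝ → E') (h : ℝ × ℝ → ℝ≥0∞) (A B R l : ℝ) : Set ℝ :=
  {a | a ∈ Icc A (A + R) ∧ (∀ x ∈ Icc B (B + R), ∀ y ∈ Icc B (B + R), x ≤ y →
    ‖u (a, y) - u (a, x)‖ₑ ≤ ∫⁻ t in Icc x y, h (a, t)) ∧
    ∫⁻ t in Icc B (B + R), h (a, t) ≤ ENNReal.ofReal (l * R)}

/-- the horizontal line at `b` is good -/
def GH (u : ℝ × ℝ → E') (h : ℝ × ℝ → ℝ≥0∞) (A B R l : ℝ) : Set ℝ :=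
  {b | b ∈ Icc B (B + R) ∧ (∀ x ∈ Icc A (A + R), ∀ y ∈ Icc A (A + R), x ≤ y →
    ‖u (y, b) - u (x, b)‖ₑ ≤ ∫⁻ s in Icc x y, h (s, b)) ∧
    ∫⁻ s in Icc A (A + R), h (s, b) ≤ ENNReal.ofReal (l * R)}

/-- the net of the good lines -/
def net (u : ℝ × ℝ → E') (h : ℝ × ℝ → ℝ≥0∞) (A B R l : ℝ) : Set (ℝ × ℝ) :=
  {z | z ∈ Icc A (A + R) ×ˢ Icc B (B + R) ∧ (z.1 ∈ GV u h A B R l ∨ z.2 ∈ GH u h A B R l)}

theorem norm_of_GV {a x y : ℝ} (hl : 0 ≤ l * R) (ha : a ∈ GV u h A B R l)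
    (hx : x ∈ Icc B (B + R)) (hy : y ∈ Icc B (B + R)) : ‖u (a, y) - u (a, x)‖ ≤ l * R := by
  have h1 := abs_le_of_good (u := fun z => u (z.2, z.1)) (h := fun z => h (z.2, z.1)) (t := a)
    ha.2.1 le_rfl le_rfl hx hy
  have h2 : ‖u (a, y) - u (a, x)‖ₑ ≤ ENNReal.ofReal (l * R) := h1.trans ha.2.2
  rwa [← ofReal_norm, ENNReal.ofReal_le_ofReal_iff hl] at h2

theorem norm_of_GH {b x y : ℝ} (hl : 0 ≤ l * R) (hb : b ∈ GH u h A B R l)
    (hx : x ∈ Icc A (A + R)) (hy : y ∈ Icc A (A + R)) : ‖u (y, b) - u (x, b)‖ ≤ l * R := by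
  have h1 := abs_le_of_good (t := b) hb.2.1 le_rfl le_rfl hx hy
  have h2 : ‖u (y, b) - u (x, b)‖ₑ ≤ ENNReal.ofReal (l * R) := h1.trans hb.2.2
  rwa [← ofReal_norm, ENNReal.ofReal_le_ofReal_iff hl] at h2

/-- most vertical lines are good -/
theorem volume_GV (H : Hm u h A B R) (hl : 0 < l)
    (hI : dI h A B R ≤ ENNReal.ofReal (l ^ 2 * R ^ 2)) :
    volume (Icc A (A + R) \ GV u h A B R l) ≤ ENNReal.ofReal (l * R) := by
  have hR := H.pos
  have hm : Measurable fun s => ∫⁻ t in Icc B (B + R), h (s, t) := H.meas.lintegral_prod_right'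
  set φ : ℝ → ℝ≥0∞ := fun s => ∫⁻ t in Icc B (B + R), h (s, t) with hφ
  have h1 : ENNReal.ofReal (l * R) * (volume.restrict (Icc A (A + R)))
      {s | ENNReal.ofReal (l * R) ≤ φ s} ≤ ∫⁻ s in Icc A (A + R), φ s :=
    mul_meas_ge_le_lintegral hm _
  rw [← dI_eq H.meas] at h1
  have h2 : (volume.restrict (Icc A (A + R))) {s | ENNReal.ofReal (l * R) ≤ φ s} ≤
      ENNReal.ofReal (l * R) := by
    have h3 := h1.trans hI
    have e : l ^ 2 * R ^ 2 = (l * R) * (l * R) := by ring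
    rw [e, ENNReal.ofReal_mul (p := l * R) (q := l * R) (by positivity)] at h3
    exact (ENNReal.mul_le_mul_iff_right (by simpa using mul_pos hl hR)
      ENNReal.ofReal_ne_top).1 h3
  rw [Measure.restrict_apply (measurableSet_le measurable_const hm)] at h2
  refine le_trans ?_ h2
  refine measure_mono_ae ?_
  filter_upwards [H.ver] with s hs hsm
  refine ⟨?_, hsm.1⟩
  show ENNReal.ofReal (l * R) ≤ φ s
  by_contra hcon
  exact hsm.2 ⟨hsm.1, hs hsm.1, (not_le.1 hcon).le⟩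

/-- exchange of the coordinates -/
theorem Hm.swap (H : Hm u h A B R) : Hm (fun z => u (z.2, z.1)) (fun z => h (z.2, z.1)) B A R where
  pos := H.pos
  meas := H.meas.comp measurable_swap
  cont := H.cont.comp continuous_swap.continuousOn fun _ hz => ⟨hz.2, hz.1⟩
  ver := H.hor
  hor := H.ver

theorem dI_swap (hh : Measurable h) : dI (fun z => h (z.2, z.1)) B A R = dI h A B R := by
  rw [dI_symm hh]
  exact dI_eq (hh.comp measurable_swap) B A R

theorem GV_swap : GV (fun z => u (z.2, z.1)) (fun z => h (z.2, z.1)) B A R l = GH u h A B R l := rfl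

/-- most horizontal lines are good -/
theorem volume_GH (H : Hm u h A B R) (hl : 0 < l)
    (hI : dI h A B R ≤ ENNReal.ofReal (l ^ 2 * R ^ 2)) :
    volume (Icc B (B + R) \ GH u h A B R l) ≤ ENNReal.ofReal (l * R) := by
  have := volume_GV H.swap hl (by rw [dI_swap H.meas]; exact hI)
  rwa [GV_swap] at this

/-- a subinterval which is long enough contains a good vertical line -/
theorem exists_mem_of_volume {S : Set ℝ} {α ρ : ℝ} {T : Set ℝ}
    (hS : Icc α (α + ρ) ⊆ T) {m : ℝ} (hm : 0 ≤ m) (hv : volume (T \ S) ≤ ENNReal.ofReal m)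
    (hmρ : m < ρ) : ∃ a ∈ Icc α (α + ρ), a ∈ S := by
  by_contra hcon
  push Not at hcon
  have h1 : Icc α (α + ρ) ⊆ T \ S := fun a ha => ⟨hS ha, hcon a ha⟩
  have h2 := (measure_mono h1).trans hv
  rw [Real.volume_Icc, add_sub_cancel_left, ENNReal.ofReal_le_ofReal_iff hm] at h2
  linarith

/-- **(LINES)** `u` is almost constant on the net of the good lines -/
theorem exists_const (H : Hm u h A B R) (hl : 0 < l) (hl1 : l < 1)
    (hI : dI h A B R ≤ ENNReal.ofReal (l ^ 2 * R ^ 2)) :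
    ∃ b : E', ∀ z ∈ net u h A B R l, ‖u z - b‖ ≤ 2 * (l * R) := by
  have hR := H.pos
  have hlR : 0 ≤ l * R := by positivity
  have hlt : l * R < R := by nlinarith
  obtain ⟨a, ha, haG⟩ := exists_mem_of_volume (α := A) (ρ := R) subset_rfl hlR
    (volume_GV H hl hI) hlt
  obtain ⟨b, hb, hbG⟩ := exists_mem_of_volume (α := B) (ρ := R) subset_rfl hlR
    (volume_GH H hl hI) hlt
  refine ⟨u (a, b), fun z hz => ?_⟩
  obtain ⟨s, t⟩ := z
  obtain ⟨⟨hs, ht⟩, hst⟩ := hz
  rcases hst with h1 | h1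
  · have e1 := norm_of_GV hlR h1 hb ht
    have e2 := norm_of_GH hlR hbG ha hs
    have : u (s, t) - u (a, b) = (u (s, t) - u (s, b)) + (u (s, b) - u (a, b)) := by abel
    rw [this]
    exact (norm_add_le _ _).trans (by linarith)
  · have e1 := norm_of_GH hlR h1 ha hs
    have e2 := norm_of_GV hlR haG hb ht
    have : u (s, t) - u (a, b) = (u (s, t) - u (a, t)) + (u (a, t) - u (a, b)) := by abel
    rw [this]
    exact (norm_add_le _ _).trans (by linarith)

/-- **comparison of the constants** of a square and of a subsquare -/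
theorem const_sub (H : Hm u h A B R) {A' B' R' : ℝ} (H' : Hm u h A' B' R') (hl : 0 < l)
    (hA : A ≤ A') (hAR : A' + R' ≤ A + R) (hB : B ≤ B') (hBR : B' + R' ≤ B + R)
    (hI : dI h A B R ≤ ENNReal.ofReal (l ^ 2 * R ^ 2))
    (hI' : dI h A' B' R' ≤ ENNReal.ofReal (l ^ 2 * R' ^ 2)) (hlR : l * (R + R') < R')
    {b b' : E'} (hb : ∀ z ∈ net u h A B R l, ‖u z - b‖ ≤ 2 * (l * R))
    (hb' : ∀ z ∈ net u h A' B' R' l, ‖u z - b'‖ ≤ 2 * (l * R')) :
    ‖b - b'‖ ≤ 2 * l * (R + R') := by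
  have hR := H.pos
  have hR' := H'.pos
  have hsub : Icc A' (A' + R') ⊆ Icc A (A + R) := Icc_subset_Icc hA hAR
  have h1 : volume (Icc A' (A' + R') \ (GV u h A B R l ∩ GV u h A' B' R' l)) ≤
      ENNReal.ofReal (l * (R + R')) := by
    have h2 : Icc A' (A' + R') \ (GV u h A B R l ∩ GV u h A' B' R' l) ⊆
        (Icc A (A + R) \ GV u h A B R l) ∪ (Icc A' (A' + R') \ GV u h A' B' R' l) := by
      intro x hx
      by_cases hxG : x ∈ GV u h A B R l
      · right; exact ⟨hx.1, fun h3 => hx.2 ⟨hxG, h3⟩⟩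
      · left; exact ⟨hsub hx.1, hxG⟩
    refine (measure_mono h2).trans ((measure_union_le _ _).trans ?_)
    rw [mul_add, ENNReal.ofReal_add (by positivity) (by positivity)]
    exact add_le_add (volume_GV H hl hI) (volume_GV H' hl hI')
  obtain ⟨a, ha, haG, haG'⟩ := exists_mem_of_volume (α := A') (ρ := R') subset_rfl
    (by positivity) h1 hlR
  have hB' : B' ∈ Icc B' (B' + R') := ⟨le_rfl, by linarith⟩
  have hBB : B' ∈ Icc B (B + R) := ⟨hB, by linarith⟩
  have e1 := hb (a, B') ⟨⟨hsub ha, hBB⟩, Or.inl haG⟩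
  have e2 := hb' (a, B') ⟨⟨ha, hB'⟩, Or.inl haG'⟩
  have : b - b' = (u (a, B') - b') - (u (a, B') - b) := by abel
  rw [this]
  exact (norm_sub_le _ _).trans (by linarith)

end Vale.Agent.P073.H16
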