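import Vale.Agent.P073.H31.Morrey
import Vale.Agent.P073.HB.Acl2

/-!
# P073 / H16: Morrey's inequality on the unit square, by chaining along good lines
-/

namespace Vale.Agent.P073.H16

open MeasureTheory Set Filter Topology
open scoped ENNReal NNReal

/-- a point where a function does not exceed its average -/
theorem exists_le_avg {α r : ℝ} (hr : 0 < r) {φ : ℝ → ℝ≥0∞} (hφ : Measurable φ) {P : ℝ → Prop}
    (hP : ∀ᵐ t, P t) :
    ∃ a ∈ Icc α (α + r), P a ∧ φ a * ENNReal.ofReal r ≤ ∫⁻ t in Icc α (α + r), φ t := by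
  have hv : volume (Icc α (α + r)) = ENNReal.ofReal r := by rw [Real.volume_Icc]; congr 1; ring
  obtain ⟨a, ha, hPa, h⟩ := HB.exists_good_point (ν := volume) (B := Icc α (α + r))
    (by rw [hv]; simpa using hr) (by rw [hv]; exact ENNReal.ofReal_ne_top) measurableSet_Icc
    ({()} : Finset Unit) (fun _ => φ) (fun _ _ => hφ.aemeasurable) (P := P)
    (hP.mono fun t h _ => h)
  refine ⟨a, ha, hPa, ?_⟩
  have := h () (by simp)
  simpa [hv] using this

variable {E' : Type*} [NormedAddCommGroup E']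

/-- `h` controls `u` on almost all lines parallel to the axes, in the square with lower corner
`(A, B)` and side `R` -/
structure Hm (u : ℝ × ℝ → E') (h : ℝ × ℝ → ℝ≥0∞) (A B R : ℝ) : Prop where
  pos : 0 < R
  meas : Measurable h
  cont : ContinuousOn u (Icc A (A + R) ×ˢ Icc B (B + R))
  ver : ∀ᵐ s : ℝ, s ∈ Icc A (A + R) → ∀ a ∈ Icc B (B + R), ∀ b ∈ Icc B (B + R), a ≤ b →
    ‖u (s, b) - u (s, a)‖ₑ ≤ ∫⁻ t in Icc a b, h (s, t)
  hor : ∀ᵐ t : ℝ, t ∈ Icc B (B + R) → ∀ a ∈ Icc A (A + R), ∀ b ∈ Icc A (A + R), a ≤ b →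
    ‖u (b, t) - u (a, t)‖ₑ ≤ ∫⁻ s in Icc a b, h (s, t)

/-- the integral over a square -/
noncomputable def dI (h : ℝ × ℝ → ℝ≥0∞) (α β r : ℝ) : ℝ≥0∞ :=
  ∫⁻ z, h z ∂((volume.restrict (Icc α (α + r))).prod (volume.restrict (Icc β (β + r))))

theorem dI_eq {h : ℝ × ℝ → ℝ≥0∞} (hh : Measurable h) (α β r : ℝ) :
    dI h α β r = ∫⁻ s in Icc α (α + r), ∫⁻ t in Icc β (β + r), h (s, t) :=
  lintegral_prod _ hh.aemeasurable

theorem dI_symm {h : ℝ × ℝ → ℝ≥0∞} (hh : Measurable h) (α β r : ℝ) :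
    dI h α β r = ∫⁻ t in Icc β (β + r), ∫⁻ s in Icc α (α + r), h (s, t) :=
  lintegral_prod_symm _ hh.aemeasurable

/-- the horizontal line at height `t` is good for the square `(α, β, r)` -/
def HG (u : ℝ × ℝ → E') (h : ℝ × ℝ → ℝ≥0∞) (A R α β r t : ℝ) : Prop :=
  (∀ a ∈ Icc A (A + R), ∀ b ∈ Icc A (A + R), a ≤ b →
    ‖u (b, t) - u (a, t)‖ₑ ≤ ∫⁻ s in Icc a b, h (s, t)) ∧
  (∫⁻ s in Icc α (α + r), h (s, t)) * ENNReal.ofReal r ≤ dI h α β r

variable {u : ℝ × ℝ → E'} {h : ℝ × ℝ → ℝ≥0∞} {A B R : ℝ}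

theorem exists_HG (H : Hm u h A B R) {α β r : ℝ} (hr : 0 < r)
    (hβ : B ≤ β) (hβr : β + r ≤ B + R) : ∃ t ∈ Icc β (β + r), HG u h A R α β r t := by
  have hm : Measurable fun t => ∫⁻ s in Icc α (α + r), h (s, t) :=
    H.meas.lintegral_prod_left'
  obtain ⟨t, ht, h1, h2⟩ := exists_le_avg (α := β) hr hm H.hor
  refine ⟨t, ht, h1 ⟨hβ.trans ht.1, ht.2.trans hβr⟩, ?_⟩
  rw [dI_symm H.meas]
  exact h2

theorem abs_le_of_good {α r t x y : ℝ}
    (H : ∀ a ∈ Icc A (A + R), ∀ b ∈ Icc A (A + R), a ≤ b →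
      ‖u (b, t) - u (a, t)‖ₑ ≤ ∫⁻ s in Icc a b, h (s, t)) (hα : A ≤ α) (hαr : α + r ≤ A + R)
    (hx : x ∈ Icc α (α + r)) (hy : y ∈ Icc α (α + r)) :
    ‖u (y, t) - u (x, t)‖ₑ ≤ ∫⁻ s in Icc α (α + r), h (s, t) := by
  have hx' : x ∈ Icc A (A + R) := ⟨hα.trans hx.1, hx.2.trans hαr⟩
  have hy' : y ∈ Icc A (A + R) := ⟨hα.trans hy.1, hy.2.trans hαr⟩
  rcases le_total x y with hxy | hxy
  · exact (H x hx' y hy' hxy).trans (lintegral_mono_set (Icc_subset_Icc hx.1 hy.2))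
  · rw [← enorm_neg, neg_sub]
    exact (H y hy' x hx' hxy).trans (lintegral_mono_set (Icc_subset_Icc hy.1 hx.2))

/-- one step of the chain -/
theorem step (H : Hm u h A B R) {α β r α' β' : ℝ} (hr : 0 < r)
    (hα : A ≤ α) (hαr : α + r ≤ A + R) (hβ : B ≤ β) (hβr : β + r ≤ B + R)
    (h1 : α ≤ α') (h2 : α' + r / 2 ≤ α + r) (h3 : β ≤ β') (h4 : β' + r / 2 ≤ β + r)
    {b a : ℝ} (hb : b ∈ Icc α (α + r)) (ha : a ∈ Icc β (β + r)) (hg : HG u h A R α β r a) :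
    ∃ b' ∈ Icc α' (α' + r / 2), ∃ a' ∈ Icc β' (β' + r / 2), HG u h A R α' β' (r / 2) a' ∧
      ‖u (b', a') - u (b, a)‖ₑ * ENNReal.ofReal r ≤ 3 * dI h α β r := by
  have hm : Measurable fun s => ∫⁻ t in Icc β (β + r), h (s, t) :=
    H.meas.lintegral_prod_right'
  obtain ⟨b', hb', e1, e2⟩ := exists_le_avg (α := α') (half_pos hr) hm H.ver
  obtain ⟨a', ha', hg'⟩ := exists_HG H (α := α') (half_pos hr) (hβ.trans h3) (h4.trans hβr)
  refine ⟨b', hb', a', ha', hg', ?_⟩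
  have hb1 : b' ∈ Icc α (α + r) := ⟨h1.trans hb'.1, hb'.2.trans h2⟩
  have ha1 : a' ∈ Icc β (β + r) := ⟨h3.trans ha'.1, ha'.2.trans h4⟩
  have e3 : ‖u (b', a') - u (b', a)‖ₑ ≤ ∫⁻ t in Icc β (β + r), h (b', t) := by
    have e4 := e1 ⟨hα.trans hb1.1, hb1.2.trans hαr⟩
    exact abs_le_of_good (u := fun z => u (z.2, z.1)) (h := fun z => h (z.2, z.1)) (t := b')
      e4 hβ hβr ha ha1
  have e5 : ‖u (b', a) - u (b, a)‖ₑ ≤ ∫⁻ s in Icc α (α + r), h (s, a) :=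
    abs_le_of_good hg.1 hα hαr hb hb1
  have e6 : (∫⁻ t in Icc β (β + r), h (b', t)) * ENNReal.ofReal r ≤ 2 * dI h α β r := by
    have e7 : ENNReal.ofReal r = 2 * ENNReal.ofReal (r / 2) := by
      rw [← ENNReal.ofReal_ofNat 2, ← ENNReal.ofReal_mul (by norm_num)]
      congr 1; ring
    rw [e7, mul_left_comm]
    gcongr
    refine e2.trans ?_
    rw [dI_eq H.meas]
    exact lintegral_mono_set (Icc_subset_Icc h1 h2)
  have e8 : ‖u (b', a') - u (b, a)‖ₑ ≤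
      (∫⁻ t in Icc β (β + r), h (b', t)) + ∫⁻ s in Icc α (α + r), h (s, a) := by
    have : u (b', a') - u (b, a) = (u (b', a') - u (b', a)) + (u (b', a) - u (b, a)) := by abel
    rw [this]
    exact (enorm_add_le _ _).trans (add_le_add e3 e5)
  calc _ ≤ ((∫⁻ t in Icc β (β + r), h (b', t)) + ∫⁻ s in Icc α (α + r), h (s, a)) *
        ENNReal.ofReal r := by gcongr
    _ = (∫⁻ t in Icc β (β + r), h (b', t)) * ENNReal.ofReal r +
        (∫⁻ s in Icc α (α + r), h (s, a)) * ENNReal.ofReal r := add_mul _ _ _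
    _ ≤ 2 * dI h α β r + dI h α β r := add_le_add e6 hg.2
    _ = 3 * dI h α β r := by ring

/-- Hoelder -/
theorem dI_le (hh : Measurable h) {p : ℝ} (hp : 1 < p) {α β r : ℝ}
    (hr : 0 < r) (hα : A ≤ α) (hαr : α + r ≤ A + R) (hβ : B ≤ β) (hβr : β + r ≤ B + R) :
    dI h α β r ≤ dI (fun z => h z ^ p) A B R ^ (1 / p) * ENNReal.ofReal (r ^ (2 - 2 / p)) := by
  have h1 := H31.lintegral_le_rpow_mul (ν := (volume.restrict (Icc α (α + r))).prod
    (volume.restrict (Icc β (β + r)))) hp hh.aemeasurable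
  refine h1.trans ?_
  have hp0 : 0 < p := by linarith
  have e1 : ((volume.restrict (Icc α (α + r))).prod (volume.restrict (Icc β (β + r)))) univ =
      ENNReal.ofReal (r ^ (2:ℝ)) := by
    rw [← univ_prod_univ, Measure.prod_prod, Measure.restrict_apply_univ,
      Measure.restrict_apply_univ, Real.volume_Icc, Real.volume_Icc, add_sub_cancel_left,
      add_sub_cancel_left, ← ENNReal.ofReal_mul hr.le]
    congr 1
    rw [Real.rpow_two]; ring
  have e2 : 0 ≤ 1 - 1 / p := by rw [sub_nonneg, div_le_one hp0]; exact hp.le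
  rw [e1, ENNReal.ofReal_rpow_of_pos (by positivity), ← Real.rpow_mul hr.le]
  have e3 : 2 * (1 - 1 / p) = 2 - 2 / p := by ring
  rw [e3]
  gcongr
  unfold dI
  refine lintegral_mono' ?_ le_rfl
  refine Measure.prod_mono ?_ ?_
  · exact Measure.restrict_mono (Icc_subset_Icc hα hαr) le_rfl
  · exact Measure.restrict_mono (Icc_subset_Icc hβ hβr) le_rfl

/-- one step, with Hoelder -/
theorem step_le (hh : Measurable h) {p : ℝ} (hp : 1 < p) {α β r : ℝ}
    (hr : 0 < r) (hα : A ≤ α) (hαr : α + r ≤ A + R) (hβ : B ≤ β) (hβr : β + r ≤ B + R) {c : ℝ≥0∞}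
    (hc : c * ENNReal.ofReal r ≤ 3 * dI h α β r) :
    c ≤ 3 * dI (fun z => h z ^ p) A B R ^ (1 / p) * ENNReal.ofReal (r ^ (1 - 2 / p)) := by
  have h1 := dI_le hh hp hr hα hαr hβ hβr
  have e1 : r ^ (2 - 2 / p) = r ^ (1 - 2 / p) * r := by
    have : 2 - 2 / p = (1 - 2 / p) + 1 := by ring
    rw [this, Real.rpow_add hr, Real.rpow_one]
  rw [e1, ENNReal.ofReal_mul (by positivity)] at h1
  have h2 : c * ENNReal.ofReal r ≤
      (3 * dI (fun z => h z ^ p) A B R ^ (1 / p) * ENNReal.ofReal (r ^ (1 - 2 / p))) *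
        ENNReal.ofReal r := by
    refine hc.trans ?_
    calc 3 * dI h α β r ≤ 3 * (dI (fun z => h z ^ p) A B R ^ (1 / p) *
          (ENNReal.ofReal (r ^ (1 - 2 / p)) * ENNReal.ofReal r)) := by gcongr
      _ = _ := by ring
  exact (ENNReal.mul_le_mul_iff_left (by simpa using hr) ENNReal.ofReal_ne_top).1 h2

/-- the state of the chain: homothetic squares with centre `(x, y)` -/
def PS (u : ℝ × ℝ → E') (h : ℝ × ℝ → ℝ≥0∞) (A B R x y : ℝ) (j : ℕ) (z : ℝ × ℝ) : Prop :=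
  z.1 ∈ Icc (A + (x - A) * (1 - (1 / 2) ^ j)) (A + (x - A) * (1 - (1 / 2) ^ j) + R * (1 / 2) ^ j) ∧
  z.2 ∈ Icc (B + (y - B) * (1 - (1 / 2) ^ j)) (B + (y - B) * (1 - (1 / 2) ^ j) + R * (1 / 2) ^ j) ∧
  HG u h A R (A + (x - A) * (1 - (1 / 2) ^ j)) (B + (y - B) * (1 - (1 / 2) ^ j))
    (R * (1 / 2) ^ j) z.2

theorem half_pow_mem (j : ℕ) : 0 < ((1:ℝ) / 2) ^ j ∧ ((1:ℝ) / 2) ^ j ≤ 1 :=
  ⟨by positivity, pow_le_one₀ (by norm_num) (by norm_num)⟩

theorem exists_next (H : Hm u h A B R) {p : ℝ} (hp : 1 < p)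
    {x y : ℝ} (hx : x ∈ Icc A (A + R)) (hy : y ∈ Icc B (B + R)) (j : ℕ) (z : ℝ × ℝ)
    (hz : PS u h A B R x y j z) : ∃ z', PS u h A B R x y (j + 1) z' ∧
      edist (u z) (u z') ≤ 3 * dI (fun z => h z ^ p) A B R ^ (1 / p) *
        ENNReal.ofReal ((R * (1 / 2) ^ j) ^ (1 - 2 / p)) := by
  obtain ⟨hq0, hq1⟩ := half_pow_mem j
  have hR := H.pos
  have e : ((1:ℝ) / 2) ^ (j + 1) = (1 / 2) ^ j / 2 := by rw [pow_succ]; ring
  unfold PS at hz ⊢
  rw [e, ← mul_div_assoc]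
  set q : ℝ := (1 / 2) ^ j with hq
  obtain ⟨h1, h2, h3⟩ := hz
  obtain ⟨hx1, hx2⟩ := hx
  obtain ⟨hy1, hy2⟩ := hy
  have x0 : 0 ≤ x - A := by linarith
  have x1 : 0 ≤ A + R - x := by linarith
  have y0 : 0 ≤ y - B := by linarith
  have y1 : 0 ≤ B + R - y := by linarith
  have a1 : A ≤ A + (x - A) * (1 - q) := by
    have := mul_nonneg x0 (by linarith : 0 ≤ 1 - q); linarith
  have a2 : A + (x - A) * (1 - q) + R * q ≤ A + R := by
    have := mul_nonneg x1 (by linarith : 0 ≤ 1 - q); nlinarith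
  have b1 : B ≤ B + (y - B) * (1 - q) := by
    have := mul_nonneg y0 (by linarith : 0 ≤ 1 - q); linarith
  have b2 : B + (y - B) * (1 - q) + R * q ≤ B + R := by
    have := mul_nonneg y1 (by linarith : 0 ≤ 1 - q); nlinarith
  have c1 := mul_nonneg x0 hq0.le
  have c2 := mul_nonneg x1 hq0.le
  have c3 := mul_nonneg y0 hq0.le
  have c4 := mul_nonneg y1 hq0.le
  obtain ⟨b', hb', a', ha', hg, hd⟩ := step H (mul_pos hR hq0) a1 a2 b1 b2
    (show A + (x - A) * (1 - q) ≤ A + (x - A) * (1 - q / 2) by nlinarith)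
    (show A + (x - A) * (1 - q / 2) + R * q / 2 ≤ A + (x - A) * (1 - q) + R * q by nlinarith)
    (show B + (y - B) * (1 - q) ≤ B + (y - B) * (1 - q / 2) by nlinarith)
    (show B + (y - B) * (1 - q / 2) + R * q / 2 ≤ B + (y - B) * (1 - q) + R * q by nlinarith)
    h1 h2 h3
  refine ⟨(b', a'), ⟨hb', ha', hg⟩, ?_⟩
  rw [edist_comm, edist_eq_enorm_sub]
  exact step_le H.meas hp (mul_pos hR hq0) a1 a2 b1 b2 hd

/-- the constant in Morrey's inequality -/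
noncomputable def CM (p : ℝ) : ℝ := 3 / (1 - (1 / 2) ^ (1 - 2 / p))

theorem q_lt_one {p : ℝ} (hp : 2 < p) : ((1:ℝ) / 2) ^ (1 - 2 / p) < 1 := by
  refine Real.rpow_lt_one (by norm_num) (by norm_num) ?_
  rw [sub_pos, div_lt_one (by linarith)]
  exact hp

theorem CM_pos {p : ℝ} (hp : 2 < p) : 0 < CM p := by
  have := q_lt_one hp
  unfold CM
  have : 0 < 1 - ((1:ℝ) / 2) ^ (1 - 2 / p) := by linarith
  positivity

theorem tendsto_coord {x : ℝ} {b : ℕ → ℝ}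
    (hb : ∀ j, b j ∈ Icc (A + (x - A) * (1 - (1 / 2) ^ j))
      (A + (x - A) * (1 - (1 / 2) ^ j) + R * (1 / 2) ^ j)) :
    Tendsto b atTop (𝓝 x) := by
  have h0 : Tendsto (fun j : ℕ => ((1:ℝ) / 2) ^ j) atTop (𝓝 0) :=
    tendsto_pow_atTop_nhds_zero_of_lt_one (by norm_num) (by norm_num)
  have h1 : Tendsto (fun j : ℕ => A + (x - A) * (1 - ((1:ℝ) / 2) ^ j)) atTop (𝓝 x) := by
    have := (tendsto_const_nhds (x := (1:ℝ))).sub h0
    have := (tendsto_const_nhds (x := A)).add ((tendsto_const_nhds (x := x - A)).mul this)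
    simpa using this
  have h2 : Tendsto (fun j : ℕ => A + (x - A) * (1 - ((1:ℝ) / 2) ^ j) + R * (1 / 2) ^ j) atTop
      (𝓝 x) := by
    simpa using h1.add ((tendsto_const_nhds (x := R)).mul h0)
  exact tendsto_of_tendsto_of_tendsto_of_le_of_le h1 h2 (fun j => (hb j).1) fun j => (hb j).2

theorem mem_unit {x : ℝ} (hx : x ∈ Icc A (A + R)) {j : ℕ} {b : ℝ}
    (hb : b ∈ Icc (A + (x - A) * (1 - (1 / 2) ^ j))
      (A + (x - A) * (1 - (1 / 2) ^ j) + R * (1 / 2) ^ j)) :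
    b ∈ Icc A (A + R) := by
  obtain ⟨hq0, hq1⟩ := half_pow_mem j
  obtain ⟨hx1, hx2⟩ := hx
  have x0 : 0 ≤ x - A := by linarith
  have x1 : 0 ≤ A + R - x := by linarith
  constructor
  · refine le_trans ?_ hb.1
    have := mul_nonneg x0 (by linarith : 0 ≤ 1 - ((1:ℝ) / 2) ^ j); linarith
  · refine hb.2.trans ?_
    have := mul_nonneg x1 (by linarith : 0 ≤ 1 - ((1:ℝ) / 2) ^ j); nlinarith

/-- the chain from a good starting point -/
theorem chain (H : Hm u h A B R) {p : ℝ} (hp : 2 < p) {t : ℝ}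
    (ht : t ∈ Icc B (B + R)) (hg : HG u h A R A B R t) {x y : ℝ} (hx : x ∈ Icc A (A + R))
    (hy : y ∈ Icc B (B + R)) : edist (u (A, t)) (u (x, y)) ≤
      ENNReal.ofReal (CM p * R ^ (1 - 2 / p)) * dI (fun z => h z ^ p) A B R ^ (1 / p) := by
  have hR := H.pos
  have h0 : PS u h A B R x y 0 (A, t) := by
    unfold PS
    simp only [pow_zero, sub_self, mul_zero, add_zero, mul_one]
    exact ⟨⟨le_rfl, by linarith⟩, ht, hg⟩
  choose! next hn1 hn2 using fun j z => exists_next (p := p) H (by linarith) hx hy j z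
  let z : ℕ → ℝ × ℝ := fun j => Nat.rec (A, t) (fun j z => next j z) j
  have hz0 : z 0 = (A, t) := rfl
  have hzs : ∀ j, z (j + 1) = next j (z j) := fun _ => rfl
  have hz : ∀ j, PS u h A B R x y j (z j) := by
    intro j
    induction j with
    | zero => rw [hz0]; exact h0
    | succ j ih => rw [hzs]; exact hn1 j (z j) ih
  have hlim : Tendsto z atTop (𝓝 (x, y)) :=
    (tendsto_coord fun j => (hz j).1).prodMk_nhds (tendsto_coord fun j => (hz j).2.1)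
  have hmem : ∀ j, z j ∈ Icc A (A + R) ×ˢ Icc B (B + R) := fun j =>
    ⟨mem_unit hx (hz j).1, mem_unit hy (hz j).2.1⟩
  have hul : Tendsto (fun j => u (z j)) atTop (𝓝 (u (x, y))) := by
    have hc := H.cont (x, y) ⟨hx, hy⟩
    exact hc.tendsto.comp (tendsto_nhdsWithin_iff.2 ⟨hlim, Eventually.of_forall hmem⟩)
  have hd := edist_le_tsum_of_edist_le_of_tendsto₀ (f := fun j => u (z j))
    (fun j => 3 * dI (fun z => h z ^ p) A B R ^ (1 / p) *
      ENNReal.ofReal ((R * (1 / 2) ^ j) ^ (1 - 2 / p)))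
    (fun j => by
      show edist (u (z j)) (u (z (j + 1))) ≤ _
      rw [hzs]
      exact hn2 j (z j) (hz j)) hul
  rw [hz0] at hd
  refine hd.trans (le_of_eq ?_)
  rw [ENNReal.tsum_mul_left]
  have hq := q_lt_one hp
  set q : ℝ := (1 / 2) ^ (1 - 2 / p) with hqd
  have hq0 : 0 ≤ q := by positivity
  have e1 : ∀ j : ℕ, (R * ((1:ℝ) / 2) ^ j) ^ (1 - 2 / p) = R ^ (1 - 2 / p) * q ^ j := by
    intro j
    rw [Real.mul_rpow hR.le (by positivity), hqd, ← Real.rpow_natCast, ← Real.rpow_natCast,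
      ← Real.rpow_mul (by norm_num), ← Real.rpow_mul (by norm_num), mul_comm (j : ℝ)]
  have e2 : ∑' j : ℕ, ENNReal.ofReal ((R * (1 / 2) ^ j) ^ (1 - 2 / p)) =
      ENNReal.ofReal (R ^ (1 - 2 / p)) * ENNReal.ofReal (1 - q)⁻¹ := by
    simp only [e1]
    rw [← tsum_geometric_of_lt_one hq0 hq, ENNReal.ofReal_tsum_of_nonneg
      (fun j => pow_nonneg hq0 j) (summable_geometric_of_lt_one hq0 hq), ← ENNReal.tsum_mul_left]
    refine tsum_congr fun j => ?_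
    rw [ENNReal.ofReal_mul (by positivity)]
  have h1q : 0 < 1 - q := by linarith
  rw [e2, mul_assoc, mul_comm (dI _ _ _ _ ^ _), ← mul_assoc]
  congr 1
  rw [← ENNReal.ofReal_ofNat 3, ← ENNReal.ofReal_mul (by positivity),
    ← ENNReal.ofReal_mul (by norm_num), CM, ← hqd, div_eq_mul_inv]
  congr 1
  ring

/-- **Morrey's inequality on a square** for functions with an upper gradient on almost all
lines parallel to the axes -/
theorem morrey_square (H : Hm u h A B R) {p : ℝ} (hp : 2 < p)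
    {P Q : ℝ × ℝ} (hP : P ∈ Icc A (A + R) ×ˢ Icc B (B + R))
    (hQ : Q ∈ Icc A (A + R) ×ˢ Icc B (B + R)) :
    ‖u P - u Q‖ₑ ≤ ENNReal.ofReal (2 * CM p * R ^ (1 - 2 / p)) *
      dI (fun z => h z ^ p) A B R ^ (1 / p) := by
  obtain ⟨t, ht, hg⟩ := exists_HG H (α := A) (β := B) (r := R) H.pos le_rfl le_rfl
  have h1 := chain H hp ht hg hP.1 hP.2
  have h2 := chain H hp ht hg hQ.1 hQ.2
  rw [← edist_eq_enorm_sub]
  refine (edist_triangle_left (u P) (u Q) (u (A, t))).trans ?_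
  refine (add_le_add h1 h2).trans (le_of_eq ?_)
  rw [mul_assoc 2, ENNReal.ofReal_mul (show (0:ℝ) ≤ 2 by norm_num), ENNReal.ofReal_ofNat]
  ring

end Vale.Agent.P073.H16
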