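import Vale.Agent.P073.H16.Mor2A
import Vale.Agent.P073.H83.AeRep
import Mathlib.MeasureTheory.Integral.Marginal

/-!
# P073 / H16: Morrey's inequality on the dyadic squares of a generic origin
-/

open Set Metric Topology Filter MeasureTheory
open scoped ENNReal
open Vale.Agent.P073.AB (Idx pt squ)
open P073.Net (dyc dyo)
open Vale.Agent.P073.St (V)
open Vale.Agent.P073.H194
open Vale.Agent.P073.SQ (ev)

namespace Vale.Agent.P073.H16

/-! ### coordinates on a square -/

/-- the point with coordinates `s, t, c` in the directions `i, j` and the third one -/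
noncomputable def P3 (i j k : Fin 3) (c s t : ℝ) : V :=
  Function.update (Function.update (Function.update (0 : V) i s) j t) k c

variable {i j k : Fin 3}

theorem P3_i (hij : i ≠ j) (hik : i ≠ k) (c s t : ℝ) : P3 i j k c s t i = s := by
  simp [P3, hij, hik]

theorem P3_j (hjk : j ≠ k) (c s t : ℝ) : P3 i j k c s t j = t := by
  simp [P3, hjk]

theorem P3_k (c s t : ℝ) : P3 i j k c s t k = c := by simp [P3]

theorem cases3 (hij : i ≠ j) (hik : i ≠ k) (hjk : j ≠ k) (l : Fin 3) : l = i ∨ l = j ∨ l = k := by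
  revert i j k l; decide

theorem P3_self (hij : i ≠ j) (hik : i ≠ k) (hjk : j ≠ k) (x : V) :
    P3 i j k (x k) (x i) (x j) = x := by
  funext l
  rcases cases3 hij hik hjk l with rfl | rfl | rfl
  · exact P3_i hij hik _ _ _
  · exact P3_j hjk _ _ _
  · exact P3_k _ _ _

theorem P3_swap (hij : i ≠ j) (hik : i ≠ k) (hjk : j ≠ k) (c s t : ℝ) :
    P3 j i k c t s = P3 i j k c s t := by
  funext l
  rcases cases3 hij hik hjk l with rfl | rfl | rfl
  · rw [P3_i hij hik, P3_j hik]
  · rw [P3_i (Ne.symm hij) hjk, P3_j hjk]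
  · rw [P3_k, P3_k]

theorem measurable_P3 (c : ℝ) : Measurable fun z : ℝ × ℝ => P3 i j k c z.1 z.2 := by
  refine measurable_pi_lambda _ fun l => ?_
  by_cases h1 : l = k
  · subst h1; simp only [P3_k]; exact measurable_const
  by_cases h2 : l = j
  · subst h2; simp only [P3_j h1]; exact measurable_snd
  by_cases h3 : l = i
  · subst h3; simp only [P3_i h2 h1]; exact measurable_fst
  simp only [P3, Function.update_of_ne h1, Function.update_of_ne h2, Function.update_of_ne h3]
  exact measurable_const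

theorem continuous_P3 (c : ℝ) : Continuous fun z : ℝ × ℝ => P3 i j k c z.1 z.2 := by
  unfold P3; fun_prop

theorem P3_add (hij : i ≠ j) (hjk : j ≠ k) (c s t r : ℝ) :
    P3 i j k c s (t + r) = P3 i j k c s t + r • (ev j : V) := by
  funext l
  by_cases h1 : l = k
  · subst h1; simp [P3_k, ev, Ne.symm hjk]
  by_cases h2 : l = j
  · subst h2; simp [P3_j h1, ev]
  by_cases h3 : l = i
  · subst h3; simp [P3_i h2 h1, ev, h2]
  simp [P3, Function.update_of_ne h1, Function.update_of_ne h3, ev, h2]

/-! ### the surface integral is a double integral -/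

theorem sInt_eq_dI (hij : i ≠ j) (hik : i ≠ k) (hjk : j ≠ k) (v : V) (n : ℕ) (z : Fin 3 → ℤ)
    {H : V → ℝ≥0∞} (hH : Measurable H) :
    sInt v ((n, z), k) H = dI (fun w => H (P3 i j k (pt v n z k) w.1 w.2)) (pt v n z i)
      (pt v n z j) (1 / 2 ^ n) := by
  rw [dI_eq (h := fun w : ℝ × ℝ => H (P3 i j k (pt v n z k) w.1 w.2))
    (hH.comp (measurable_P3 _))]
  set c := pt v n z k with hc
  set S : Fin 3 → Set ℝ := fun l => Icc (pt v n z l) (pt v n z l + 1 / 2 ^ n) with hS
  have hdyc : dyc v n z = Set.pi univ S := by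
    ext x
    simp only [Set.mem_pi, mem_univ, forall_true_left, hS, mem_Icc, pt]
    refine forall_congr' fun l => ?_
    rw [add_div, ← add_assoc]
  have hm : (volume : Measure V).restrict (dyc v n z) =
      Measure.pi fun l => (volume : Measure ℝ).restrict (S l) := by
    rw [hdyc, volume_pi]
    exact Measure.restrict_pi_pi _ _
  have hG : Measurable fun x : V => H (Function.update x k c) := hH.comp (by fun_prop)
  have huniv : (Finset.univ : Finset (Fin 3)) = insert i (insert j {k}) := by
    ext l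
    simp only [Finset.mem_univ, Finset.mem_insert, Finset.mem_singleton, true_iff]
    exact cases3 hij hik hjk l
  have h1 : ∫⁻ x in dyc v n z, H (Function.update x k c) =
      ∫⁻ s in S i, ∫⁻ t in S j, ENNReal.ofReal (1 / 2 ^ n) * H (P3 i j k c s t) := by
    rw [hm, lintegral_eq_lmarginal_univ (0 : V), huniv,
      lmarginal_insert _ hG (by simp [hij, hik])]
    refine lintegral_congr fun s => ?_
    rw [lmarginal_insert _ hG (by simp [hjk])]
    refine lintegral_congr fun t => ?_
    rw [lmarginal_singleton]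
    simp only [Function.update_idem]
    rw [lintegral_const, Measure.restrict_apply_univ, Real.volume_Icc, add_sub_cancel_left,
      mul_comm]
    rfl
  show 2 ^ n * ∫⁻ x in dyc v n z, H (Function.update x k c) = _
  rw [h1]
  have h2 : ∀ s, ∫⁻ t in S j, ENNReal.ofReal (1 / 2 ^ n) * H (P3 i j k c s t) =
      ENNReal.ofReal (1 / 2 ^ n) * ∫⁻ t in S j, H (P3 i j k c s t) := fun s =>
    lintegral_const_mul' _ _ ENNReal.ofReal_ne_top
  simp only [h2]
  rw [lintegral_const_mul' _ _ ENNReal.ofReal_ne_top, ← mul_assoc]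
  have h3 : (2:ℝ≥0∞) ^ n * ENNReal.ofReal (1 / 2 ^ n) = 1 := by
    rw [← ENNReal.ofReal_ofNat 2, ← ENNReal.ofReal_pow (by norm_num),
      ← ENNReal.ofReal_mul (by positivity)]
    have : (2:ℝ) ^ n * (1 / 2 ^ n) = 1 := by field_simp
    rw [this, ENNReal.ofReal_one]
  rw [h3, one_mul]

/-! ### almost all lines in the dyadic planes of a generic origin -/

variable {E' : Type*} [NormedAddCommGroup E'] [NormedSpace ℝ E']

/-- a property of almost all points holds on almost all points of countably many lines through a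
generic origin -/
theorem ae_ae_line {P : V → Prop} (hP : ∀ᵐ x : V, P x) (c e : V) :
    ∀ᵐ v : V, ∀ᵐ t : ℝ, P (v + c + t • e) := by
  set M := toMeasurable (volume : Measure V) {x | ¬ P x} with hM
  have hMm : MeasurableSet M := measurableSet_toMeasurable _ _
  have hM0 : volume M = 0 := by rw [hM, measure_toMeasurable]; exact hP
  set φ : V → ℝ≥0∞ := M.indicator fun _ => 1 with hφ
  have hφm : Measurable φ := measurable_const.indicator hMm
  have hφ0 : ∫⁻ x, φ x = 0 := by
    rw [hφ, lintegral_indicator hMm, lintegral_const, Measure.restrict_apply_univ, hM0, mul_zero]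
  have hj : Measurable fun p : V × ℝ => φ (p.1 + c + p.2 • e) := hφm.comp (by fun_prop)
  have hm : Measurable fun v : V => ∫⁻ t : ℝ, φ (v + c + t • e) := hj.lintegral_prod_right'
  have h1 : ∫⁻ v : V, ∫⁻ t : ℝ, φ (v + c + t • e) = 0 := by
    rw [lintegral_lintegral_swap hj.aemeasurable]
    have h2 : ∀ t : ℝ, ∫⁻ v : V, φ (v + c + t • e) = 0 := by
      intro t
      simp_rw [add_assoc]
      exact (lintegral_add_right_eq_self φ (c + t • e)).trans hφ0
    simp only [h2]
    exact lintegral_zero
  rw [lintegral_eq_zero_iff hm] at h1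
  filter_upwards [h1] with v hv
  have hm' : Measurable fun t : ℝ => φ (v + c + t • e) := hφm.comp (by fun_prop)
  have hv' : ∫⁻ t : ℝ, φ (v + c + t • e) = 0 := hv
  rw [lintegral_eq_zero_iff hm'] at hv'
  filter_upwards [hv'] with t ht
  by_contra hcon
  have h3 : v + c + t • e ∈ M := subset_toMeasurable _ _ hcon
  have h4 : φ (v + c + t • e) = 1 := by rw [hφ, indicator_of_mem h3]
  have h5 : φ (v + c + t • e) = 0 := ht
  rw [h4] at h5
  exact one_ne_zero h5

/-- the lines in direction `j` in the dyadic planes -/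
def LineGood (Ω : Set V) (f : V → E') (D : V → V →L[ℝ] E') (v : V) : Prop :=
  ∀ (n : ℕ) (z : Fin 3 → ℤ) (i j : Fin 3), ∀ᵐ t : ℝ,
    (∀ s ∈ Icc (0:ℝ) 1, pt v n z + t • (ev i : V) + s • ((1 / 2 ^ n : ℝ) • (ev j : V)) ∈ Ω) →
      HB.GoodSeg f D (pt v n z + t • (ev i : V)) ((1 / 2 ^ n : ℝ) • (ev j : V))

theorem ae_lineGood [CompleteSpace E'] {Ω : Set V} {f : V → E'} {D : V → V →L[ℝ] E'}
    (hΩ : IsOpen Ω) (hf : ContinuousOn f Ω) (hD : LocallyIntegrableOn D Ω)
    (hw : HB.WeakDeriv volume Ω f D) : ∀ᵐ v : V, LineGood Ω f D v := by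
  unfold LineGood
  rw [ae_all_iff]; intro n
  rw [ae_all_iff]; intro z
  rw [ae_all_iff]; intro i
  rw [ae_all_iff]; intro j
  have h := ae_ae_line (HB.ae_goodSeg (μ := volume) hΩ hf hD hw ((1 / 2 ^ n : ℝ) • (ev j : V)))
    (fun l => (z l : ℝ) / 2 ^ n) (ev i)
  filter_upwards [h] with v hv
  have e : pt v n z = v + fun l => (z l : ℝ) / 2 ^ n := rfl
  rw [e]
  exact hv

/-- a good segment in direction `j`, in coordinates -/
theorem goodSeg_line [CompleteSpace E'] {f : V → E'} {D : V → V →L[ℝ] E'} (L : V →L[ℝ] E')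
    (hij : i ≠ j) (hjk : j ≠ k) {c s B R : ℝ} (hR : 0 < R)
    (h : HB.GoodSeg f D (P3 i j k c s B) (R • (ev j : V))) {a b : ℝ} (ha : a ∈ Icc B (B + R))
    (hb : b ∈ Icc B (B + R)) (hab : a ≤ b) :
    ‖(f (P3 i j k c s b) - L (P3 i j k c s b)) - (f (P3 i j k c s a) - L (P3 i j k c s a))‖ₑ ≤
      ∫⁻ t in Icc a b, ‖D (P3 i j k c s t) (ev j) - L (ev j)‖ₑ := by
  set σ : ℝ → ℝ := fun t => (t - B) / R with hσ
  have hσm : ∀ t ∈ Icc B (B + R), σ t ∈ Icc (0:ℝ) 1 := by
    intro t ht
    constructor
    · exact div_nonneg (by linarith [ht.1]) hR.le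
    · rw [hσ]; simp only; rw [div_le_one hR]; linarith [ht.2]
  have hpt : ∀ t, P3 i j k c s B + σ t • (R • (ev j : V)) = P3 i j k c s t := by
    intro t
    rw [smul_smul, ← P3_add hij hjk]
    congr 1
    rw [hσ]; field_simp; ring
  have h1 := h.diff (hσm a ha) (hσm b hb)
  rw [hpt, hpt] at h1
  have h2 : ∫ r in σ a..σ b, D (P3 i j k c s B + r • (R • (ev j : V))) (R • (ev j : V)) =
      ∫ t in a..b, D (P3 i j k c s t) (ev j) := by
    have e1 : ∀ r : ℝ, D (P3 i j k c s B + r • (R • (ev j : V))) (R • (ev j : V)) =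
        R • (fun t => D (P3 i j k c s t) (ev j)) (B + R * r) := by
      intro r
      rw [map_smul, smul_smul, ← P3_add hij hjk, mul_comm r R]
    simp only [e1]
    rw [intervalIntegral.integral_smul]
    have e2 : ∀ t, B + R * σ t = t := by intro t; rw [hσ]; field_simp; ring
    have e9 := intervalIntegral.smul_integral_comp_add_mul
      (f := fun t => D (P3 i j k c s t) (ev j)) (a := σ a) (b := σ b) R B
    rw [e2, e2] at e9
    exact e9
  rw [h2] at h1
  have hi : IntervalIntegrable (fun t => D (P3 i j k c s t) (ev j)) volume a b := by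
    have h3 : IntervalIntegrable (fun r : ℝ => D (P3 i j k c s B + r • (R • (ev j : V)))
        (R • (ev j : V))) volume (σ a) (σ b) := by
      refine h.1.mono_set ?_
      rw [uIcc_of_le zero_le_one]
      exact uIcc_subset_Icc (hσm a ha) (hσm b hb)
    have h4 := (h3.smul R⁻¹).comp_mul_right (c := R⁻¹)
    have e3 : (fun x : ℝ => (R⁻¹ • fun r : ℝ => D (P3 i j k c s B + r • (R • (ev j : V)))
        (R • (ev j : V))) (x * R⁻¹)) = fun x => D (P3 i j k c s (B + x)) (ev j) := by
      funext x
      simp only [Pi.smul_apply]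
      rw [map_smul, smul_smul, inv_mul_cancel₀ hR.ne', one_smul, smul_smul, ← P3_add hij hjk]
      congr 3
      field_simp
    rw [e3] at h4
    have h5 := h4.comp_sub_right B
    have e4 : (fun x : ℝ => D (P3 i j k c s (B + (x - B))) (ev j)) =
        fun t => D (P3 i j k c s t) (ev j) := by
      funext x; rw [add_sub_cancel]
    rw [e4] at h5
    have e5 : σ a / R⁻¹ + B = a := by rw [hσ]; field_simp; ring
    have e6 : σ b / R⁻¹ + B = b := by rw [hσ]; field_simp; ring
    rwa [e5, e6] at h5
  have e7 : L (P3 i j k c s b) - L (P3 i j k c s a) = ∫ _ in a..b, L (ev j) := by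
    rw [intervalIntegral.integral_const, ← map_smul, ← map_sub]
    congr 1
    have := P3_add (i := i) hij hjk c s a (b - a)
    rw [add_sub_cancel] at this
    rw [this, add_sub_cancel_left]
  have e8 : (f (P3 i j k c s b) - L (P3 i j k c s b)) - (f (P3 i j k c s a) - L (P3 i j k c s a)) =
      ∫ t in a..b, (D (P3 i j k c s t) (ev j) - L (ev j)) := by
    rw [intervalIntegral.integral_sub hi intervalIntegrable_const, ← h1, ← e7]
    abel
  rw [e8, intervalIntegral.integral_of_le hab]
  exact (enorm_integral_le_lintegral_enorm _).trans (lintegral_mono_set Ioc_subset_Icc_self)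

end Vale.Agent.P073.H16
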