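import Vale.Agent.P073.H16.Mor2B
import Vale.Agent.P073.PK.Sob560a

/-!
# P073 / H16: Morrey's inequality on the dyadic squares of a generic origin (the theorem)
-/

open Set Metric Topology Filter MeasureTheory
open scoped ENNReal
open Vale.Agent.P073.AB (Idx pt squ cl)
open P073.Net (dyc dyo)
open Vale.Agent.P073.St (V Mat IsBoundedDomain IsSobolev)
open Vale.Agent.P073.H194
open Vale.Agent.P073.SQ (ev)

namespace Vale.Agent.P073.H16

variable {i j k : Fin 3} {E' : Type*} [NormedAddCommGroup E'] [NormedSpace ℝ E']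

theorem exists_ij (k : Fin 3) : ∃ i j : Fin 3, i ≠ j ∧ i ≠ k ∧ j ≠ k := by
  revert k; decide

theorem upd_mem_squ {v : V} {s : Idx × Fin 3} {x : V} (hx : x ∈ dyc v s.1.1 s.1.2) :
    Function.update x s.2 (pt v s.1.1 s.1.2 s.2) ∈ squ v s := by
  refine ⟨by rw [Function.update_self]; rfl, fun k hk => ?_⟩
  rw [Function.update_of_ne hk]
  exact hx k

theorem sInt_le_sInt {v : V} {s : Idx × Fin 3} {A A' : V → ℝ≥0∞}
    (hA : ∀ x ∈ squ v s, A x ≤ A' x) : sInt v s A ≤ sInt v s A' := by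
  unfold sInt
  gcongr 1
  refine setLIntegral_mono' ?_ fun x hx => hA _ (upd_mem_squ hx)
  have : dyc v s.1.1 s.1.2 = Icc (fun k => v k + s.1.2 k / 2 ^ s.1.1)
      (fun k => v k + (s.1.2 k + 1) / 2 ^ s.1.1) := by
    ext x; simp only [dyc, mem_ofPred_eq, mem_Icc, Pi.le_def, ← forall_and]
  rw [this]
  exact measurableSet_Icc

theorem mem_squ_iff (hij : i ≠ j) (hik : i ≠ k) (hjk : j ≠ k) {v : V} {n : ℕ} {z : Fin 3 → ℤ}
    {x : V} : x ∈ squ v ((n, z), k) ↔ x k = pt v n z k ∧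
      x i ∈ Icc (pt v n z i) (pt v n z i + 1 / 2 ^ n) ∧
      x j ∈ Icc (pt v n z j) (pt v n z j + 1 / 2 ^ n) := by
  have e : ∀ l, pt v n z l + 1 / 2 ^ n = v l + ((z l : ℝ) + 1) / 2 ^ n := by
    intro l; simp only [pt]; ring
  rw [e, e]
  constructor
  · intro h
    exact ⟨h.1, h.2 i hik, h.2 j hjk⟩
  · rintro ⟨h1, h2, h3⟩
    refine ⟨h1, fun l hl => ?_⟩
    rcases cases3 hij hik hjk l with rfl | rfl | rfl
    · exact h2
    · exact h3
    · exact absurd rfl hl

theorem P3_mem_squ (hij : i ≠ j) (hik : i ≠ k) (hjk : j ≠ k) {v : V} {n : ℕ} {z : Fin 3 → ℤ}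
    {s t : ℝ} (hs : s ∈ Icc (pt v n z i) (pt v n z i + 1 / 2 ^ n))
    (ht : t ∈ Icc (pt v n z j) (pt v n z j + 1 / 2 ^ n)) :
    P3 i j k (pt v n z k) s t ∈ squ v ((n, z), k) := by
  rw [mem_squ_iff hij hik hjk, P3_k, P3_i hij hik, P3_j hjk]
  exact ⟨rfl, hs, ht⟩

theorem pt_eq_P3 (hij : i ≠ j) (hik : i ≠ k) (hjk : j ≠ k) (v : V) (n : ℕ) (z : Fin 3 → ℤ)
    (t : ℝ) : pt v n z + t • (ev i : V) = P3 i j k (pt v n z k) (pt v n z i + t) (pt v n z j) := by
  funext l
  rcases cases3 hij hik hjk l with rfl | rfl | rfl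
  · rw [P3_i hij hik]; simp [ev]
  · rw [P3_j hjk]; simp [ev, Ne.symm hij]
  · rw [P3_k]; simp [ev, Ne.symm hik]

/-- the vertical lines of a square -/
theorem ver_of_lineGood [CompleteSpace E'] {Ω : Set V} {f : V → E'} {D : V → V →L[ℝ] E'} {v : V}
    (h : LineGood Ω f D v) (hij : i ≠ j) (hik : i ≠ k) (hjk : j ≠ k) {n : ℕ} {z : Fin 3 → ℤ}
    (hs : squ v ((n, z), k) ⊆ Ω) (L : V →L[ℝ] E') :
    ∀ᵐ s : ℝ, s ∈ Icc (pt v n z i) (pt v n z i + 1 / 2 ^ n) →
      ∀ a ∈ Icc (pt v n z j) (pt v n z j + 1 / 2 ^ n),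
      ∀ b ∈ Icc (pt v n z j) (pt v n z j + 1 / 2 ^ n), a ≤ b →
      ‖(f (P3 i j k (pt v n z k) s b) - L (P3 i j k (pt v n z k) s b)) -
        (f (P3 i j k (pt v n z k) s a) - L (P3 i j k (pt v n z k) s a))‖ₑ ≤
        ∫⁻ t in Icc a b, ‖D (P3 i j k (pt v n z k) s t) (ev j) - L (ev j)‖ₑ := by
  have h1 := h n z i j
  have h2 := (measurePreserving_sub_right (volume : Measure ℝ)
    (pt v n z i)).quasiMeasurePreserving.ae h1
  filter_upwards [h2] with s hg hsI a ha b hb hab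
  have e1 : pt v n z + (s - pt v n z i) • (ev i : V) =
      P3 i j k (pt v n z k) s (pt v n z j) := by
    rw [pt_eq_P3 hij hik hjk, add_sub_cancel]
  rw [e1] at hg
  have hR : (0:ℝ) < 1 / 2 ^ n := by positivity
  refine goodSeg_line L hij hjk hR (hg fun r hr => hs ?_) ha hb hab
  rw [smul_smul, ← P3_add hij hjk]
  refine P3_mem_squ hij hik hjk hsI ⟨?_, ?_⟩
  · have := mul_nonneg hr.1 hR.le; linarith
  · have := mul_le_mul_of_nonneg_right hr.2 hR.le; linarith

/-- the constant of a dyadic square of generation `n` -/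
noncomputable def kM (p : ℝ) (n : ℕ) : ℝ≥0∞ :=
  ENNReal.ofReal (2 * CM p * (1 / 2 ^ n) ^ (1 - 2 / p))

/-- Morrey's inequality on all dyadic squares with origin `v`.  `H` is any function above the
`p`-th powers of the two tangential derivatives of `f - L`. -/
def MorGood (p : ℝ) (Ω : Set V) (f : V → E') (D : V → V →L[ℝ] E') (v : V) : Prop :=
  ∀ s : Idx × Fin 3, squ v s ⊆ Ω → ∀ (L : V →L[ℝ] E') (H : V → ℝ≥0∞),
    (∀ x ∈ squ v s, ∀ l, l ≠ s.2 → ‖D x (ev l) - L (ev l)‖ₑ ^ p ≤ H x) →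
    ∀ x ∈ squ v s, ∀ y ∈ squ v s,
      ‖(f x - L x) - (f y - L y)‖ₑ ≤ kM p s.1.1 * sInt v s H ^ (1 / p)

/-- **(MORREY2)** Morrey's inequality on all dyadic squares of a generic origin. -/
theorem ae_morrey2 [CompleteSpace E'] {Ω : Set V} {f : V → E'} {D : V → V →L[ℝ] E'}
    (hΩ : IsOpen Ω) (hf : ContinuousOn f Ω) (hD : LocallyIntegrableOn D Ω)
    (hw : HB.WeakDeriv volume Ω f D) {p : ℝ} (hp : 2 < p) :
    ∀ᵐ v : V, MorGood p Ω f D v := by
  -- a measurable representative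
  have hDm : AEStronglyMeasurable D (volume.restrict Ω) := hD.aestronglyMeasurable
  set D' := hDm.mk D with hD'
  have hD'm : StronglyMeasurable D' := hDm.stronglyMeasurable_mk
  have hae : ∀ᵐ x ∂(volume : Measure V), x ∈ Ω → D x = D' x := by
    have := hDm.ae_eq_mk
    rwa [Filter.EventuallyEq, ae_restrict_iff' hΩ.measurableSet] at this
  have hD'i : LocallyIntegrableOn D' Ω := by
    intro x hx
    obtain ⟨S, hS, hi⟩ := hD x hx
    refine ⟨S ∩ Ω, inter_mem hS self_mem_nhdsWithin, ?_⟩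
    have h1 : IntegrableOn D (S ∩ Ω) := hi.mono_set inter_subset_left
    refine h1.congr ?_
    have h2 := hDm.ae_eq_mk
    exact ae_restrict_of_ae_restrict_of_subset inter_subset_right h2
  have hw' : HB.WeakDeriv volume Ω f D' := by
    intro φ h1 h2 h3 w
    rw [← hw φ h1 h2 h3 w]
    refine integral_congr_ae ?_
    filter_upwards [hDm.ae_eq_mk] with x hx
    rw [hD', ← hx]
  filter_upwards [ae_lineGood hΩ hf hD'i hw', H83.ae_rep hae] with v hv hrep
  rintro ⟨⟨n, z⟩, k⟩ hs L H hH x hx y hy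
  obtain ⟨i, j, hij, hik, hjk⟩ := exists_ij k
  have hp0 : 0 < p := by linarith
  set c := pt v n z k with hc
  -- the upper gradient
  set g : (V → V →L[ℝ] E') → V → ℝ≥0∞ := fun D x =>
    max ‖D x (ev i) - L (ev i)‖ₑ ‖D x (ev j) - L (ev j)‖ₑ with hg
  have hgm : Measurable (g D') := by
    have h1 : ∀ l, Measurable fun x => ‖D' x (ev l) - L (ev l)‖ₑ := fun l =>
      ((((ContinuousLinearMap.apply ℝ E' (ev l : V)).continuous.comp_stronglyMeasurable
        hD'm).sub stronglyMeasurable_const)).enorm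
    exact (h1 i).max (h1 j)
  set u : ℝ × ℝ → E' := fun w => f (P3 i j k c w.1 w.2) - L (P3 i j k c w.1 w.2) with hu
  set h : ℝ × ℝ → ℝ≥0∞ := fun w => g D' (P3 i j k c w.1 w.2) with hh
  have HM : Hm u h (pt v n z i) (pt v n z j) (1 / 2 ^ n) := by
    refine ⟨by positivity, hgm.comp (measurable_P3 c), ?_, ?_, ?_⟩
    · have h1 : ContinuousOn (fun x : V => f x - L x) Ω := hf.sub L.continuous.continuousOn
      exact h1.comp (continuous_P3 c).continuousOn fun w hw =>
        hs (P3_mem_squ hij hik hjk hw.1 hw.2)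
    · filter_upwards [ver_of_lineGood hv hij hik hjk hs L] with s h1 hsI a ha b hb hab
      refine (h1 hsI a ha b hb hab).trans (lintegral_mono fun t => ?_)
      exact le_max_right _ _
    · filter_upwards [ver_of_lineGood hv (Ne.symm hij) hjk hik hs L] with t h1 htI a ha b hb hab
      have h2 := h1 htI a ha b hb hab
      rw [P3_swap hij hik hjk, P3_swap hij hik hjk] at h2
      refine h2.trans (lintegral_mono fun s => ?_)
      rw [P3_swap hij hik hjk]
      exact le_max_left _ _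
  have hx' := (mem_squ_iff hij hik hjk).1 hx
  have hy' := (mem_squ_iff hij hik hjk).1 hy
  have key := morrey_square HM hp (P := (x i, x j)) (Q := (y i, y j)) ⟨hx'.2.1, hx'.2.2⟩
    ⟨hy'.2.1, hy'.2.2⟩
  have e1 : P3 i j k c (x i) (x j) = x := by
    rw [hc, ← hx'.1]; exact P3_self hij hik hjk x
  have e2 : P3 i j k c (y i) (y j) = y := by
    rw [hc, ← hy'.1]; exact P3_self hij hik hjk y
  simp only [hu, e1, e2] at key
  refine key.trans ?_
  show kM p n * _ ≤ kM p n * _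
  gcongr
  -- the integral
  have e3 : dI (fun w => h w ^ p) (pt v n z i) (pt v n z j) (1 / 2 ^ n) =
      sInt v ((n, z), k) (fun x => g D' x ^ p) :=
    (sInt_eq_dI hij hik hjk v n z (hgm.pow_const p)).symm
  rw [e3]
  have e4 : sInt v ((n, z), k) (fun x => g D' x ^ p) =
      sInt v ((n, z), k) (fun x => Ω.indicator (fun x => g D' x ^ p) x) := by
    refine le_antisymm (sInt_le_sInt fun x hx => ?_) (sInt_le_sInt fun x hx => ?_)
    · rw [indicator_of_mem (hs hx)]
    · rw [indicator_of_mem (hs hx)]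
  have e5 := (hrep (fun x => Ω.indicator (fun x => g D' x ^ p) x)
    (fun x => Ω.indicator (fun x => g D x ^ p) x) (by
      intro x hx0
      have hx : x ∈ Ω → D x = D' x := by
        by_contra hcon
        exact hx0 hcon
      by_cases hxΩ : x ∈ Ω
      · rw [indicator_of_mem hxΩ, indicator_of_mem hxΩ, hg]
        simp only [hx hxΩ]
      · rw [indicator_of_notMem hxΩ, indicator_of_notMem hxΩ])).2 ((n, z), k)
  rw [e4, e5]
  refine sInt_le_sInt fun x hx => ?_
  rw [indicator_of_mem (hs hx)]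
  have h1 := hH x hx i hik
  have h2 := hH x hx j hjk
  rcases max_choice ‖D x (ev i) - L (ev i)‖ₑ ‖D x (ev j) - L (ev j)‖ₑ with h3 | h3
  · show (max _ _) ^ p ≤ _
    rw [h3]; exact h1
  · show (max _ _) ^ p ≤ _
    rw [h3]; exact h2

/-- **(MORREY2)** for Sobolev maps between bounded domains -/
theorem ae_morrey2_sobolev {p : ℝ} (hp : 2 < p) {Ω : Set V} {f : V → V} {F : V → Mat}
    (hΩ : IsBoundedDomain Ω) (hf : ContinuousOn f Ω) (hS : IsSobolev p Ω f F) :
    ∀ᵐ v : V, MorGood p Ω f (fun x => cl (F x)) v := by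
  have hv := PK.volume_ne_top_of_domain hΩ
  exact ae_morrey2 hΩ.1 hf (PK.IsSob.locallyIntegrableOn_cl (by linarith) hv hS)
    (PK.IsSob.weakDeriv (by linarith) hv hS) hp

/-! ### blocks of squares -/

/-- a square of side `K / 2 ^ n`, a union of `K ^ 2` dyadic squares -/
def blk (v : V) (n : ℕ) (z : Fin 3 → ℤ) (k : Fin 3) (K : ℕ) : Set V :=
  {x | x k = pt v n z k ∧ ∀ l, l ≠ k → pt v n z l ≤ x l ∧ x l ≤ pt v n z l + K / 2 ^ n}

/-- the dyadic squares of the block -/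
def Bsq (z : Fin 3 → ℤ) (k : Fin 3) (K : ℕ) : Set (Fin 3 → ℤ) :=
  {w | w k = z k ∧ ∀ l, l ≠ k → z l ≤ w l ∧ w l < z l + K}

theorem squ_sub_blk {v : V} {n : ℕ} {z w : Fin 3 → ℤ} {k : Fin 3} {K : ℕ} (hw : w ∈ Bsq z k K) :
    squ v ((n, w), k) ⊆ blk v n z k K := by
  intro x hx
  have h2 : (0:ℝ) < 2 ^ n := by positivity
  refine ⟨hx.1.trans ?_, fun l hl => ?_⟩
  · show v k + (w k : ℝ) / 2 ^ n = v k + (z k : ℝ) / 2 ^ n
    rw [hw.1]
  · obtain ⟨h3, h4⟩ := hx.2 l hl
    obtain ⟨h5, h6⟩ := hw.2 l hl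
    have h7 : (w l : ℝ) + 1 ≤ z l + K := by exact_mod_cast h6
    have h8 : (z l : ℝ) ≤ w l := by exact_mod_cast h5
    constructor
    · refine le_trans ?_ h3
      show v l + (z l : ℝ) / 2 ^ n ≤ _
      gcongr
    · refine h4.trans ?_
      show _ ≤ v l + (z l : ℝ) / 2 ^ n + K / 2 ^ n
      rw [add_assoc, ← add_div]
      gcongr

/-- corners of the block -/
noncomputable def crn (i j k : Fin 3) (v : V) (n : ℕ) (z : Fin 3 → ℤ) (a b : ℕ) : V :=
  P3 i j k (pt v n z k) (pt v n z i + a / 2 ^ n) (pt v n z j + b / 2 ^ n)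

/-- number of a square of the block -/
def nsq (i j : Fin 3) (z : Fin 3 → ℤ) (a b : ℕ) : Fin 3 → ℤ :=
  Function.update (Function.update z i (z i + a)) j (z j + b)

theorem nsq_mem (hij : i ≠ j) (hik : i ≠ k) (hjk : j ≠ k) {z : Fin 3 → ℤ} {a b K : ℕ}
    (ha : a < K) (hb : b < K) : nsq i j z a b ∈ Bsq z k K := by
  refine ⟨by simp [nsq, Ne.symm hjk, Ne.symm hik], fun l hl => ?_⟩
  rcases cases3 hij hik hjk l with rfl | rfl | rfl
  · simp only [nsq, Function.update_of_ne hij, Function.update_self]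
    omega
  · simp only [nsq, Function.update_self]
    omega
  · exact absurd rfl hl

theorem mem_nsq (hij : i ≠ j) (hik : i ≠ k) (hjk : j ≠ k) {v : V} {n : ℕ} {z : Fin 3 → ℤ}
    {a b : ℕ} {x : V} : x ∈ squ v ((n, nsq i j z a b), k) ↔ x k = pt v n z k ∧
      (pt v n z i + a / 2 ^ n ≤ x i ∧ x i ≤ pt v n z i + (a + 1) / 2 ^ n) ∧
      (pt v n z j + b / 2 ^ n ≤ x j ∧ x j ≤ pt v n z j + (b + 1) / 2 ^ n) := by
  rw [mem_squ_iff hij hik hjk]
  have e1 : pt v n (nsq i j z a b) k = pt v n z k := by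
    simp [pt, nsq, Ne.symm hjk, Ne.symm hik]
  have e2 : pt v n (nsq i j z a b) i = pt v n z i + a / 2 ^ n := by
    simp only [pt, nsq, Function.update_of_ne hij, Function.update_self]
    push_cast; ring
  have e3 : pt v n (nsq i j z a b) j = pt v n z j + b / 2 ^ n := by
    simp only [pt, nsq, Function.update_self]
    push_cast; ring
  have e4 : ∀ t s : ℝ, t + s / 2 ^ n + 1 / 2 ^ n = t + (s + 1) / 2 ^ n := by intro t s; ring
  rw [e1, e2, e3, mem_Icc, mem_Icc, e4, e4]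

theorem crn_mem (hij : i ≠ j) (hik : i ≠ k) (hjk : j ≠ k) {v : V} {n : ℕ} {z : Fin 3 → ℤ}
    {a b a' b' : ℕ} (ha : a' = a ∨ a' = a + 1) (hb : b' = b ∨ b' = b + 1) :
    crn i j k v n z a' b' ∈ squ v ((n, nsq i j z a b), k) := by
  rw [mem_nsq hij hik hjk, crn, P3_k, P3_i hij hik, P3_j hjk]
  have h2 : (0:ℝ) < 2 ^ n := by positivity
  refine ⟨rfl, ?_, ?_⟩
  · rcases ha with rfl | rfl
    · exact ⟨le_rfl, by gcongr; linarith⟩
    · push_cast; exact ⟨by gcongr; linarith, le_rfl⟩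
  · rcases hb with rfl | rfl
    · exact ⟨le_rfl, by gcongr; linarith⟩
    · push_cast; exact ⟨by gcongr; linarith, le_rfl⟩

/-- a point of an interval of `K` units lies in one of the units -/
theorem exists_unit {A x q : ℝ} (hq : 0 < q) {K : ℕ} (hK : 0 < K) (h1 : A ≤ x)
    (h2 : x ≤ A + K / q) : ∃ a < K, A + a / q ≤ x ∧ x ≤ A + (a + 1) / q := by
  rcases eq_or_lt_of_le h2 with h | h
  · refine ⟨K - 1, by omega, ?_, ?_⟩
    · rw [h]; push_cast [Nat.cast_sub hK]; gcongr; linarith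
    · rw [h]; push_cast [Nat.cast_sub hK]; gcongr; linarith
  · set a := ⌊(x - A) * q⌋₊ with ha
    have h0 : 0 ≤ (x - A) * q := mul_nonneg (by linarith) hq.le
    have h3 : (a : ℝ) ≤ (x - A) * q := Nat.floor_le h0
    have h4 : (x - A) * q < a + 1 := Nat.lt_floor_add_one _
    have h5 : (x - A) * q < K := by
      have : x - A < K / q := by linarith
      rwa [lt_div_iff₀ hq] at this
    refine ⟨a, by exact_mod_cast h3.trans_lt h5, ?_, ?_⟩
    · have : a / q ≤ x - A := by rw [div_le_iff₀ hq]; exact h3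
      linarith
    · have : x - A ≤ (a + 1) / q := by rw [le_div_iff₀ hq]; exact h4.le
      linarith

omit [NormedSpace ℝ E'] in
/-- **chain of squares**: a bound on every dyadic square of the block gives one on the block -/
theorem block_le {g : V → E'} {v : V} {n : ℕ} {z : Fin 3 → ℤ} {k : Fin 3} {K : ℕ} (hK : 0 < K)
    {b : ℝ≥0∞} (hb : ∀ w ∈ Bsq z k K, ∀ x ∈ squ v ((n, w), k), ∀ y ∈ squ v ((n, w), k),
      ‖g x - g y‖ₑ ≤ b) {x y : V} (hx : x ∈ blk v n z k K) (hy : y ∈ blk v n z k K) :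
    ‖g x - g y‖ₑ ≤ 4 * K * b := by
  obtain ⟨i, j, hij, hik, hjk⟩ := exists_ij k
  have h2 : (0:ℝ) < 2 ^ n := by positivity
  -- edist form
  have hb' : ∀ w ∈ Bsq z k K, ∀ x ∈ squ v ((n, w), k), ∀ y ∈ squ v ((n, w), k),
      edist (g x) (g y) ≤ b := by
    intro w hw x hx y hy
    rw [edist_eq_enorm_sub]; exact hb w hw x hx y hy
  have hrow : ∀ a : ℕ, a ≤ K → edist (g (crn i j k v n z a 0)) (g (crn i j k v n z 0 0)) ≤
      a * b := by
    intro a
    induction a with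
    | zero => intro _; simp
    | succ a ih =>
      intro ha
      refine (edist_triangle _ (g (crn i j k v n z a 0)) _).trans ?_
      have h3 := hb' (nsq i j z a 0) (nsq_mem hij hik hjk (by omega) hK) _
        (crn_mem hij hik hjk (Or.inr rfl) (Or.inl rfl)) _
        (crn_mem hij hik hjk (Or.inl rfl) (Or.inl rfl))
      refine (add_le_add h3 (ih (by omega))).trans (le_of_eq ?_)
      push_cast; ring
  have hcol : ∀ a : ℕ, a < K → ∀ c : ℕ, c < K →
      edist (g (crn i j k v n z a c)) (g (crn i j k v n z a 0)) ≤ c * b := by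
    intro a ha c
    induction c with
    | zero => intro _; simp
    | succ c ih =>
      intro hc
      refine (edist_triangle _ (g (crn i j k v n z a c)) _).trans ?_
      have h3 := hb' (nsq i j z a c) (nsq_mem hij hik hjk ha (by omega)) _
        (crn_mem hij hik hjk (Or.inl rfl) (Or.inr rfl)) _
        (crn_mem hij hik hjk (Or.inl rfl) (Or.inl rfl))
      refine (add_le_add h3 (ih (by omega))).trans (le_of_eq ?_)
      push_cast; ring
  have hall : ∀ x ∈ blk v n z k K, edist (g x) (g (crn i j k v n z 0 0)) ≤ 2 * K * b := by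
    intro x hx
    obtain ⟨a, ha, ha1, ha2⟩ := exists_unit h2 hK (hx.2 i hik).1 (hx.2 i hik).2
    obtain ⟨c, hc, hc1, hc2⟩ := exists_unit h2 hK (hx.2 j hjk).1 (hx.2 j hjk).2
    have h3 := hb' (nsq i j z a c) (nsq_mem hij hik hjk ha hc) x
      ((mem_nsq hij hik hjk).2 ⟨hx.1, ⟨ha1, ha2⟩, hc1, hc2⟩) _
      (crn_mem hij hik hjk (Or.inl rfl) (Or.inl rfl))
    refine (edist_triangle4 _ (g (crn i j k v n z a c)) (g (crn i j k v n z a 0)) _).trans ?_
    refine (add_le_add (add_le_add h3 (hcol a ha c hc)) (hrow a ha.le)).trans ?_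
    have h4 : (1 + (c : ℝ≥0∞) + a) ≤ 2 * K := by
      have : 1 + c + a ≤ 2 * K := by omega
      exact_mod_cast this
    calc b + c * b + a * b = (1 + (c : ℝ≥0∞) + a) * b := by ring
      _ ≤ 2 * K * b := by gcongr
  rw [← edist_eq_enorm_sub]
  refine (edist_triangle_right _ _ (g (crn i j k v n z 0 0))).trans ?_
  refine (add_le_add (hall x hx) (hall y hy)).trans (le_of_eq ?_)
  ring

/-- **(MORREY2)** on a block of `K ^ 2` dyadic squares -/
theorem MorGood.block {p : ℝ} {Ω : Set V} {f : V → E'} {D : V → V →L[ℝ] E'} {v : V}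
    (h : MorGood p Ω f D v) {n : ℕ} {z : Fin 3 → ℤ} {k : Fin 3} {K : ℕ} (hK : 0 < K)
    (hsub : blk v n z k K ⊆ Ω) (L : V →L[ℝ] E') {H : V → ℝ≥0∞}
    (hH : ∀ x ∈ blk v n z k K, ∀ l, l ≠ k → ‖D x (ev l) - L (ev l)‖ₑ ^ p ≤ H x) {b : ℝ≥0∞}
    (hb : ∀ w ∈ Bsq z k K, kM p n * sInt v ((n, w), k) H ^ (1 / p) ≤ b) {x y : V}
    (hx : x ∈ blk v n z k K) (hy : y ∈ blk v n z k K) :
    ‖(f x - L x) - (f y - L y)‖ₑ ≤ 4 * K * b :=
  block_le (g := fun x => f x - L x) hK (fun w hw x hx y hy =>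
    (h ((n, w), k) ((squ_sub_blk hw).trans hsub) L H
      (fun x hx => hH x (squ_sub_blk hw hx)) x hx y hy).trans (hb w hw)) hx hy

end Vale.Agent.P073.H16
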