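import Vale.Agent.P073.H235.PreParts

/-!
# P073 / H16: the core rectangle in the middle plane
-/

namespace Vale.Agent.P073.H16

open MeasureTheory Set Filter Topology Metric Vale.Agent.P073.St Vale.Agent.P073.AB
open Vale.Agent.P073.H235 (Bx fl Co rect SpecRect)
open Vale.Agent.P073.H194 (Rg)

/-- dyadic points just outside of `[s, t]` -/
theorem exists_floor_ceil {v s t r : ℝ} (m : ℕ) (hr : 1 / 2 ^ m ≤ r) :
    ∃ α β : ℤ, v + α / 2 ^ m ≤ s ∧ s - r < v + α / 2 ^ m ∧ t ≤ v + β / 2 ^ m ∧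
      v + β / 2 ^ m < t + r := by
  have hp : (0:ℝ) < 2 ^ m := by positivity
  refine ⟨⌊(s - v) * 2 ^ m⌋, ⌈(t - v) * 2 ^ m⌉, ?_, ?_, ?_, ?_⟩
  · have h1 := Int.floor_le ((s - v) * 2 ^ m)
    have h2 : (⌊(s - v) * 2 ^ m⌋ : ℝ) / 2 ^ m ≤ s - v := by rwa [div_le_iff₀ hp]
    linarith
  · have h1 := Int.lt_floor_add_one ((s - v) * 2 ^ m)
    have h2 : s - v < ((⌊(s - v) * 2 ^ m⌋ : ℝ) + 1) / 2 ^ m := by rwa [lt_div_iff₀ hp]
    rw [add_div] at h2
    linarith
  · have h1 := Int.le_ceil ((t - v) * 2 ^ m)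
    have h2 : t - v ≤ (⌈(t - v) * 2 ^ m⌉ : ℝ) / 2 ^ m := by rwa [le_div_iff₀ hp]
    linarith
  · have h1 := Int.ceil_lt_add_one ((t - v) * 2 ^ m)
    have h2 : (⌈(t - v) * 2 ^ m⌉ : ℝ) / 2 ^ m < ((t - v) * 2 ^ m + 1) / 2 ^ m := by gcongr
    rw [add_div, mul_div_cancel_right₀ _ hp.ne'] at h2
    linarith

/-- **[RECT]** -/
theorem specRect : SpecRect := by
  intro ν θ v m B hν hν1 hθ hm1 hm2 hB
  have hp : (0:ℝ) < 2 ^ m := by positivity
  choose α β h1 h2 h3 h4 using fun j : Fin 3 =>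
    exists_floor_ceil (v := v j) (s := ν / 8) (t := 1 - ν / 8) m hm1
  have hlt : ∀ j, α j < β j := by
    intro j
    have h5 : (α j : ℝ) / 2 ^ m < β j / 2 ^ m := by linarith [h1 j, h3 j]
    rw [div_lt_div_iff_of_pos_right hp] at h5
    exact_mod_cast h5
  have hcard : ∀ j, (Finset.Ico (α j) (β j)).card ≤ 2 ^ m := by
    intro j
    have h5 : ((β j - α j : ℤ) : ℝ) / 2 ^ m < 1 := by
      push_cast; rw [sub_div]; linarith [h2 j, h4 j]
    rw [div_lt_one hp] at h5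
    have h6 : β j - α j < 2 ^ m := by exact_mod_cast h5
    rw [Int.card_Ico]
    rw [Int.toNat_le]
    push_cast
    exact h6.le
  obtain ⟨α', e2, ej⟩ : ∃ α' : Fin 3 → ℤ, α' 2 = B ∧ ∀ j, j ≠ 2 → α' j = α j :=
    ⟨Function.update α 2 B, Function.update_self .., fun j hj => Function.update_of_ne hj ..⟩
  refine ⟨α', β, e2, fun j hj => ?_, fun x hx => ?_, ?_, fun x hx j hj => ?_⟩
  · rw [ej j hj]; exact hlt j
  · obtain ⟨hx2, hx⟩ := hx
    rw [e2] at hx2
    have hj : ∀ j, j ≠ 2 → 0 < x j ∧ x j < 1 := by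
      intro j hj
      have h5 := hx j hj
      rw [ej j hj] at h5
      constructor
      · linarith [h5.1, h2 j]
      · linarith [h5.2, h4 j]
    intro i
    fin_cases i
    · exact hj 0 (by decide)
    · exact hj 1 (by decide)
    · show 0 < x 2 ∧ x 2 < 2 * θ
      rw [hx2]
      rw [abs_le] at hB
      constructor <;> linarith [hB.1, hB.2]
  · rw [rect, Fintype.card_piFinset, Fin.prod_univ_three]
    rw [if_neg (show (0 : Fin 3) ≠ 2 by decide), if_neg (show (1 : Fin 3) ≠ 2 by decide),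
      if_pos rfl, Finset.card_singleton, mul_one, ej 0 (by decide), ej 1 (by decide)]
    calc (Finset.Ico (α 0) (β 0)).card * (Finset.Ico (α 1) (β 1)).card ≤ 2 ^ m * 2 ^ m :=
          Nat.mul_le_mul (hcard 0) (hcard 1)
      _ = 4 ^ m := by rw [← mul_pow]; norm_num
  · rw [ej j hj]
    have h5 := hx.2 j (by fin_cases j <;> simp_all)
    rw [Pi.one_apply, mul_one, mul_one] at h5
    constructor
    · linarith [h5.1, h1 j]
    · linarith [h5.2, h3 j]

end Vale.Agent.P073.H16
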