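import Vale.Agent.P073.H16.CountN
import Vale.Agent.P073.H16.Rect
import Vale.Agent.P073.H732.BeamParts

/-!
# P073 / H16: the core rectangle on the beam, squares in it
-/

namespace Vale.Agent.P073.H16

open MeasureTheory Set Filter Topology Metric Vale.Agent.P073.St Vale.Agent.P073.AB
open Vale.Agent.P073.H194 (sInt RgN up)
open Vale.Agent.P073.H235 (Bx bm fl Co)
open Vale.Agent.P073.H253 (rectN ledge)
open Vale.Agent.P073.H732 (SpecRectB SpecCountB)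
open scoped ENNReal

/-- **[RECT-B]** -/
theorem specRectB : SpecRectB := by
  intro θ₁ θ₂ ν₁ v m B₁ B₂ hθ₁ hθ₂ hθ₂' hν hν' hm1 hm2 hB₁ hB₂
  have hp : (0:ℝ) < 2 ^ m := by positivity
  have hν0 : 0 < ν₁ * θ₂ := by positivity
  have hνθ : ν₁ * θ₂ ≤ ν₁ * (1 / 4) := by gcongr
  have hνθ' : ν₁ * θ₂ ≤ 1 / 4 * θ₂ := by gcongr
  obtain ⟨α₀, β₀, a1, a2, a3, a4⟩ := exists_floor_ceil (v := v 0) (s := ν₁ / 8)
    (t := 1 - ν₁ / 8) m hm1
  obtain ⟨α₂, β₂, b1, b2, b3, b4⟩ := exists_floor_ceil (v := v 2) (s := ν₁ * θ₂ / 4)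
    (t := 2 * θ₂ - ν₁ * θ₂ / 4) m hm1
  have h0 : α₀ < β₀ := by
    have h5 : (α₀ : ℝ) / 2 ^ m < β₀ / 2 ^ m := by linarith
    rw [div_lt_div_iff_of_pos_right hp] at h5
    exact_mod_cast h5
  have h2 : α₂ < β₂ := by
    have h5 : (α₂ : ℝ) / 2 ^ m < β₂ / 2 ^ m := by linarith
    rw [div_lt_div_iff_of_pos_right hp] at h5
    exact_mod_cast h5
  have hB1 := abs_le.1 hB₁
  have hB2 := abs_le.1 hB₂
  have hmem : α₂ ≤ B₂ ∧ B₂ ≤ β₂ := by
    constructor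
    · have h5 : (α₂ : ℝ) / 2 ^ m ≤ B₂ / 2 ^ m := by linarith [hB2.1]
      rw [div_le_div_iff_of_pos_right hp] at h5
      exact_mod_cast h5
    · have h5 : (B₂ : ℝ) / 2 ^ m ≤ β₂ / 2 ^ m := by linarith [hB2.2]
      rw [div_le_div_iff_of_pos_right hp] at h5
      exact_mod_cast h5
  refine ⟨![α₀, B₁, α₂], ![β₀, 0, β₂], rfl, fun j hj => ?_, fun x hx => ?_, ?_, ?_, hmem,
    fun k hk x hx => ?_, fun x hx j hj => ?_⟩
  · fin_cases j
    · exact h0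
    · exact absurd rfl hj
    · exact h2
  · obtain ⟨hx1, hx2⟩ := hx
    have g0 : v 0 + (α₀ : ℝ) / 2 ^ m ≤ x 0 ∧ x 0 ≤ v 0 + (β₀ : ℝ) / 2 ^ m := hx2 0 (by decide)
    have g2 : v 2 + (α₂ : ℝ) / 2 ^ m ≤ x 2 ∧ x 2 ≤ v 2 + (β₂ : ℝ) / 2 ^ m := hx2 2 (by decide)
    have g1 : x 1 = v 1 + (B₁ : ℝ) / 2 ^ m := hx1
    intro i
    fin_cases i
    · show 0 < x 0 ∧ x 0 < 1
      constructor <;> linarith [g0.1, g0.2]
    · show 0 < x 1 ∧ x 1 < 2 * θ₁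
      constructor <;> linarith [hB1.1, hB1.2]
    · show 0 < x 2 ∧ x 2 < 2 * θ₂
      constructor <;> linarith [g2.1, g2.2]
  · show ((β₀ : ℝ) - α₀) / 2 ^ m ≤ 1
    rw [sub_div]
    linarith
  · show ((β₂ : ℝ) - α₂) / 2 ^ m ≤ 2 * θ₂
    rw [sub_div]
    linarith
  · rw [Gr.mem_edge] at hx
    obtain ⟨g3, g4, g5⟩ := hx
    have g4' : v 0 + (k : ℝ) / 2 ^ m ≤ x 0 := g4
    have g5' : x 0 ≤ v 0 + ((k : ℝ) + 1) / 2 ^ m := g5
    have g1 : x 1 = v 1 + (B₁ : ℝ) / 2 ^ m := g3 1 (show (1 : Fin 3) ≠ 0 by decide)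
    have g2 : x 2 = v 2 + (B₂ : ℝ) / 2 ^ m := g3 2 (show (2 : Fin 3) ≠ 0 by decide)
    rw [Finset.mem_Ico] at hk
    have hk1 : (α₀ : ℝ) ≤ k := by exact_mod_cast hk.1
    have hk2 : (k : ℝ) + 1 ≤ β₀ := by exact_mod_cast hk.2
    have hk3 : (α₀ : ℝ) / 2 ^ m ≤ k / 2 ^ m := by gcongr
    have hk4 : ((k : ℝ) + 1) / 2 ^ m ≤ β₀ / 2 ^ m := by gcongr
    refine ⟨g1, fun j hj => ?_⟩
    fin_cases j
    · show v 0 + (α₀ : ℝ) / 2 ^ m ≤ x 0 ∧ x 0 ≤ v 0 + (β₀ : ℝ) / 2 ^ m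
      constructor <;> linarith
    · exact absurd rfl hj
    · show v 2 + (α₂ : ℝ) / 2 ^ m ≤ x 2 ∧ x 2 ≤ v 2 + (β₂ : ℝ) / 2 ^ m
      have h5 : (α₂ : ℝ) / 2 ^ m ≤ B₂ / 2 ^ m := by
        have : (α₂ : ℝ) ≤ B₂ := by exact_mod_cast hmem.1
        gcongr
      have h6 : (B₂ : ℝ) / 2 ^ m ≤ β₂ / 2 ^ m := by
        have : (B₂ : ℝ) ≤ β₂ := by exact_mod_cast hmem.2
        gcongr
      rw [g2]
      constructor <;> linarith
  · obtain ⟨-, hc⟩ := hx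
    fin_cases j
    · have h5 : ν₁ / 2 / 4 * 1 ≤ x 0 ∧ x 0 ≤ (1 - ν₁ / 2 / 4) * 1 := hc 0 (by simp)
      show v 0 + (α₀ : ℝ) / 2 ^ m ≤ x 0 ∧ x 0 ≤ v 0 + (β₀ : ℝ) / 2 ^ m
      constructor <;> linarith [h5.1, h5.2]
    · exact absurd rfl hj
    · have h5 : ν₁ / 2 / 4 * (2 * θ₂) ≤ x 2 ∧ x 2 ≤ (1 - ν₁ / 2 / 4) * (2 * θ₂) := hc 2 (by simp)
      show v 2 + (α₂ : ℝ) / 2 ^ m ≤ x 2 ∧ x 2 ≤ v 2 + (β₂ : ℝ) / 2 ^ m
      constructor <;> linarith [h5.1, h5.2]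

/-- the number of integers near the ends -/
theorem card_ends {a b : ℤ} {n : ℕ} {t c : ℝ} (hc : 1 / 2 ^ n ≤ c) (ha : 0 ≤ t + a / 2 ^ n)
    (hb : t + b / 2 ^ n ≤ 1) :
    (((Finset.Ico a b).filter fun k : ℤ => t + (k : ℝ) / 2 ^ n ≤ c ∨
      1 - c ≤ t + (k : ℝ) / 2 ^ n).card : ℝ) / 2 ^ n ≤ 4 * c := by
  classical
  have hp : (0:ℝ) < 2 ^ n := by positivity
  have hc1 : 1 ≤ c * 2 ^ n := by rwa [div_le_iff₀ hp] at hc
  have ha' : 0 ≤ t * 2 ^ n + a := by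
    have := mul_nonneg ha hp.le
    rwa [add_mul, div_mul_cancel₀ _ hp.ne'] at this
  have hb' : t * 2 ^ n + b ≤ 2 ^ n := by
    have := mul_le_mul_of_nonneg_right hb hp.le
    rwa [add_mul, div_mul_cancel₀ _ hp.ne', one_mul] at this
  have hsub : ((Finset.Ico a b).filter fun k : ℤ => t + (k : ℝ) / 2 ^ n ≤ c ∨
      1 - c ≤ t + (k : ℝ) / 2 ^ n) ⊆
      Finset.Icc a ⌊(c - t) * 2 ^ n⌋ ∪ Finset.Ico ⌈(1 - c - t) * 2 ^ n⌉ b := by
    intro k hk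
    rw [Finset.mem_filter, Finset.mem_Ico] at hk
    rw [Finset.mem_union, Finset.mem_Icc, Finset.mem_Ico]
    rcases hk.2 with h | h
    · refine Or.inl ⟨hk.1.1, ?_⟩
      rw [Int.le_floor]
      have : (k : ℝ) / 2 ^ n ≤ c - t := by linarith
      rwa [div_le_iff₀ hp] at this
    · refine Or.inr ⟨?_, hk.1.2⟩
      rw [Int.ceil_le]
      have : 1 - c - t ≤ (k : ℝ) / 2 ^ n := by linarith
      rwa [le_div_iff₀ hp] at this
  have h1 : ((Finset.Icc a ⌊(c - t) * 2 ^ n⌋).card : ℝ) ≤ 2 * (c * 2 ^ n) := by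
    rw [Int.card_Icc]
    have h3 := Int.floor_le ((c - t) * 2 ^ n)
    have h4 : ((⌊(c - t) * 2 ^ n⌋ + 1 - a : ℤ) : ℝ) ≤ 2 * (c * 2 ^ n) := by
      push_cast; linarith
    have h5 : (((⌊(c - t) * 2 ^ n⌋ + 1 - a).toNat : ℤ) : ℝ) ≤ 2 * (c * 2 ^ n) := by
      rcases le_total 0 (⌊(c - t) * 2 ^ n⌋ + 1 - a) with h | h
      · rw [Int.toNat_of_nonneg h]; exact h4
      · rw [Int.toNat_of_nonpos h]; push_cast; linarith
    exact_mod_cast h5
  have h2 : ((Finset.Ico ⌈(1 - c - t) * 2 ^ n⌉ b).card : ℝ) ≤ c * 2 ^ n := by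
    rw [Int.card_Ico]
    have h3 := Int.le_ceil ((1 - c - t) * 2 ^ n)
    have h4 : ((b - ⌈(1 - c - t) * 2 ^ n⌉ : ℤ) : ℝ) ≤ c * 2 ^ n := by
      push_cast; linarith
    have h5 : (((b - ⌈(1 - c - t) * 2 ^ n⌉).toNat : ℤ) : ℝ) ≤ c * 2 ^ n := by
      rcases le_total 0 (b - ⌈(1 - c - t) * 2 ^ n⌉) with h | h
      · rw [Int.toNat_of_nonneg h]; exact h4
      · rw [Int.toNat_of_nonpos h]; push_cast; linarith
    exact_mod_cast h5
  rw [div_le_iff₀ hp]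
  have h3 := (Finset.card_le_card hsub).trans (Finset.card_union_le _ _)
  have h4 : ((((Finset.Ico a b).filter fun k : ℤ => t + (k : ℝ) / 2 ^ n ≤ c ∨
      1 - c ≤ t + (k : ℝ) / 2 ^ n).card : ℕ) : ℝ) ≤
      ((Finset.Icc a ⌊(c - t) * 2 ^ n⌋).card : ℝ) +
        ((Finset.Ico ⌈(1 - c - t) * 2 ^ n⌉ b).card : ℝ) := by exact_mod_cast h3
  linarith

theorem card_rectN_one {a b : Fin 3 → ℤ} (h0 : a 0 ≤ b 0) (h2 : a 2 ≤ b 2) :
    ((rectN 1 a b).card : ℝ) = (b 0 - a 0) * (b 2 - a 2) := by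
  rw [rectN, Fintype.card_piFinset, Fin.prod_univ_three, if_neg (show (0 : Fin 3) ≠ 1 by decide),
    if_pos rfl, if_neg (show (2 : Fin 3) ≠ 1 by decide), Finset.card_singleton, mul_one,
    Int.card_Ico, Int.card_Ico]
  push_cast
  have e0 : (((b 0 - a 0).toNat : ℤ) : ℝ) = b 0 - a 0 := by
    rw [Int.toNat_of_nonneg (by omega)]; push_cast; rfl
  have e2 : (((b 2 - a 2).toNat : ℤ) : ℝ) = b 2 - a 2 := by
    rw [Int.toNat_of_nonneg (by omega)]; push_cast; rfl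
  have e0' : (((b 0 - a 0).toNat : ℕ) : ℝ) = b 0 - a 0 := by exact_mod_cast e0
  have e2' : (((b 2 - a 2).toNat : ℕ) : ℝ) = b 2 - a 2 := by exact_mod_cast e2
  rw [e0', e2']

/-- **[COUNT-B]** -/
theorem specCountB : SpecCountB := by
  classical
  intro v m n α β s hmn hlt h0 h2
  obtain ⟨d, rfl⟩ := Nat.exists_eq_add_of_le hmn
  have hm : (0:ℝ) < 2 ^ m := by positivity
  have hd : (0:ℝ) < 2 ^ d := by positivity
  have e : (2:ℝ) ^ (m + d) = 2 ^ m * 2 ^ d := pow_add _ _ _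
  have h4m : (4:ℝ) ^ (m + d) = 2 ^ (m + d) * 2 ^ (m + d) := by rw [← mul_pow]; norm_num
  have hup : ∀ (α : Fin 3 → ℤ) j, up m (m + d) α j = 2 ^ d * α j := fun α j => by
    show 2 ^ (m + d - m) * α j = _
    rw [Nat.add_sub_cancel_left]
  have hs0 : 0 ≤ s := by
    refine le_trans ?_ h2
    have : (α 2 : ℝ) ≤ β 2 := by exact_mod_cast (hlt 2 (by decide)).le
    have : (0:ℝ) ≤ β 2 - α 2 := by linarith
    positivity
  have hl0 : (up m (m + d) α) 0 ≤ (up m (m + d) β) 0 := by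
    rw [hup, hup]
    have := (hlt 0 (by decide)).le
    gcongr
  have hl2 : (up m (m + d) α) 2 ≤ (up m (m + d) β) 2 := by
    rw [hup, hup]
    have := (hlt 2 (by decide)).le
    gcongr
  have f0 : ((up m (m + d) β 0 : ℝ) - up m (m + d) α 0) / 2 ^ (m + d) = (β 0 - α 0) / 2 ^ m := by
    rw [hup, hup, e]; push_cast; field_simp
  have f2 : ((up m (m + d) β 2 : ℝ) - up m (m + d) α 2) / 2 ^ (m + d) = (β 2 - α 2) / 2 ^ m := by
    rw [hup, hup, e]; push_cast; field_simp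
  refine ⟨?_, fun c hc hα hβ => ?_, (countN 1 v m (m + d) (m + d) α β hmn le_rfl).2.2.1⟩
  · rw [card_rectN_one hl0 hl2, h4m, mul_div_mul_comm, f0, f2]
    have : (α 0 : ℝ) ≤ β 0 := by exact_mod_cast (hlt 0 (by decide)).le
    have h5 : (0:ℝ) ≤ (β 0 - α 0) / 2 ^ m := div_nonneg (by linarith) hm.le
    calc ((β 0 : ℝ) - α 0) / 2 ^ m * ((β 2 - α 2) / 2 ^ m) ≤ 1 * s := by
          refine mul_le_mul h0 h2 ?_ zero_le_one
          have : (α 2 : ℝ) ≤ β 2 := by exact_mod_cast (hlt 2 (by decide)).le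
          exact div_nonneg (by linarith) hm.le
      _ = s := one_mul s
  · have hsub : ((rectN 1 (up m (m + d) α) (up m (m + d) β)).filter fun k =>
        v 0 + k 0 / 2 ^ (m + d) ≤ c ∨ 1 - c ≤ v 0 + k 0 / 2 ^ (m + d)) ⊆
        Fintype.piFinset fun j : Fin 3 => if j = 1 then {up m (m + d) α 1} else if j = 0 then
          ((Finset.Ico (up m (m + d) α 0) (up m (m + d) β 0)).filter fun k : ℤ =>
            v 0 + (k : ℝ) / 2 ^ (m + d) ≤ c ∨ 1 - c ≤ v 0 + (k : ℝ) / 2 ^ (m + d)) else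
          Finset.Ico (up m (m + d) α 2) (up m (m + d) β 2) := by
      intro k hk
      rw [Finset.mem_filter, mem_rectN] at hk
      rw [Fintype.mem_piFinset]
      intro j
      fin_cases j
      · simp only [Fin.zero_eta, Fin.isValue, zero_ne_one, if_false, if_true, Finset.mem_filter,
          Finset.mem_Ico]
        exact ⟨hk.1.2 0 (by decide), hk.2⟩
      · simp only [Fin.mk_one, Fin.isValue, if_true, Finset.mem_singleton]
        exact hk.1.1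
      · simp only [Fin.reduceFinMk, Fin.isValue, Fin.reduceEq, if_false, Finset.mem_Ico]
        exact hk.1.2 2 (by decide)
    have h5 := Finset.card_le_card hsub
    rw [Fintype.card_piFinset, Fin.prod_univ_three, if_neg (show (0 : Fin 3) ≠ 1 by decide),
      if_pos rfl, if_pos rfl, if_neg (show (2 : Fin 3) ≠ 1 by decide),
      if_neg (show (2 : Fin 3) ≠ 0 by decide), Finset.card_singleton, mul_one] at h5
    have h6 := card_ends (a := up m (m + d) α 0) (b := up m (m + d) β 0) (n := m + d) (t := v 0)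
      (c := c) hc (by
        refine hα.trans (le_of_eq ?_)
        rw [hup, e]; push_cast; field_simp) (by
        refine (le_of_eq ?_).trans hβ
        rw [hup, e]; push_cast; field_simp)
    have h7 : ((Finset.Ico (up m (m + d) α 2) (up m (m + d) β 2)).card : ℝ) / 2 ^ (m + d) ≤ s := by
      rw [Int.card_Ico]
      have e2 : (((up m (m + d) β 2 - up m (m + d) α 2).toNat : ℤ) : ℝ) =
          up m (m + d) β 2 - up m (m + d) α 2 := by
        rw [Int.toNat_of_nonneg (by omega)]; push_cast; rfl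
      have e2' : (((up m (m + d) β 2 - up m (m + d) α 2).toNat : ℕ) : ℝ) =
          up m (m + d) β 2 - up m (m + d) α 2 := by exact_mod_cast e2
      rw [e2', f2]; exact h2
    set N : ℕ := ((rectN 1 (up m (m + d) α) (up m (m + d) β)).filter fun k =>
      v 0 + k 0 / 2 ^ (m + d) ≤ c ∨ 1 - c ≤ v 0 + k 0 / 2 ^ (m + d)).card with hN
    set N₀ : ℕ := ((Finset.Ico (up m (m + d) α 0) (up m (m + d) β 0)).filter fun k : ℤ =>
      v 0 + (k : ℝ) / 2 ^ (m + d) ≤ c ∨ 1 - c ≤ v 0 + (k : ℝ) / 2 ^ (m + d)).card with hN₀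
    set N₂ : ℕ := (Finset.Ico (up m (m + d) α 2) (up m (m + d) β 2)).card with hN₂
    have h8 : (N : ℝ) ≤ N₀ * N₂ := by exact_mod_cast h5
    rw [h4m]
    calc (N : ℝ) / (2 ^ (m + d) * 2 ^ (m + d)) ≤ (N₀ * N₂) / (2 ^ (m + d) * 2 ^ (m + d)) := by
          gcongr
      _ = N₀ / 2 ^ (m + d) * (N₂ / 2 ^ (m + d)) := by rw [mul_div_mul_comm]
      _ ≤ 4 * c * s := by
          have hc0 : 0 ≤ c := le_trans (by positivity) hc
          exact mul_le_mul h6 h7 (by positivity) (by positivity)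

end Vale.Agent.P073.H16
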