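import Vale.Agent.P073.H399.T1
import Vale.Agent.P073.H894.Add
import Vale.Agent.P073.GB73.Disc

/-!
# P073 / H16: small homeomorphisms of the sphere are isotopic to the identity by small isotopies:
from the plane disc to the sphere
-/

open Set Metric Topology Filter

namespace P073.H16

open P073 P073.GB73 P073.H399
open Vale.Agent.P073.St (V)

variable {E F : Type*} [NormedAddCommGroup E] [NormedSpace ℝ E]
  [NormedAddCommGroup F] [NormedSpace ℝ F]

/-- the theorem for a disc in the plane -/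
def SmallDisc : Prop :=
  ∀ (X : Set (ℝ × ℝ)), X.Finite → X ⊆ ball 0 1 → ∀ ε > 0, ∃ ρ > 0,
    ∀ φ : ConHomeo (closedBall (0 : ℝ × ℝ) 1) (closedBall (0 : ℝ × ℝ) 1),
      (∀ x ∈ sphere (0 : ℝ × ℝ) 1 ∪ X, φ.toFun x = x) →
      (∀ x ∈ closedBall (0 : ℝ × ℝ) 1, ‖φ.toFun x - x‖ ≤ ρ) →
      IsoE (closedBall (0 : ℝ × ℝ) 1) (sphere (0 : ℝ × ℝ) 1 ∪ X) ε φ

omit [NormedSpace ℝ E] [NormedSpace ℝ F] in
/-- uniform continuity on a compact set -/
theorem exists_modulus {S : Set E} (hS : IsCompact S) {f : E → F} (hf : ContinuousOn f S)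
    {ε : ℝ} (hε : 0 < ε) : ∃ δ > 0, ∀ x ∈ S, ∀ y ∈ S, ‖x - y‖ ≤ δ → ‖f x - f y‖ ≤ ε := by
  have h := hS.uniformContinuousOn_of_continuous hf
  obtain ⟨δ, hδ, H⟩ := Metric.uniformContinuousOn_iff.1 h ε hε
  refine ⟨δ / 2, half_pos hδ, fun x hx y hy hxy => ?_⟩
  rw [← dist_eq_norm]
  refine (H x hx y hy ?_).le
  rw [dist_eq_norm]
  linarith

/-- a disc in a chart -/
theorem exists_chart_std {P B : Set E} (h : ConBall 2 P B) :
    ∃ g : ConHomeo P (closedBall (0 : ℝ × ℝ) 1), g.toFun '' B = sphere 0 1 := by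
  obtain ⟨hBP, g, hg⟩ := h
  obtain ⟨hsub, s, hs⟩ := H339.conBall_std
  refine ⟨g.trans s.symm, ?_⟩
  have : (g.trans s.symm).toFun '' B = s.invFun '' (g.toFun '' B) := by
    rw [image_image]; rfl
  rw [this, hg, ← hs, image_image]
  rw [image_congr (fun x hx => s.left_inv (hsub hx)), image_id']

/-- the theorem for all discs -/
theorem smallDisc_chart (hd : SmallDisc) {P B : Set E} (hP : ConBall 2 P B) {X : Set E}
    (hX : X.Finite) (hXP : X ⊆ P \ B) {ε : ℝ} (hε : 0 < ε) :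
    ∃ ρ > 0, ∀ φ : ConHomeo P P, (∀ x ∈ B ∪ X, φ.toFun x = x) →
      (∀ x ∈ P, ‖φ.toFun x - x‖ ≤ ρ) → IsoE P (B ∪ X) ε φ := by
  obtain ⟨g, hg⟩ := exists_chart_std hP
  have hBP := hP.1
  have hgX : g.toFun '' X ⊆ ball 0 1 := by
    rintro _ ⟨x, hx, rfl⟩
    have h1 : ‖g.toFun x‖ ≤ 1 := mem_closedBall_zero_iff.1 (g.mapsTo (hXP hx).1)
    rw [mem_ball_zero_iff]
    refine lt_of_le_of_ne h1 fun h => (hXP hx).2 ?_
    have h2 : g.toFun x ∈ sphere (0 : ℝ × ℝ) 1 := mem_sphere_zero_iff_norm.2 h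
    rw [← hg] at h2
    obtain ⟨b, hb, hbe⟩ := h2
    rw [← g.injOn (hBP hb) (hXP hx).1 hbe]
    exact hb
  obtain ⟨ε', hε', hm⟩ := exists_modulus (isCompact_closedBall (0 : ℝ × ℝ) 1) g.cont_inv hε
  obtain ⟨ρ', hρ', H⟩ := hd _ (hX.image g.toFun) hgX ε' hε'
  obtain ⟨ρ, hρ, hm'⟩ := exists_modulus hP.isCompact g.cont hρ'
  refine ⟨ρ, hρ, fun φ hφ hφρ => ?_⟩
  have hA : B ∪ X ⊆ P := union_subset hBP (fun x hx => (hXP hx).1)
  refine IsoE.conj g hA (ε' := ε') ?_ hm
  rw [image_union, hg]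
  refine H _ ?_ ?_
  · intro x hx
    have : x ∈ g.toFun '' (B ∪ X) := by rw [image_union, hg]; exact hx
    obtain ⟨y, hy, rfl⟩ := this
    show g.toFun (φ.toFun (g.invFun (g.toFun y))) = g.toFun y
    rw [g.left_inv (hA hy), hφ y hy]
  · intro x hx
    show ‖g.toFun (φ.toFun (g.invFun x)) - x‖ ≤ ρ'
    have hy := g.mapsTo_inv hx
    have := hm' _ (φ.mapsTo hy) _ hy (hφρ _ hy)
    rwa [g.right_inv hx] at this

/-- gluing over a disc and its complement -/
theorem isoE_disc_glue {S A P B : Set E} (h : DiscIn S P B) {φ : ConHomeo S S}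
    (k : ConHomeo P P) (k' : ConHomeo (S \ (P \ B)) (S \ (P \ B)))
    (hk : EqOn φ.toFun k.toFun P) (hk' : EqOn φ.toFun k'.toFun (S \ (P \ B))) {ε : ℝ}
    (h1 : IsoE P (B ∪ (A ∩ P)) ε k) (h2 : IsoE (S \ (P \ B)) (B ∪ (A ∩ (S \ (P \ B)))) ε k')
    (hA : A ⊆ S) : IsoE S A ε φ := by
  let C : Bool → Set E := fun b => if b then P else S \ (P \ B)
  have hC1 : C true = P := rfl
  have hC2 : C false = S \ (P \ B) := rfl
  have hint := h.inter_eq
  refine IsoE.glue (ι := Bool) C ?_ ?_ (fun b => by cases b; exacts [k', k]) ?_ ?_ hA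
  · intro b
    cases b
    · exact h.closed
    · exact h.ball.isClosed
  · rw [← h.union_eq]
    ext x
    simp only [mem_iUnion, Bool.exists_bool, mem_union]
    rfl
  · intro b
    cases b
    · exact hk'
    · exact hk
  · intro b
    cases b
    · refine h2.mono ?_ le_rfl
      apply union_subset
      · exact fun x hx => Or.inr hx
      · intro x hx
        simp only [mem_iUnion] at hx
        obtain ⟨j, hj, hx⟩ := hx
        cases j
        · exact absurd rfl hj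
        · exact Or.inl (hint.subset hx)
    · refine h1.mono ?_ le_rfl
      apply union_subset
      · exact fun x hx => Or.inr hx
      · intro x hx
        simp only [mem_iUnion] at hx
        obtain ⟨j, hj, hx⟩ := hx
        cases j
        · exact Or.inl (hint.subset ⟨hx.2, hx.1⟩)
        · exact absurd rfl hj

/-- a disc in a two-sphere is nicely placed -/
theorem discIn_sphere {S D δ : Set E} (hS : ConSphere 2 S) (hD : ConBall 2 D δ) (h : D ⊆ S) :
    DiscIn S D δ := by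
  have hc := H894.compl_disc hS hD h
  exact ⟨hD, h, hc.isClosed, hc.conicalSet⟩

/-! ### a flat square in the top face -/

/-- the parametrisation of a square in the top face -/
def tp (c : ℝ × ℝ) (r : ℝ) (q : ℝ × ℝ) : V := ![c.1 + r * q.1, c.2 + r * q.2, 1]

/-- its inverse -/
noncomputable def pt (c : ℝ × ℝ) (r : ℝ) (v : V) : ℝ × ℝ := ((v 0 - c.1) / r, (v 1 - c.2) / r)

theorem pt_tp {c : ℝ × ℝ} {r : ℝ} (hr : 0 < r) (q : ℝ × ℝ) : pt c r (tp c r q) = q := by
  unfold pt tp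
  ext
  · simp only [Matrix.cons_val_zero]
    field_simp; ring
  · simp only [Matrix.cons_val_one, Matrix.cons_val_zero]
    field_simp; ring

theorem tp_pt {c : ℝ × ℝ} {r : ℝ} (hr : 0 < r) {v : V} (hv : v 2 = 1) : tp c r (pt c r v) = v := by
  unfold pt tp
  funext i
  fin_cases i
  · simp only [Fin.zero_eta, Matrix.cons_val_zero]
    field_simp; ring
  · simp only [Fin.mk_one, Matrix.cons_val_one, Matrix.cons_val_zero]
    field_simp; ring
  · simp only [Fin.reduceFinMk, Matrix.cons_val_two, Nat.succ_eq_add_one, Nat.reduceAdd, Matrix.tail_cons, Matrix.head_cons]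
    exact hv.symm

theorem tp_two (c : ℝ × ℝ) (r : ℝ) (q : ℝ × ℝ) : tp c r q 2 = 1 := rfl
theorem tp_zero (c : ℝ × ℝ) (r : ℝ) (q : ℝ × ℝ) : tp c r q 0 = c.1 + r * q.1 := rfl
theorem tp_one (c : ℝ × ℝ) (r : ℝ) (q : ℝ × ℝ) : tp c r q 1 = c.2 + r * q.2 := rfl

theorem norm_tp_sub {c : ℝ × ℝ} {r : ℝ} (hr : 0 < r) (q q' : ℝ × ℝ) :
    ‖tp c r q - tp c r q'‖ ≤ r * ‖q - q'‖ := by
  rw [pi_norm_le_iff_of_nonneg (by positivity)]
  have h1 : |q.1 - q'.1| ≤ ‖q - q'‖ := by
    rw [Prod.norm_def]; exact le_max_left _ _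
  have h2 : |q.2 - q'.2| ≤ ‖q - q'‖ := by
    rw [Prod.norm_def]; exact le_max_right _ _
  intro i
  rw [Pi.sub_apply, Real.norm_eq_abs]
  fin_cases i
  · show |c.1 + r * q.1 - (c.1 + r * q'.1)| ≤ _
    rw [show c.1 + r * q.1 - (c.1 + r * q'.1) = r * (q.1 - q'.1) by ring, abs_mul, abs_of_pos hr]
    gcongr
  · show |c.2 + r * q.2 - (c.2 + r * q'.2)| ≤ _
    rw [show c.2 + r * q.2 - (c.2 + r * q'.2) = r * (q.2 - q'.2) by ring, abs_mul, abs_of_pos hr]
    gcongr
  · show |(1:ℝ) - 1| ≤ _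
    rw [sub_self, abs_zero]; positivity

theorem norm_pt_sub {c : ℝ × ℝ} {r : ℝ} (hr : 0 < r) (v v' : V) :
    ‖pt c r v - pt c r v'‖ ≤ ‖v - v'‖ / r := by
  have h0 : |v 0 - v' 0| ≤ ‖v - v'‖ := norm_le_pi_norm (v - v') 0
  have h1 : |v 1 - v' 1| ≤ ‖v - v'‖ := norm_le_pi_norm (v - v') 1
  rw [Prod.norm_def]
  refine max_le ?_ ?_
  · show |(v 0 - c.1) / r - (v' 0 - c.1) / r| ≤ _
    rw [← sub_div, abs_div, abs_of_pos hr]
    gcongr
    rwa [show v 0 - c.1 - (v' 0 - c.1) = v 0 - v' 0 by ring]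
  · show |(v 1 - c.2) / r - (v' 1 - c.2) / r| ≤ _
    rw [← sub_div, abs_div, abs_of_pos hr]
    gcongr
    rwa [show v 1 - c.2 - (v' 1 - c.2) = v 1 - v' 1 by ring]

/-- the map `tp` as an affine map -/
theorem conicalOn_tp {c : ℝ × ℝ} {r : ℝ} {X : Set (ℝ × ℝ)} (hX : ConicalSet X) :
    ConicalOn (tp c r) X := by
  let L : (ℝ × ℝ) →ₗ[ℝ] V :=
    { toFun := fun q => ![r * q.1, r * q.2, 0]
      map_add' := by
        intro q q'
        funext i
        fin_cases i
        · show r * (q.1 + q'.1) = r * q.1 + r * q'.1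
          ring
        · show r * (q.2 + q'.2) = r * q.2 + r * q'.2
          ring
        · show (0:ℝ) = 0 + 0
          ring
      map_smul' := by
        intro a q
        funext i
        fin_cases i
        · show r * (a * q.1) = a * (r * q.1)
          ring
        · show r * (a * q.2) = a * (r * q.2)
          ring
        · show (0:ℝ) = a * 0
          ring }
  have h := (conicalOn_const (![c.1, c.2, 1] : V) hX).add (conicalOn_linear L hX)
  refine h.congr ?_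
  intro q _
  funext i
  fin_cases i
  · show c.1 + r * q.1 = c.1 + r * q.1
    rfl
  · show c.2 + r * q.2 = c.2 + r * q.2
    rfl
  · show (1:ℝ) = 1 + 0
    ring

theorem continuous_tp (c : ℝ × ℝ) (r : ℝ) : Continuous (tp c r) := by
  unfold tp
  refine continuous_pi fun i => ?_
  fin_cases i
  · show Continuous fun q : ℝ × ℝ => c.1 + r * q.1
    fun_prop
  · show Continuous fun q : ℝ × ℝ => c.2 + r * q.2
    fun_prop
  · show Continuous fun q : ℝ × ℝ => (1:ℝ)
    fun_prop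

theorem continuous_pt (c : ℝ × ℝ) (r : ℝ) : Continuous (pt c r) := by
  unfold pt
  fun_prop

/-- the chart of the plane `x₃ = 1` -/
noncomputable def tpH (c : ℝ × ℝ) (r : ℝ) (hr : 0 < r) :
    ConHomeo (univ : Set (ℝ × ℝ)) {v : V | v 2 = 1} where
  toFun := tp c r
  invFun := pt c r
  mapsTo := fun _ _ => rfl
  mapsTo_inv := fun _ _ => mem_univ _
  left_inv := fun q _ => pt_tp hr q
  right_inv := fun _ hv => tp_pt hr hv
  cont := (continuous_tp c r).continuousOn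
  cont_inv := (continuous_pt c r).continuousOn
  conical := conicalOn_tp convex_univ.conicalSet

theorem mem_S2_iff {v : V} : v ∈ S2 ↔ (|v 0| ≤ 1 ∧ |v 1| ≤ 1 ∧ |v 2| ≤ 1) ∧
    (|v 0| = 1 ∨ |v 1| = 1 ∨ |v 2| = 1) := by
  rw [mem_sphere_zero_iff_norm]
  constructor
  · intro h
    have hi : ∀ i, |v i| ≤ 1 := fun i => h ▸ norm_le_pi_norm v i
    refine ⟨⟨hi 0, hi 1, hi 2⟩, ?_⟩
    by_contra hc
    push Not at hc
    have : ‖v‖ < 1 := by
      rw [pi_norm_lt_iff one_pos]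
      intro i
      rw [Real.norm_eq_abs]
      fin_cases i
      · exact lt_of_le_of_ne (hi 0) hc.1
      · exact lt_of_le_of_ne (hi 1) hc.2.1
      · exact lt_of_le_of_ne (hi 2) hc.2.2
    linarith
  · rintro ⟨⟨h0, h1, h2⟩, h⟩
    apply le_antisymm
    · rw [pi_norm_le_iff_of_nonneg zero_le_one]
      intro i
      rw [Real.norm_eq_abs]
      fin_cases i
      exacts [h0, h1, h2]
    · rcases h with h | h | h <;> rw [← h]
      exacts [norm_le_pi_norm v 0, norm_le_pi_norm v 1, norm_le_pi_norm v 2]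

/-- near the middle of the top face the sphere is flat -/
theorem flat_near {v v' : V} (hv' : v' ∈ S2) (h2 : v 2 = 1) (h0 : |v 0| ≤ 1 / 2)
    (h1 : |v 1| ≤ 1 / 2) (h : ‖v' - v‖ < 1 / 2) : v' 2 = 1 := by
  have k0 : |v' 0 - v 0| < 1 / 2 := (norm_le_pi_norm (v' - v) 0).trans_lt h
  have k1 : |v' 1 - v 1| < 1 / 2 := (norm_le_pi_norm (v' - v) 1).trans_lt h
  have k2 : |v' 2 - v 2| < 1 / 2 := (norm_le_pi_norm (v' - v) 2).trans_lt h
  rw [abs_le] at h0 h1
  rw [abs_lt] at k0 k1 k2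
  obtain ⟨-, hh⟩ := mem_S2_iff.1 hv'
  rcases hh with hh | hh | hh
  · exfalso
    rcases (abs_eq zero_le_one).1 hh with e | e <;> rw [e] at k0 <;> linarith [k0.1, k0.2]
  · exfalso
    rcases (abs_eq zero_le_one).1 hh with e | e <;> rw [e] at k1 <;> linarith [k1.1, k1.2]
  · rcases (abs_eq zero_le_one).1 hh with e | e
    · exact e
    · exfalso
      rw [e, h2] at k2; linarith [k2.1]

theorem tp_mem_S2 {c : ℝ × ℝ} {r s : ℝ} (hr : 0 < r) (h0 : |c.1| + r * s ≤ 1)
    (h1 : |c.2| + r * s ≤ 1) {q : ℝ × ℝ} (hq : ‖q‖ ≤ s) : tp c r q ∈ S2 := by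
  rw [Prod.norm_def] at hq
  have q1 : |q.1| ≤ s := (le_max_left _ _).trans hq
  have q2 : |q.2| ≤ s := (le_max_right _ _).trans hq
  rw [mem_S2_iff]
  refine ⟨⟨?_, ?_, ?_⟩, Or.inr (Or.inr ?_)⟩
  · rw [tp_zero]
    refine (abs_add_le _ _).trans ?_
    rw [abs_mul, abs_of_pos hr]
    have := mul_le_mul_of_nonneg_left q1 hr.le
    linarith
  · rw [tp_one]
    refine (abs_add_le _ _).trans ?_
    rw [abs_mul, abs_of_pos hr]
    have := mul_le_mul_of_nonneg_left q2 hr.le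
    linarith
  · rw [tp_two, abs_one]
  · rw [tp_two, abs_one]

end P073.H16
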