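import Vale.Agent.P073.H16.SGS
import Vale.Agent.P073.H16.CollarSpec

/-!
# P073 / H16: small homeomorphisms of the sphere are isotopic to the identity by small isotopies,
given the theorem for the disc
-/

open Set Metric Topology Filter

namespace P073.H16

open P073 P073.GB73 P073.H399
open Vale.Agent.P073.St (V)

theorem exists_free_square {X : Set V} (hX : X.Finite) {ε : ℝ} (hε : 0 < ε) :
    ∃ (c : ℝ × ℝ) (r : ℝ), 0 < r ∧ r ≤ ε ∧ r ≤ 1 ∧ |c.1| + r * 2 ≤ 1 / 2 ∧ |c.2| + r * 2 ≤ 1 / 2 ∧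
      ∀ q : ℝ × ℝ, ‖q‖ ≤ 2 → tp c r q ∉ X := by
  obtain ⟨x₀, hx₀, hx₀X⟩ : ∃ x₀ ∈ Icc (0:ℝ) (1 / 4), x₀ ∉ (fun v : V => v 0) '' X := by
    by_contra hc
    push Not at hc
    exact (Set.Icc_infinite (show (0:ℝ) < 1 / 4 by norm_num)) ((hX.image _).subset hc)
  obtain ⟨δ, hδ, hδX⟩ : ∃ δ > 0, ∀ v ∈ X, δ ≤ |v 0 - x₀| := by
    obtain ⟨δ, hδ, H⟩ := exists_pos_le hX.toFinset (fun v : V => |v 0 - x₀|) (by
      intro v hv
      rw [Set.Finite.mem_toFinset] at hv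
      exact abs_pos.2 (sub_ne_zero.2 fun h => hx₀X ⟨v, hv, h⟩))
    exact ⟨δ, hδ, fun v hv => H v (hX.mem_toFinset.2 hv)⟩
  have hr : 0 < min (δ / 4) (min ε (1 / 8)) := by positivity
  have hr8 : min (δ / 4) (min ε (1 / 8)) ≤ 1 / 8 := (min_le_right _ _).trans (min_le_right _ _)
  have hrε : min (δ / 4) (min ε (1 / 8)) ≤ ε := (min_le_right _ _).trans (min_le_left _ _)
  have hrδ : min (δ / 4) (min ε (1 / 8)) ≤ δ / 4 := min_le_left _ _
  generalize min (δ / 4) (min ε (1 / 8)) = r at hr hr8 hrε hrδ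
  refine ⟨(x₀, 0), r, hr, hrε, by linarith, ?_, ?_, ?_⟩
  · simp only
    rw [abs_of_nonneg hx₀.1]; linarith [hx₀.2]
  · simp only
    rw [abs_zero]; linarith
  · intro q hq hqX
    have h1 := hδX _ hqX
    rw [tp_zero] at h1
    simp only [add_sub_cancel_left] at h1
    rw [abs_mul, abs_of_pos hr] at h1
    have q1 : |q.1| ≤ 2 := by
      rw [Prod.norm_def] at hq
      exact (le_max_left _ _).trans hq
    have := mul_le_mul_of_nonneg_left q1 hr.le
    linarith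

theorem conSphere_S2 : ConSphere 2 S2 := ⟨ConHomeo.refl (conicalSet_sphere_pi 3)⟩

/-- **small GB4 from the theorem for the disc** -/
theorem small_gb4_of (hd : SmallDisc) : SmallGB4 := by
  intro X hX hXS ε hε
  obtain ⟨c, r, hr, hrε, hr1, hc1, hc2, hfree⟩ := exists_free_square hX (show 0 < ε / 8 by positivity)
  have inS : ∀ q : ℝ × ℝ, ‖q‖ ≤ 2 → tp c r q ∈ S2 := fun q hq =>
    tp_mem_S2 hr (by linarith) (by linarith) hq
  have disc : ∀ s : ℝ, 0 < s → s ≤ 2 → ConBall 2 (tp c r '' closedBall 0 s) (tp c r '' sphere 0 s) ∧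
      tp c r '' closedBall 0 s ⊆ S2 := by
    intro s hs hs2
    refine ⟨(H339.ambDisc_closedBall 0 hs).conBall.image (tpH c r hr) (subset_univ _), ?_⟩
    rintro _ ⟨q, hq, rfl⟩
    exact inS q ((mem_closedBall_zero_iff.1 hq).trans hs2)
  obtain ⟨hD, hDS⟩ := disc 1 one_pos one_le_two
  set D : Set V := tp c r '' closedBall 0 1 with hDdef
  set B : Set V := tp c r '' sphere 0 1 with hBdef
  have hC : ConBall 2 (S2 \ (D \ B)) B := H894.compl_disc conSphere_S2 hD hDS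
  have hCin : DiscIn S2 (S2 \ (D \ B)) B := discIn_sphere conSphere_S2 hC sdiff_subset
  have hBD : B ⊆ D := hD.1
  have hcc : S2 \ ((S2 \ (D \ B)) \ B) = D := by
    ext x
    constructor
    · rintro ⟨h1, h2⟩
      by_contra h3
      exact h2 ⟨⟨h1, fun h4 => h3 h4.1⟩, fun h4 => h3 (hBD h4)⟩
    · intro h1
      exact ⟨hDS h1, fun h2 => h2.1.2 ⟨h1, h2.2⟩⟩
  have hXD : ∀ x ∈ X, x ∉ D := by
    rintro x hx ⟨q, hq, rfl⟩
    exact hfree q ((mem_closedBall_zero_iff.1 hq).trans one_le_two) hx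
  have hXC : X ⊆ (S2 \ (D \ B)) \ B := fun x hx =>
    ⟨⟨hXS hx, fun h => hXD x hx h.1⟩, fun h => hXD x hx (hBD h)⟩
  obtain ⟨ρ2, hρ2, H2⟩ := smallDisc_chart hd hC hX hXC (half_pos hε)
  obtain ⟨w1, hw1, Hw⟩ := t1small (half_pos hρ2)
  obtain ⟨w, hw, hww1, hw2⟩ : ∃ w : ℝ, 0 < w ∧ w ≤ w1 ∧ w ≤ 1 :=
    ⟨min w1 1, lt_min hw1 one_pos, min_le_left _ _, min_le_right _ _⟩
  obtain ⟨ρ1, hρ1, H1⟩ := Hw w hw hww1
  obtain ⟨hD1, hD1S⟩ := disc (1 + w) (by linarith) (by linarith)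
  have hρ : 0 < min (r * ρ1) (min (ρ2 / 2) (1 / 4)) := by positivity
  refine ⟨_, hρ, fun φ hφX hφ => ?_⟩
  have hρr : min (r * ρ1) (min (ρ2 / 2) (1 / 4)) ≤ r * ρ1 := min_le_left _ _
  have hρ4 : min (r * ρ1) (min (ρ2 / 2) (1 / 4)) ≤ 1 / 4 :=
    (min_le_right _ _).trans (min_le_right _ _)
  have hρ22 : min (r * ρ1) (min (ρ2 / 2) (1 / 4)) ≤ ρ2 / 2 :=
    (min_le_right _ _).trans (min_le_left _ _)
  generalize min (r * ρ1) (min (ρ2 / 2) (1 / 4)) = ρ at hρ hρr hρ4 hρ22 hφ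
  -- flatness
  have hflat : ∀ q ∈ closedBall (0 : ℝ × ℝ) 1, φ.toFun (tp c r q) 2 = 1 := by
    intro q hq
    have hq1 := mem_closedBall_zero_iff.1 hq
    have hq2 : ‖q‖ ≤ 2 := by linarith
    have hm := inS q hq2
    rw [Prod.norm_def] at hq1
    have q1 : |q.1| ≤ 1 := (le_max_left _ _).trans hq1
    have q2 : |q.2| ≤ 1 := (le_max_right _ _).trans hq1
    refine flat_near (φ.mapsTo hm) (tp_two c r q) ?_ ?_ ((hφ _ hm).trans_lt (by linarith))
    · rw [tp_zero]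
      refine (abs_add_le _ _).trans ?_
      rw [abs_mul, abs_of_pos hr]
      have := mul_le_mul_of_nonneg_left q1 hr.le
      linarith
    · rw [tp_one]
      refine (abs_add_le _ _).trans ?_
      rw [abs_mul, abs_of_pos hr]
      have := mul_le_mul_of_nonneg_left q2 hr.le
      linarith
  -- the map in the chart
  let a : ConHomeo (closedBall (0 : ℝ × ℝ) 1) D :=
    (tpH c r hr).restr (convex_closedBall 0 1).conicalSet (subset_univ _)
  let b : ConHomeo D (φ.toFun '' D) := φ.restr hD.conicalSet hDS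
  have hM : φ.toFun '' D ⊆ {v : V | v 2 = 1} := by
    rintro _ ⟨_, ⟨q, hq, rfl⟩, rfl⟩
    exact hflat q hq
  let e := (tpH c r hr).symm.restr (φ.conicalSet_image hD.conicalSet hDS) hM
  have hpt : ∀ q ∈ closedBall (0 : ℝ × ℝ) 1, ‖pt c r (φ.toFun (tp c r q)) - q‖ ≤ ρ1 := by
    intro q hq
    have hm := hDS (mem_image_of_mem (tp c r) hq)
    have h1 := norm_pt_sub (c := c) hr (φ.toFun (tp c r q)) (tp c r q)
    rw [pt_tp hr] at h1
    refine h1.trans ?_
    rw [div_le_iff₀ hr]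
    have := hφ _ hm
    linarith
  obtain ⟨K, k1, k2, k3⟩ := H1 _ (a.trans (b.trans e)) hpt
  -- the correction
  set D1 : Set V := tp c r '' closedBall 0 (1 + w) with hD1def
  set B1 : Set V := tp c r '' sphere 0 (1 + w) with hB1def
  let a1 : ConHomeo (closedBall (0 : ℝ × ℝ) (1 + w)) D1 :=
    (tpH c r hr).restr (convex_closedBall 0 (1 + w)).conicalSet (subset_univ _)
  have h1in : DiscIn S2 D1 B1 := discIn_sphere conSphere_S2 hD1 hD1S
  have hDD1 : D ⊆ D1 := image_mono (closedBall_subset_closedBall (by linarith))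
  let Ψ : ConHomeo D1 D1 := a1.symm.trans (K.trans a1)
  have hΨ : ∀ q ∈ closedBall (0 : ℝ × ℝ) (1 + w), Ψ.toFun (tp c r q) = tp c r (K.toFun q) := by
    intro q hq
    show tp c r (K.toFun (pt c r (tp c r q))) = _
    rw [pt_tp hr]
  have hΨB : ∀ x ∈ B1, Ψ.toFun x = x := by
    rintro _ ⟨q, hq, rfl⟩
    rw [hΨ q (sphere_subset_closedBall hq), k2 q hq]
  obtain ⟨ψ, ψ1, ψ2⟩ := h1in.exists_extend Ψ hΨB
  have hψD : ∀ x ∈ D, ψ.toFun x = φ.toFun x := by
    rintro _ ⟨q, hq, rfl⟩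
    have hq' : q ∈ closedBall (0 : ℝ × ℝ) (1 + w) := closedBall_subset_closedBall (by linarith) hq
    rw [ψ1 (mem_image_of_mem _ hq'), hΨ q hq', k1 hq]
    show tp c r (pt c r (φ.toFun (tp c r q))) = _
    rw [tp_pt hr (hflat q hq)]
  have hψc : ∀ x ∈ S2, ‖ψ.toFun x - x‖ ≤ ρ2 / 2 := by
    intro x hx
    by_cases hxD : x ∈ D1
    · rw [ψ1 hxD]
      obtain ⟨q, hq, rfl⟩ := hxD
      rw [hΨ q hq]
      refine (norm_tp_sub hr _ _).trans ?_
      have h3 := k3 q hq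
      have h4 : r * ‖K.toFun q - q‖ ≤ 1 * (ρ2 / 2) := mul_le_mul hr1 h3 (norm_nonneg _) zero_le_one
      linarith
    · rw [ψ2 x ⟨hx, fun h => hxD h.1⟩, sub_self, norm_zero]
      positivity
  have hXD1 : ∀ x ∈ X, x ∈ S2 \ (D1 \ B1) := by
    intro x hx
    refine ⟨hXS hx, ?_⟩
    rintro ⟨⟨q, hq, rfl⟩, -⟩
    exact hfree q ((mem_closedBall_zero_iff.1 hq).trans (by linarith)) hx
  -- size of `ψ`
  have hψI : IsoE S2 X (ε / 2) ψ := by
    refine isoE_disc_glue h1in Ψ (ConHomeo.refl h1in.conical) ψ1 ψ2 ?_ ?_ hXS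
    · refine (isoE_disc hD1 hΨB (ε := ε / 2) ?_).mono ?_ le_rfl
      · rintro _ ⟨q, hq, rfl⟩ _ ⟨q', hq', rfl⟩
        refine (norm_tp_sub hr _ _).trans ?_
        have h1 : ‖q - q'‖ ≤ 4 := by
          have h2 := mem_closedBall_zero_iff.1 hq
          have h3 := mem_closedBall_zero_iff.1 hq'
          exact (norm_sub_le _ _).trans (by linarith)
        have h4 := mul_le_mul_of_nonneg_left h1 hr.le
        linarith
      · apply union_subset subset_rfl
        rintro x ⟨hx, hx'⟩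
        exact h1in.inter_eq.subset ⟨hXD1 x hx, hx'⟩
    · exact IsoE.refl h1in.conical _ (half_pos hε).le
  -- the corrected map
  have hφ1D : ∀ x ∈ D, (φ.trans ψ.symm).toFun x = x := by
    intro x hx
    show ψ.invFun (φ.toFun x) = x
    rw [← hψD x hx, ψ.left_inv (hDS hx)]
  have hφ1X : ∀ x ∈ X, (φ.trans ψ.symm).toFun x = x := by
    intro x hx
    show ψ.invFun (φ.toFun x) = x
    have h1 := ψ2 x (hXD1 x hx)
    have h2 := ψ.left_inv (hXS hx)
    rw [h1] at h2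
    rw [hφX x hx, h2]
  have hφ1c : ∀ x ∈ S2, ‖(φ.trans ψ.symm).toFun x - x‖ ≤ ρ2 := by
    intro x hx
    show ‖ψ.invFun (φ.toFun x) - x‖ ≤ ρ2
    have h1 := hφ x hx
    have h2 := hψc _ (ψ.mapsTo_inv (φ.mapsTo hx))
    rw [ψ.right_inv (φ.mapsTo hx), norm_sub_rev] at h2
    have h3 : ψ.invFun (φ.toFun x) - x = (ψ.invFun (φ.toFun x) - φ.toFun x) + (φ.toFun x - x) := by
      abel
    rw [h3]
    exact (norm_add_le _ _).trans (by linarith)
  obtain ⟨k, hk⟩ := hCin.exists_restr (φ.trans ψ.symm) (by rw [hcc]; exact hφ1D)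
  have hkI : IsoE (S2 \ (D \ B)) (B ∪ X) (ε / 2) k := by
    refine H2 k ?_ ?_
    · rintro x (hx | hx)
      · rw [hk, hφ1D x (hBD hx)]
      · rw [hk, hφ1X x hx]
    · intro x hx
      rw [hk]; exact hφ1c x hx.1
  have hφI : IsoE S2 X (ε / 2) (φ.trans ψ.symm) := by
    refine isoE_disc_glue hCin k (ConHomeo.refl hCin.conical) (fun x _ => by rw [hk]) ?_ ?_ ?_ hXS
    · exact fun x hx => hφ1D x (hcc.subset hx)
    · exact hkI.mono (union_subset subset_union_left (fun x hx => Or.inr hx.1)) le_rfl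
    · exact IsoE.refl hCin.conical _ (half_pos hε).le
  have := IsoE.of_trans' hφI (hψI.symm hXS) hXS
  rwa [add_halves] at this

end P073.H16
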