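import Vale.Agent.P073.H235.UncSpec

/-!
# P073 / H16: energy of the un-collapse in the thin part (`SpecU3`)
-/

namespace Vale.Agent.P073.H16

open MeasureTheory Set Filter Topology Metric Vale.Agent.P073.LOC Vale.Agent.P073.H235
open Vale.Agent.P073.St (V Mat)
open Vale.Agent.P073.SQ (ev)
open scoped ContDiff ENNReal

/-! ### the energy density -/

/-- the energy density, real valued -/
noncomputable def re (p : ℝ) (g : V → V) (x : V) : ℝ := ∑ j, ‖fderiv ℝ g x (ev j)‖ ^ p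

/-- the energy density -/
noncomputable def en (p : ℝ) (g : V → V) (x : V) : ℝ≥0∞ :=
  ∑ j, ENNReal.ofReal (‖fderiv ℝ g x (ev j)‖ ^ p)

theorem en_eq (p : ℝ) (g : V → V) (x : V) : en p g x = ENNReal.ofReal (re p g x) := by
  unfold en re
  rw [ENNReal.ofReal_sum_of_nonneg fun j _ => Real.rpow_nonneg (norm_nonneg _) _]

theorem re_nonneg (p : ℝ) (g : V → V) (x : V) : 0 ≤ re p g x :=
  Finset.sum_nonneg fun _ _ => Real.rpow_nonneg (norm_nonneg _) _

theorem measurable_en1 (p : ℝ) (g : V → V) (j : Fin 3) :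
    Measurable fun x => ENNReal.ofReal (‖fderiv ℝ g x (ev j)‖ ^ p) :=
  ((measurable_fderiv_apply_const ℝ g (ev j)).norm.pow_const p).ennreal_ofReal

theorem measurable_en (p : ℝ) (g : V → V) : Measurable (en p g) := by
  unfold en
  exact Finset.measurable_sum _ fun j _ => measurable_en1 p g j

theorem En_univ (p : ℝ) (g : V → V) (S : Set V) :
    En p g Finset.univ S = ∫⁻ x in S, en p g x := by
  unfold En en
  rw [lintegral_finsetSum _ fun j _ => measurable_en1 p g j]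

/-! ### the map -/

section

variable {θ δ τ ν M : ℝ} {k : Fin 3} {a : V} {L : V → ℝ}

theorem M_nonneg (P : Par θ δ τ ν M k a L) : 0 ≤ M := (norm_nonneg _).trans (P.lat.der 0)

theorem uu_bd (P : Par θ δ τ ν M k a L) (x : V) :
    0 < uu θ L x ∧ θ ≤ uu θ L x ∧ uu θ L x ≤ 1 / 2 ∧ δ ≤ uu θ L x ∧ uu θ L x ≤ 1 - δ := by
  have h1 := uu_ge P.lat P.hθ' x
  have h2 := uu_le P.lat P.hθ' x
  have h3 := P.hδ'
  have h4 := P.hθ'
  have h5 := P.hθ
  refine ⟨by linarith, h1, h2, by linarith, by linarith⟩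

theorem injective_Dm (P : Par θ δ τ ν M k a L) : Function.Injective (Dm θ δ τ k L) := by
  intro x y hxy
  have h1 : y = Function.update x k (y k) := by
    funext i
    by_cases h : i = k
    · subst h; simp
    · rw [Function.update_of_ne h, ← Dm_apply_ne (θ := θ) (δ := δ) (τ := τ) (L := L) h y, ← hxy,
        Dm_apply_ne h]
  have h2 : uu θ L y = uu θ L x := by rw [h1, uu_update P.lat]
  have h3 := congrFun hxy k
  rw [Dm_apply, Dm_apply, h2] at h3
  have h4 := (strictMono_dpr P.hδ.ne' P.hθ P.hτ (uu_bd P x).1).injective h3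
  rw [h1, ← h4, Function.update_eq_self]

theorem mapsTo_Dm (P : Par θ δ τ ν M k a L) : MapsTo (Dm θ δ τ k L)
    (Bx (Function.update a k 1)) (Bx (Function.update a k (2 * θ))) := by
  intro x hx i
  have h := hx i
  by_cases hi : i = k
  · subst hi
    rw [Function.update_self] at h
    rw [Dm_apply, Function.update_self]
    obtain ⟨h1, h2, h3, h4, h5⟩ := uu_bd P x
    have hm := strictMono_dpr (δ := δ) (τ := τ) P.hδ.ne' P.hθ P.hτ h1
    have e0 := hm h.1
    have e1 := hm h.2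
    simp only [dpr_zero P.hδ h4 h5] at e0
    simp only [dpr_one P.hδ P.hτ.le h4 h5] at e1
    exact ⟨e0, e1⟩
  · rw [Function.update_of_ne hi] at h
    rw [Dm_apply_ne hi, Function.update_of_ne hi]
    exact h

theorem hasFDerivAt_Dm (P : Par θ δ τ ν M k a L) (x : V) :
    HasFDerivAt (Dm θ δ τ k L) (fderiv ℝ (Dm θ δ τ k L) x) x :=
  ((contDiff_Dm P.lat P.hθ P.hθ' P.hτ).differentiable (by simp)).differentiableAt.hasFDerivAt

theorem det_Dm (P : Par θ δ τ ν M k a L) (x : V) :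
    (fderiv ℝ (Dm θ δ τ k L) x).det = dx θ δ τ (uu θ L x) (x k) := by
  have hj : ∀ j, j ≠ k → fderiv ℝ (Dm θ δ τ k L) x (ev j) = ev j +
      (du θ δ τ (uu θ L x) (x k) * fderiv ℝ (uu θ L) x (ev j)) • ev k := fun j hj =>
    fderiv_Dm_ne P.lat P.hθ P.hθ' P.hτ P.hδ.ne' x hj
  have hk : fderiv ℝ (Dm θ δ τ k L) x (ev k) = dx θ δ τ (uu θ L x) (x k) • ev k :=
    fderiv_Dm_k P.lat P.hθ P.hθ' P.hτ P.hδ.ne' x
  show LinearMap.det ((fderiv ℝ (Dm θ δ τ k L) x : V →L[ℝ] V) : V →ₗ[ℝ] V) = _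
  rw [← LinearMap.det_toMatrix']
  have hA : ∀ i j, LinearMap.toMatrix' ((fderiv ℝ (Dm θ δ τ k L) x : V →L[ℝ] V) : V →ₗ[ℝ] V) i j =
      fderiv ℝ (Dm θ δ τ k L) x (ev j) i := by
    intro i j
    rw [LinearMap.toMatrix'_apply]
    rfl
  rw [Matrix.det_fin_three]
  simp only [hA]
  generalize du θ δ τ (uu θ L x) (x k) = d at *
  generalize dx θ δ τ (uu θ L x) (x k) = e at *
  fin_cases k
  · have h1 := hj 1 (by decide)
    have h2 := hj 2 (by decide)
    simp only [Fin.zero_eta, Fin.isValue] at hk h1 h2 ⊢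
    rw [hk, h1, h2]
    simp [ev]
  · have h1 := hj 0 (by decide)
    have h2 := hj 2 (by decide)
    simp only [Fin.mk_one, Fin.isValue] at hk h1 h2 ⊢
    rw [hk, h1, h2]
    simp [ev]
  · have h1 := hj 0 (by decide)
    have h2 := hj 1 (by decide)
    simp only [Fin.reduceFinMk, Fin.isValue] at hk h1 h2 ⊢
    rw [hk, h1, h2]
    simp [ev]

end

/-! ### pointwise inequality -/

theorem add_rpow_le {a b p : ℝ} (ha : 0 ≤ a) (hb : 0 ≤ b) (hp : 0 ≤ p) :
    (a + b) ^ p ≤ 2 ^ p * (a ^ p + b ^ p) := by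
  have h1 : a + b ≤ 2 * max a b := by
    have := le_max_left a b
    have := le_max_right a b
    linarith
  have h2 : (max a b) ^ p ≤ a ^ p + b ^ p := by
    rcases max_choice a b with h | h <;> rw [h]
    · have := Real.rpow_nonneg hb p; linarith
    · have := Real.rpow_nonneg ha p; linarith
  calc (a + b) ^ p ≤ (2 * max a b) ^ p := Real.rpow_le_rpow (by positivity) h1 hp
    _ = 2 ^ p * (max a b) ^ p := Real.mul_rpow (by norm_num) (ha.trans (le_max_left _ _))
    _ ≤ _ := by gcongr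

/-- the constant -/
noncomputable def CU (p : ℝ) : ℝ := 8 * 4 ^ p + 4 * 3 ^ p + 4 * 2 ^ p

theorem CU_pos (p : ℝ) : 0 < CU p := by unfold CU; positivity

section

variable {θ δ τ ν M : ℝ} {k : Fin 3} {a : V} {L : V → ℝ}

theorem re_comp_le {p : ℝ} (hp : 1 ≤ p) (P : Par θ δ τ ν M k a L) {g : V → V} {x : V} {m : ℝ}
    (hm : 0 ≤ m) (hg : DifferentiableAt ℝ g (Dm θ δ τ k L x))
    (hx : 0 < x k ∧ x k < 1)
    (hu : ∀ j, j ≠ k → |fderiv ℝ (uu θ L) x (ev j)| ≤ m) :
    re p (fun x => g (Dm θ δ τ k L x)) x ≤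
      (2 * 2 ^ p + (2 * 2 ^ p * (2 * θ / uu θ L x) ^ p * m ^ p + (3 * θ / uu θ L x) ^ p)) *
        re p g (Dm θ δ τ k L x) := by
  obtain ⟨u0, u1, u2, u3, u4⟩ := uu_bd P x
  set u := uu θ L x with hud
  set y := Dm θ δ τ k L x with hy
  set b : Fin 3 → ℝ := fun j => ‖fderiv ℝ g y (ev j)‖ with hb
  have hb0 : ∀ j, 0 ≤ b j := fun j => norm_nonneg _
  have hbp : ∀ j, 0 ≤ b j ^ p := fun j => Real.rpow_nonneg (hb0 j) p
  have hB : ∀ j, b j ^ p ≤ re p g y := fun j =>
    Finset.single_le_sum (f := fun j => b j ^ p) (fun i _ => hbp i) (Finset.mem_univ j)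
  have hcomp : ∀ v, fderiv ℝ (fun x => g (Dm θ δ τ k L x)) x v =
      fderiv ℝ g y (fderiv ℝ (Dm θ δ τ k L) x v) := by
    intro v
    have := (hg.hasFDerivAt.comp x (hasFDerivAt_Dm P x)).fderiv
    have e : fderiv ℝ (fun x => g (Dm θ δ τ k L x)) x = fderiv ℝ (g ∘ Dm θ δ τ k L) x := rfl
    rw [e, this]
    rfl
  have hp0 : 0 ≤ p := by linarith
  have hdu : |du θ δ τ u (x k)| ≤ 2 * θ / u := abs_du_le P.hθ P.hδ P.hτ u3 u4 hx.1.le hx.2.le
  have hdx : |dx θ δ τ u (x k)| ≤ 3 * θ / u := by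
    rw [abs_of_pos (dx_pos P.hθ P.hτ u0)]
    exact dx_upper P.hθ P.hτ (by linarith [P.hτ', P.hθ']) u0
  have hq : 0 ≤ 2 * θ / u := by have := P.hθ; positivity
  have hq3 : 0 ≤ 3 * θ / u := by have := P.hθ; positivity
  have hne : ∀ j, j ≠ k → ‖fderiv ℝ (fun x => g (Dm θ δ τ k L x)) x (ev j)‖ ^ p ≤
      2 ^ p * (b j ^ p + (2 * θ / u) ^ p * m ^ p * b k ^ p) := by
    intro j hj
    rw [hcomp, fderiv_Dm_ne P.lat P.hθ P.hθ' P.hτ P.hδ.ne' x hj, map_add, map_smul]
    have h1 : ‖(du θ δ τ u (x k) * fderiv ℝ (uu θ L) x (ev j)) • fderiv ℝ g y (ev k)‖ ≤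
        2 * θ / u * m * b k := by
      rw [norm_smul, Real.norm_eq_abs, abs_mul]
      have := hu j hj
      gcongr
    have h2 : ‖fderiv ℝ g y (ev j) +
        (du θ δ τ u (x k) * fderiv ℝ (uu θ L) x (ev j)) • fderiv ℝ g y (ev k)‖ ≤
        b j + 2 * θ / u * m * b k := (norm_add_le _ _).trans (by gcongr)
    calc _ ≤ (b j + 2 * θ / u * m * b k) ^ p := Real.rpow_le_rpow (norm_nonneg _) h2 hp0
      _ ≤ 2 ^ p * (b j ^ p + (2 * θ / u * m * b k) ^ p) :=
          add_rpow_le (hb0 j) (by have := hb0 k; positivity) hp0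
      _ = _ := by
          rw [Real.mul_rpow (by positivity) (hb0 k), Real.mul_rpow hq hm]
  have hk : ‖fderiv ℝ (fun x => g (Dm θ δ τ k L x)) x (ev k)‖ ^ p ≤
      (3 * θ / u) ^ p * b k ^ p := by
    rw [hcomp, fderiv_Dm_k P.lat P.hθ P.hθ' P.hτ P.hδ.ne' x, map_smul, norm_smul,
      Real.norm_eq_abs, ← Real.mul_rpow hq3 (hb0 k)]
    exact Real.rpow_le_rpow (by positivity) (by gcongr) hp0
  unfold re
  rw [← Finset.sum_erase_add _ _ (Finset.mem_univ k)]
  have hcard : (Finset.univ.erase k).card = 2 := by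
    rw [Finset.card_erase_of_mem (Finset.mem_univ k)]; rfl
  have hE : re p g y = ∑ j ∈ Finset.univ.erase k, b j ^ p + b k ^ p := by
    unfold re
    rw [Finset.sum_erase_add _ _ (Finset.mem_univ k)]
  have hA : 0 ≤ (2 * θ / u) ^ p * m ^ p := by positivity
  have hS : ∑ j ∈ Finset.univ.erase k, ‖fderiv ℝ (fun x => g (Dm θ δ τ k L x)) x (ev j)‖ ^ p ≤
      2 ^ p * re p g y + 2 * (2 ^ p * ((2 * θ / u) ^ p * m ^ p) * re p g y) := by
    calc _ ≤ ∑ j ∈ Finset.univ.erase k, (2 ^ p * b j ^ p +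
          2 ^ p * ((2 * θ / u) ^ p * m ^ p) * re p g y) := by
          refine Finset.sum_le_sum fun j hj => (hne j (Finset.ne_of_mem_erase hj)).trans ?_
          rw [mul_add, ← mul_assoc]
          have := hB k
          gcongr
      _ = 2 ^ p * ∑ j ∈ Finset.univ.erase k, b j ^ p +
          2 * (2 ^ p * ((2 * θ / u) ^ p * m ^ p) * re p g y) := by
          rw [Finset.sum_add_distrib, ← Finset.mul_sum, Finset.sum_const, hcard]
          simp
      _ ≤ _ := by
          have : ∑ j ∈ Finset.univ.erase k, b j ^ p ≤ re p g y := by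
            rw [hE]; have := hbp k; linarith
          gcongr
  have hk' : ‖fderiv ℝ (fun x => g (Dm θ δ τ k L x)) x (ev k)‖ ^ p ≤
      (3 * θ / u) ^ p * re p g y := hk.trans (by have := hB k; gcongr)
  have h2p : (0:ℝ) < 2 ^ p := by positivity
  have hr := re_nonneg p g y
  calc _ ≤ (2 ^ p * re p g y + 2 * (2 ^ p * ((2 * θ / u) ^ p * m ^ p) * re p g y)) +
        (3 * θ / u) ^ p * re p g y := add_le_add hS hk'
    _ ≤ _ := by
        have := mul_nonneg h2p.le hr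
        unfold re at this ⊢
        nlinarith

theorem coef_le {p θ u m : ℝ} (hp : 1 ≤ p) (hθ : 0 < θ) (hu : θ ≤ u) (hm : 0 ≤ m) :
    4 * u / θ * (2 * 2 ^ p + (2 * 2 ^ p * (2 * θ / u) ^ p * m ^ p + (3 * θ / u) ^ p)) ≤
      8 * 2 ^ p * (u / θ) + 8 * 4 ^ p * m ^ p + 4 * 3 ^ p := by
  have hu0 : 0 < u := hθ.trans_le hu
  set r := θ / u with hr
  have hr0 : 0 < r := by positivity
  have hr1 : r ≤ 1 := by rw [hr, div_le_one hu0]; exact hu
  have hrp : r ^ p ≤ r := by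
    have := Real.rpow_le_rpow_of_exponent_ge hr0 hr1 hp
    rwa [Real.rpow_one] at this
  have e1 : (2 * θ / u) ^ p = 2 ^ p * r ^ p := by
    rw [← Real.mul_rpow (by norm_num) hr0.le, hr]; congr 1; ring
  have e2 : (3 * θ / u) ^ p = 3 ^ p * r ^ p := by
    rw [← Real.mul_rpow (by norm_num) hr0.le, hr]; congr 1; ring
  have e3 : (4:ℝ) ^ p = 2 ^ p * 2 ^ p := by
    rw [← Real.mul_rpow (by norm_num) (by norm_num)]; norm_num
  have e4 : u / θ * r ^ p ≤ 1 := by
    have h1 : u / θ * r ^ p ≤ u / θ * r := by gcongr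
    have h2 : u / θ * r = 1 := by rw [hr]; field_simp
    linarith
  have hmp : 0 ≤ m ^ p := Real.rpow_nonneg hm p
  have h2p : (0:ℝ) < 2 ^ p := by positivity
  have h3p : (0:ℝ) < 3 ^ p := by positivity
  rw [e1, e2, e3]
  have k1 : 2 * 2 ^ p * (2 ^ p * r ^ p) * m ^ p * (4 * (u / θ)) ≤ 8 * (2 ^ p * 2 ^ p) * m ^ p := by
    have : 2 * 2 ^ p * (2 ^ p * r ^ p) * m ^ p * (4 * (u / θ)) =
      8 * (2 ^ p * 2 ^ p) * m ^ p * (u / θ * r ^ p) := by ring
    rw [this]
    exact mul_le_of_le_one_right (by positivity) e4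
  have k2 : 3 ^ p * r ^ p * (4 * (u / θ)) ≤ 4 * 3 ^ p := by
    have : 3 ^ p * r ^ p * (4 * (u / θ)) = 4 * 3 ^ p * (u / θ * r ^ p) := by ring
    rw [this]
    exact mul_le_of_le_one_right (by positivity) e4
  have k3 : 4 * u / θ * (2 * 2 ^ p + (2 * 2 ^ p * (2 ^ p * r ^ p) * m ^ p + 3 ^ p * r ^ p)) =
      8 * 2 ^ p * (u / θ) + 2 * 2 ^ p * (2 ^ p * r ^ p) * m ^ p * (4 * (u / θ)) +
        3 ^ p * r ^ p * (4 * (u / θ)) := by ring
  rw [k3]
  linarith

theorem one_le_dx (P : Par θ δ τ ν M k a L) {x : V} (hT : x ∈ Thin θ δ k L) :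
    1 ≤ dx θ δ τ (uu θ L x) (x k) * (4 * uu θ L x / θ) := by
  obtain ⟨u0, u1, u2, u3, u4⟩ := uu_bd P x
  have hT' : 1 / 2 ≤ Spr δ (uu θ L x) (x k) := hT
  have h1 := dx_lower P.hθ P.hτ u0 (by linarith [P.hτ']) hT'
  have hθ := P.hθ
  have h2 : θ / (4 * uu θ L x) * (4 * uu θ L x / θ) = 1 := by field_simp
  calc (1:ℝ) = θ / (4 * uu θ L x) * (4 * uu θ L x / θ) := h2.symm
    _ ≤ _ := by gcongr

theorem frame_le {p : ℝ} (hp : 1 ≤ p) (P : Par θ δ τ ν M k a L) {g : V → V} {x : V}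
    (hg : DifferentiableAt ℝ g (Dm θ δ τ k L x)) (hx : 0 < x k ∧ x k < 1)
    (hT : x ∈ Thin θ δ k L) :
    re p (fun x => g (Dm θ δ τ k L x)) x ≤ dx θ δ τ (uu θ L x) (x k) *
      (CU p * ((1 / θ + M ^ p) * re p g (Dm θ δ τ k L x))) := by
  have hM := M_nonneg P
  obtain ⟨u0, u1, u2, u3, u4⟩ := uu_bd P x
  have hθ := P.hθ
  have hdx := dx_pos (δ := δ) (x := x k) P.hθ P.hτ u0
  have h1 := re_comp_le hp P hM hg hx fun j _ => abs_fderiv_uu_le P.lat P.hθ P.hθ' x j
  have hr := re_nonneg p g (Dm θ δ τ k L x)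
  have hMp : 0 ≤ M ^ p := Real.rpow_nonneg hM p
  have h2 := coef_le hp P.hθ u1 hM
  set K : ℝ := 2 * 2 ^ p + (2 * 2 ^ p * (2 * θ / uu θ L x) ^ p * M ^ p +
    (3 * θ / uu θ L x) ^ p) with hK
  have hK0 : 0 ≤ K := by positivity
  have h3 : 8 * 2 ^ p * (uu θ L x / θ) + 8 * 4 ^ p * M ^ p + 4 * 3 ^ p ≤
      CU p * (1 / θ + M ^ p) := by
    have k1 : uu θ L x / θ ≤ 1 / 2 * (1 / θ) := by
      rw [div_le_iff₀ hθ]; field_simp; linarith
    have k2 : 1 ≤ 1 / θ := by rw [le_div_iff₀ hθ]; linarith [P.hθ']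
    have h2p : (0:ℝ) < 2 ^ p := by positivity
    have h3p : (0:ℝ) < 3 ^ p := by positivity
    have h4p : (0:ℝ) < 4 ^ p := by positivity
    have k3 : 8 * 2 ^ p * (uu θ L x / θ) ≤ 8 * 2 ^ p * (1 / 2 * (1 / θ)) := by gcongr
    have k4 : 4 * 3 ^ p * 1 ≤ 4 * 3 ^ p * (1 / θ) := by gcongr
    have k5 : 0 ≤ 8 * 4 ^ p * (1 / θ) := by positivity
    have k6 : 0 ≤ (4 * 3 ^ p + 4 * 2 ^ p) * M ^ p := by positivity
    unfold CU
    nlinarith
  calc _ ≤ K * re p g (Dm θ δ τ k L x) := h1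
    _ = 1 * (K * re p g (Dm θ δ τ k L x)) := (one_mul _).symm
    _ ≤ dx θ δ τ (uu θ L x) (x k) * (4 * uu θ L x / θ) * (K * re p g (Dm θ δ τ k L x)) := by
        have := one_le_dx P hT
        gcongr
    _ = dx θ δ τ (uu θ L x) (x k) * ((4 * uu θ L x / θ * K) * re p g (Dm θ δ τ k L x)) := by ring
    _ ≤ dx θ δ τ (uu θ L x) (x k) * ((CU p * (1 / θ + M ^ p)) * re p g (Dm θ δ τ k L x)) := by
        have := h2.trans h3
        gcongr
    _ = _ := by ring

theorem core_le {p : ℝ} (hp : 1 ≤ p) (P : Par θ δ τ ν M k a L) {g : V → V} {x : V}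
    (hg : DifferentiableAt ℝ g (Dm θ δ τ k L x)) (hx : 0 < x k ∧ x k < 1)
    (hT : x ∈ Thin θ δ k L) (hc : ∀ i, i ≠ k → ν * a i < x i ∧ x i < (1 - ν) * a i) :
    re p (fun x => g (Dm θ δ τ k L x)) x ≤ dx θ δ τ (uu θ L x) (x k) *
      (CU p * re p g (Dm θ δ τ k L x)) := by
  obtain ⟨u0, u1, u2, u3, u4⟩ := uu_bd P x
  have hθ := P.hθ
  have hdx := dx_pos (δ := δ) (x := x k) P.hθ P.hτ u0
  have hu : uu θ L x = θ := by
    unfold uu
    rw [P.lat.one x]
    · ring
    · intro i hik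
      obtain ⟨h3, h4⟩ := hc i hik
      have := mul_pos P.hν (P.ha i hik)
      constructor <;> nlinarith
  have h1 := re_comp_le hp P le_rfl hg hx fun j _ => by
    rw [fderiv_uu_core P.lat P.ha P.hν hc, abs_zero]
  have hr := re_nonneg p g (Dm θ δ τ k L x)
  have h2 := coef_le hp P.hθ u1 le_rfl
  set K : ℝ := 2 * 2 ^ p + (2 * 2 ^ p * (2 * θ / uu θ L x) ^ p * 0 ^ p +
    (3 * θ / uu θ L x) ^ p) with hK
  have h3 : 8 * 2 ^ p * (uu θ L x / θ) + 8 * 4 ^ p * 0 ^ p + 4 * 3 ^ p ≤ CU p := by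
    rw [hu, div_self hθ.ne', Real.zero_rpow (by linarith)]
    have h24 : (2:ℝ) ^ p ≤ 4 ^ p := Real.rpow_le_rpow (by norm_num) (by norm_num) (by linarith)
    have h2p : (0:ℝ) < 2 ^ p := by positivity
    unfold CU
    linarith
  have hK0 : 0 ≤ K := by positivity
  calc _ ≤ K * re p g (Dm θ δ τ k L x) := h1
    _ = 1 * (K * re p g (Dm θ δ τ k L x)) := (one_mul _).symm
    _ ≤ dx θ δ τ (uu θ L x) (x k) * (4 * uu θ L x / θ) * (K * re p g (Dm θ δ τ k L x)) := by
        have := one_le_dx P hT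
        gcongr
    _ = dx θ δ τ (uu θ L x) (x k) * ((4 * uu θ L x / θ * K) * re p g (Dm θ δ τ k L x)) := by ring
    _ ≤ dx θ δ τ (uu θ L x) (x k) * (CU p * re p g (Dm θ δ τ k L x)) := by
        have := h2.trans h3
        gcongr

end

/-! ### the theorem -/

theorem isOpen_Bx (a : V) : IsOpen (Bx a) := by
  have : Bx a = ⋂ i : Fin 3, {x : V | 0 < x i ∧ x i < a i} := by
    ext x; simp [Bx]
  rw [this]
  refine isOpen_iInter_of_finite fun i => ?_
  exact (isOpen_lt continuous_const (continuous_apply i)).inter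
    (isOpen_lt (continuous_apply i) continuous_const)

theorem isClosed_Fr (a : V) (ν : ℝ) (J : Finset (Fin 3)) : IsClosed (Fr a ν J) := by
  have : Fr a ν J = ⋃ i ∈ J, {x : V | x i ≤ ν * a i ∨ (1 - ν) * a i ≤ x i} := by
    ext x; simp [Fr]
  rw [this]
  refine J.finite_toSet.isClosed_biUnion fun i _ => ?_
  exact (isClosed_le (continuous_apply i) continuous_const).union
    (isClosed_le continuous_const (continuous_apply i))

theorem isClosed_Thin {θ δ ν M : ℝ} {k : Fin 3} {a : V} {L : V → ℝ} (hL : Lat k a ν M L) :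
    IsClosed (Thin θ δ k L) := by
  refine isClosed_le continuous_const ?_
  have h1 : Continuous (uu θ L) := (contDiff_uu hL).continuous
  have h2 : Continuous fun x : V => x k := continuous_apply k
  unfold Spr
  exact (continuous_sg.comp ((h1.sub h2).div_const δ)).add
    (continuous_sg.comp (((h2.sub continuous_const).add h1).div_const δ))

/-- **(U3)** -/
theorem specU3 : SpecU3 := by
  intro p hp
  refine ⟨CU p, CU_pos p, fun θ δ τ ν M k a L g P hg => ?_⟩
  have hM := M_nonneg P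
  have hMp : 0 ≤ M ^ p := Real.rpow_nonneg hM p
  have hθ := P.hθ
  have hc0 : 0 ≤ 1 / θ + M ^ p := by positivity
  set B1 := Bx (Function.update a k 1) with hB1
  set B2 := Bx (Function.update a k (2 * θ)) with hB2
  set F := Fr (Function.update a k (2 * θ)) ν (Finset.univ.erase k) with hF
  set D := Dm θ δ τ k L with hD
  set T := Thin θ δ k L with hT
  have hFm : MeasurableSet F := (isClosed_Fr _ _ _).measurableSet
  have hS : MeasurableSet (B1 ∩ T) :=
    (isOpen_Bx _).measurableSet.inter (isClosed_Thin P.lat).measurableSet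
  rw [En_univ, En_univ, En_univ]
  set H : V → ℝ≥0∞ := fun y => ENNReal.ofReal (CU p) *
    (en p g y + ENNReal.ofReal (1 / θ + M ^ p) * F.indicator (en p g) y) with hH
  have hpt : ∀ x ∈ B1 ∩ T, en p (fun x => g (D x)) x ≤
      ENNReal.ofReal |(fderiv ℝ D x).det| * H (D x) := by
    rintro x ⟨hx1, hxT⟩
    have hy : D x ∈ B2 := mapsTo_Dm P hx1
    have hgd : DifferentiableAt ℝ g (D x) :=
      ((hg (D x) hy).contDiffAt ((isOpen_Bx _).mem_nhds hy)).differentiableAt (by simp)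
    have hxk : 0 < x k ∧ x k < 1 := by
      have := hx1 k
      rwa [Function.update_self] at this
    have hdx := dx_pos (δ := δ) (x := x k) P.hθ P.hτ (uu_bd P x).1
    rw [hD, det_Dm P x, abs_of_pos hdx, ← hD]
    by_cases hyF : D x ∈ F
    · have h1 := frame_le hp P hgd hxk hxT
      rw [en_eq]
      refine (ENNReal.ofReal_le_ofReal h1).trans ?_
      rw [ENNReal.ofReal_mul hdx.le, ENNReal.ofReal_mul (CU_pos p).le, ENNReal.ofReal_mul hc0,
        ← en_eq, hH]
      simp only [indicator_of_mem hyF]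
      gcongr
      exact le_add_self
    · have hc : ∀ i, i ≠ k → ν * a i < x i ∧ x i < (1 - ν) * a i := by
        intro i hi
        by_contra hcon
        refine hyF ⟨i, Finset.mem_erase.2 ⟨hi, Finset.mem_univ i⟩, ?_⟩
        rw [hD, Dm_apply_ne hi, Function.update_of_ne hi]
        by_contra h2
        rw [not_or, not_le, not_le] at h2
        exact hcon h2
      have h1 := core_le hp P hgd hxk hxT hc
      rw [en_eq]
      refine (ENNReal.ofReal_le_ofReal h1).trans ?_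
      rw [ENNReal.ofReal_mul hdx.le, ENNReal.ofReal_mul (CU_pos p).le, ← en_eq, hH]
      simp only [indicator_of_notMem hyF, mul_zero, add_zero]
      exact le_rfl
  calc ∫⁻ x in B1 ∩ T, en p (fun x => g (D x)) x
      ≤ ∫⁻ x in B1 ∩ T, ENNReal.ofReal |(fderiv ℝ D x).det| * H (D x) :=
        setLIntegral_mono' hS hpt
    _ = ∫⁻ y in D '' (B1 ∩ T), H y :=
        (lintegral_image_eq_lintegral_abs_det_fderiv_mul volume hS
          (fun x _ => (hasFDerivAt_Dm P x).hasFDerivWithinAt) (injective_Dm P).injOn H).symm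
    _ ≤ ∫⁻ y in B2, H y := by
        refine lintegral_mono_set ?_
        rintro _ ⟨x, hx, rfl⟩
        exact mapsTo_Dm P hx.1
    _ = _ := by
        rw [hH, lintegral_const_mul' _ _ ENNReal.ofReal_ne_top,
          lintegral_add_left (measurable_en p g), lintegral_const_mul' _ _ ENNReal.ofReal_ne_top,
          lintegral_indicator hFm, Measure.restrict_restrict hFm, inter_comm F B2]

end Vale.Agent.P073.H16
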