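import Vale.Agent.P073.H16.CollarSpec
import Vale.Agent.P073.GBM.CellU

/-!
# P073 / H16: uniform collar with control of the size (`SpecUE`)

`transferE` and `uniform_rhoE` follow helper225's `GBM/Rho225.lean` word for word.
-/

open Set Metric Topology Filter

namespace P073.H16

open P073 P073.GB73 P073.GBM.Rho
open Vale.Agent.P073.St (V)
open P073.Cell (CollarPropE SpecUE lo hi mg mpt lo_eq hi_eq mg_eq mpt_eq)

theorem psi_lip_one {w l' : ℝ} (hw : 4 * w ≤ 1) (hl' : 0 < l') (hl'1 : l' ≤ 1) (s t : ℝ) :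
    |psi w l' s - psi w l' t| ≤ |s - t| := by
  wlog hst : t ≤ s generalizing s t with Hw
  · rw [abs_sub_comm, abs_sub_comm s]
    exact Hw t s (not_le.1 hst).le
  have hl1 : 1 ≤ 1 / l' := by rw [le_div_iff₀ hl']; linarith
  have hmono := psi_strictMono (w := w) hl1
  have h1 : psi w l' t ≤ psi w l' s := by
    rw [← hmono.le_iff_le, psi_psi hw hl' (by field_simp), psi_psi hw hl' (by field_simp)]
    exact hst
  have h2 : psi w l' s - psi w l' t ≤ s - t := by
    unfold psi
    have k1 : max 0 (2 * w - s) ≤ max 0 (2 * w - t) := max_le_max le_rfl (by linarith)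
    have k2 : max 0 (t - (1 - 2 * w)) ≤ max 0 (s - (1 - 2 * w)) := max_le_max le_rfl (by linarith)
    have k3 := mul_le_mul_of_nonneg_left k1 (by linarith : 0 ≤ 1 - l')
    have k4 := mul_le_mul_of_nonneg_left k2 (by linarith : 0 ≤ 1 - l')
    linarith
  rw [abs_of_nonneg (by linarith), abs_of_nonneg (by linarith)]
  exact h2

/-- transfer of the collar statement from the normalised box, with control of the size -/
theorem transferE {a b c : V} {N w μ : ℝ} (D : Dat a b c N w μ) {X X0 : Set V} {ρ0 ρ ε0 : ℝ}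
    (hρ : 2 * N * ρ ≤ ρ0)
    (hX : ∀ x ∈ X, (fun k => psi w (w / (w - μ)) (N * (x k - c k))) ∈ X0)
    (hX0 : ∀ y ∈ X0, (fun k => c k + psi w ((w - μ) / w) (y k) / N : V) ∈ X)
    (H : CollarPropE (fun _ => w) (fun _ => 1 - w) w X0 ρ0 ε0) :
    CollarPropE a b ((w - μ) / N) X ρ (ε0 / N) := by
  obtain ⟨hN, hw, hw8, hμ, hμ4, ha, hb⟩ := D
  have hm : 0 < w - μ := by linarith
  have hw4 : 4 * w ≤ 1 := by linarith
  set l : ℝ := w / (w - μ) with hl
  set l' : ℝ := (w - μ) / w with hl'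
  have hl0 : 0 < l := by positivity
  have hl'0 : 0 < l' := by positivity
  have hl1 : 1 ≤ l := by rw [hl, le_div_iff₀ hm]; linarith
  have hl2 : l ≤ 3 / 2 := by rw [hl, div_le_iff₀ hm]; linarith
  have hll : l' * l = 1 := by rw [hl, hl']; field_simp
  have hlm : l * (w - μ) = w := by rw [hl]; field_simp
  let Ψ := Psi c N w l l' hN hw4 hl0 hl'0 hll
  have hΨ : ∀ x k, Ψ.toFun x k = psi w l (N * (x k - c k)) := fun _ _ => rfl
  have hΨi : ∀ y k, Ψ.invFun y k = c k + psi w l' (y k) / N := fun _ _ => rfl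
  have hmono := psi_strictMono (w := w) hl1
  have hlo : psi w l (w + μ) = w := by
    rw [psi_lo hw4 (by linarith)]
    have : l * (2 * w - (w + μ)) = l * (w - μ) := by ring
    rw [this, hlm]; ring
  have hhi : psi w l (1 - w - μ) = 1 - w := by
    rw [psi_hi hw4 (by linarith)]
    have : l * (1 - w - μ - (1 - 2 * w)) = l * (w - μ) := by ring
    rw [this, hlm]; ring
  have hle1 : ∀ (x : V) k, a k ≤ x k ↔ w ≤ Ψ.toFun x k := by
    intro x k
    have : w ≤ Ψ.toFun x k ↔ psi w l (w + μ) ≤ psi w l (N * (x k - c k)) := by rw [hlo]; rfl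
    rw [this, hmono.le_iff_le, ha, mul_comm N, ← div_le_iff₀ hN]
    constructor <;> intro h <;> linarith
  have hle2 : ∀ (x : V) k, x k ≤ b k ↔ Ψ.toFun x k ≤ 1 - w := by
    intro x k
    have : Ψ.toFun x k ≤ 1 - w ↔ psi w l (N * (x k - c k)) ≤ psi w l (1 - w - μ) := by
      rw [hhi]; rfl
    rw [this, hmono.le_iff_le, hb, mul_comm N, ← le_div_iff₀ hN]
    constructor <;> intro h <;> linarith
  have hmem : ∀ x : V, x ∈ Icc a b ↔ Ψ.toFun x ∈ Icc (fun _ => w : V) (fun _ => 1 - w) := by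
    intro x
    rw [mem_Icc, mem_Icc, Pi.le_def, Pi.le_def, Pi.le_def, Pi.le_def]
    exact and_congr (forall_congr' fun k => hle1 x k) (forall_congr' fun k => hle2 x k)
  have himg : Ψ.toFun '' Icc a b = Icc (fun _ => w : V) (fun _ => 1 - w) := by
    ext y
    constructor
    · rintro ⟨x, hx, rfl⟩; exact (hmem x).1 hx
    · intro hy
      refine ⟨Ψ.invFun y, (hmem _).2 ?_, Ψ.right_inv (mem_univ y)⟩
      rwa [Ψ.right_inv (mem_univ y)]
  have himgF : Ψ.toFun '' frontier (Icc a b) = frontier (Icc (fun _ => w : V) (fun _ => 1 - w)) := by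
    rw [Ψ.image_frontier, himg]
  have hlip : ∀ x x' : V, ‖Ψ.toFun x - Ψ.toFun x'‖ ≤ 2 * N * ‖x - x'‖ := by
    intro x x'
    rw [pi_norm_le_iff_of_nonneg (by positivity)]
    intro k
    rw [Pi.sub_apply, hΨ, hΨ, Real.norm_eq_abs]
    refine (psi_lip hl1 hl2 _ _).trans ?_
    have e1 : N * (x k - c k) - N * (x' k - c k) = N * (x k - x' k) := by ring
    rw [e1, abs_mul, abs_of_pos hN]
    have := norm_le_pi_norm (x - x') k
    rw [Pi.sub_apply, Real.norm_eq_abs] at this
    nlinarith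
  have hl'1 : l' ≤ 1 := by rw [hl', div_le_one hw]; linarith
  have hlipi : ∀ y y' : V, ‖Ψ.invFun y - Ψ.invFun y'‖ ≤ ‖y - y'‖ / N := by
    intro y y'
    rw [pi_norm_le_iff_of_nonneg (by positivity)]
    intro k
    rw [Pi.sub_apply, hΨi, hΨi, Real.norm_eq_abs]
    have e1 : c k + psi w l' (y k) / N - (c k + psi w l' (y' k) / N) =
        (psi w l' (y k) - psi w l' (y' k)) / N := by ring
    rw [e1, abs_div, abs_of_pos hN]
    refine div_le_div_of_nonneg_right ?_ hN.le
    refine (psi_lip_one hw4 hl'0 hl'1 _ _).trans ?_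
    have := norm_le_pi_norm (y - y') k
    rwa [Pi.sub_apply, Real.norm_eq_abs] at this
  intro φ hφX hφρ θ hθ hθm
  have hcF : ConicalSet (frontier (Icc a b)) := φ.conicalSet_left
  let ΨF : ConHomeo (frontier (Icc a b)) (frontier (Icc (fun _ => w : V) (fun _ => 1 - w))) :=
    (Ψ.restr hcF (subset_univ _)).cast rfl himgF
  let ΨB : ConHomeo (Icc a b) (Icc (fun _ => w : V) (fun _ => 1 - w)) :=
    (Ψ.restr (convex_Icc a b).conicalSet (subset_univ _)).cast rfl himg
  have hΨF : ∀ x, ΨF.toFun x = Ψ.toFun x := fun _ => rfl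
  have hΨFi : ∀ x, ΨF.invFun x = Ψ.invFun x := fun _ => rfl
  have hΨB : ∀ x, ΨB.toFun x = Ψ.toFun x := fun _ => rfl
  have hΨBi : ∀ x, ΨB.invFun x = Ψ.invFun x := fun _ => rfl
  have hlr : ∀ y, Ψ.toFun (Ψ.invFun y) = y := fun y => Ψ.right_inv (mem_univ y)
  have hrl : ∀ x, Ψ.invFun (Ψ.toFun x) = x := fun x => Ψ.left_inv (mem_univ x)
  obtain ⟨Φ', h1, h2, h3, h4⟩ := H (ΨF.symm.trans (φ.trans ΨF)) (fun y hy => by
      show Ψ.toFun (φ.toFun (Ψ.invFun y)) = y
      rw [hφX (Ψ.invFun y) (hX0 y hy), hlr]) (fun y hy => by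
      have hx : Ψ.invFun y ∈ frontier (Icc a b) := by
        rw [← himgF] at hy
        obtain ⟨x, hx, rfl⟩ := hy
        rwa [hrl]
      show ‖Ψ.toFun (φ.toFun (Ψ.invFun y)) - y‖ ≤ ρ0
      have e := hlip (φ.toFun (Ψ.invFun y)) (Ψ.invFun y)
      rw [hlr] at e
      refine e.trans ((mul_le_mul_of_nonneg_left (hφρ _ hx) (by positivity)).trans hρ))
    (N * θ) (by positivity) (by
      rw [lt_div_iff₀ hN] at hθm
      linarith)
  refine ⟨ΨB.trans (Φ'.trans ΨB.symm), fun x hx => ?_, fun x hx => ?_,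
    fun x hx z hz hzx hex => ?_, fun x hx => ?_⟩
  · show Ψ.invFun (Φ'.toFun (Ψ.toFun x)) = φ.toFun x
    rw [h1 (by rw [← himgF]; exact mem_image_of_mem _ hx)]
    show Ψ.invFun (Ψ.toFun (φ.toFun (Ψ.invFun (Ψ.toFun x)))) = φ.toFun x
    rw [hrl, hrl]
  · show Ψ.invFun (Φ'.toFun (Ψ.toFun x)) = x
    rw [h2 _ ?_, hrl]
    have hx1 := hx.1
    have hx2 := hx.2
    rw [Pi.le_def] at hx1 hx2
    have hθ' : N * θ < w - μ := by
      rw [lt_div_iff₀ hN] at hθm; linarith
    refine ⟨fun k => ?_, fun k => ?_⟩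
    · show w + N * θ ≤ psi w l (N * (x k - c k))
      have e1 : w + μ + N * θ ≤ N * (x k - c k) := by
        have := hx1 k
        simp only [ha] at this
        have h5 : N * (c k + (w + μ) / N + θ - c k) ≤ N * (x k - c k) :=
          mul_le_mul_of_nonneg_left (by linarith) hN.le
        have h6 : N * (c k + (w + μ) / N + θ - c k) = w + μ + N * θ := by
          field_simp
          ring
        linarith
      refine le_trans ?_ (hmono.monotone e1)
      rw [psi_lo hw4 (by linarith)]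
      have e2 : l * (2 * w - (w + μ + N * θ)) = w - l * (N * θ) := by
        have : l * (2 * w - (w + μ + N * θ)) = l * (w - μ) - l * (N * θ) := by ring
        rw [this, hlm]
      rw [e2]
      have : N * θ ≤ l * (N * θ) := le_mul_of_one_le_left (by positivity) hl1
      linarith
    · show psi w l (N * (x k - c k)) ≤ 1 - w - N * θ
      have e1 : N * (x k - c k) ≤ 1 - w - μ - N * θ := by
        have := hx2 k
        simp only [hb] at this
        have h5 : N * (x k - c k) ≤ N * (c k + (1 - w - μ) / N - θ - c k) :=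
          mul_le_mul_of_nonneg_left (by linarith) hN.le
        have h6 : N * (c k + (1 - w - μ) / N - θ - c k) = 1 - w - μ - N * θ := by
          field_simp
          ring
        linarith
      refine (hmono.monotone e1).trans ?_
      rw [psi_hi hw4 (by linarith)]
      have e2 : l * (1 - w - μ - N * θ - (1 - 2 * w)) = w - l * (N * θ) := by
        have : l * (1 - w - μ - N * θ - (1 - 2 * w)) = l * (w - μ) - l * (N * θ) := by ring
        rw [this, hlm]
      rw [e2]
      have : N * θ ≤ l * (N * θ) := le_mul_of_one_le_left (by positivity) hl1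
      linarith
  · show Ψ.invFun (Φ'.toFun (Ψ.toFun z)) = z
    obtain ⟨i, hi, hij⟩ := hex
    have hzi : |z i - x i| ≤ (w - μ) / N := by
      have := (norm_le_pi_norm (z - x) i).trans hzx
      rwa [Pi.sub_apply, Real.norm_eq_abs] at this
    have hzi' : |N * (z i - c i) - N * (x i - c i)| ≤ w - μ := by
      have e1 : N * (z i - c i) - N * (x i - c i) = N * (z i - x i) := by ring
      rw [e1, abs_mul, abs_of_pos hN]
      have := mul_le_mul_of_nonneg_left hzi hN.le
      rwa [mul_div_cancel₀ _ hN.ne'] at this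
    have hzI := (hmem z).1 hz
    have hz1 : w ≤ Ψ.toFun z i := hzI.1 i
    have hz2 : Ψ.toFun z i ≤ 1 - w := hzI.2 i
    have hval : (Ψ.toFun x i = w ∨ Ψ.toFun x i = 1 - w) ∧ |Ψ.toFun z i - Ψ.toFun x i| ≤ w := by
      rcases hi with hi | hi
      · have e0 : N * (x i - c i) = w + μ := by
          rw [hi, ha]; field_simp; ring
        have e1 : Ψ.toFun x i = w := by rw [hΨ, e0, hlo]
        refine ⟨Or.inl e1, ?_⟩
        have e2 : N * (z i - c i) ≤ 2 * w := by
          rw [e0] at hzi'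
          have := (abs_le.1 hzi').2
          linarith
        have e3 : Ψ.toFun z i ≤ 2 * w := by
          rw [hΨ]
          refine (hmono.monotone e2).trans ?_
          rw [psi_mid le_rfl (by linarith)]
        rw [e1, abs_le]
        constructor <;> linarith
      · have e0 : N * (x i - c i) = 1 - w - μ := by
          rw [hi, hb]; field_simp; ring
        have e1 : Ψ.toFun x i = 1 - w := by rw [hΨ, e0, hhi]
        refine ⟨Or.inr e1, ?_⟩
        have e2 : 1 - 2 * w ≤ N * (z i - c i) := by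
          rw [e0] at hzi'
          have := (abs_le.1 hzi').1
          linarith
        have e3 : 1 - 2 * w ≤ Ψ.toFun z i := by
          rw [hΨ]
          refine le_trans ?_ (hmono.monotone e2)
          rw [psi_mid (by linarith) le_rfl]
        rw [e1, abs_le]
        constructor <;> linarith
    have hij' : ∀ j, j ≠ i → Ψ.toFun z j = Ψ.toFun x j := fun j hj => by
      rw [hΨ, hΨ, hij j hj]
    rw [h3 (Ψ.toFun x) (hX x hx) (Ψ.toFun z) hzI ?_ ⟨i, hval.1, hij'⟩, hrl]
    rw [pi_norm_le_iff_of_nonneg hw.le]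
    intro j
    rw [Pi.sub_apply, Real.norm_eq_abs]
    by_cases hj : j = i
    · rw [hj]; exact hval.2
    · rw [hij' j hj, sub_self, abs_zero]; exact hw.le
  · show ‖Ψ.invFun (Φ'.toFun (Ψ.toFun x)) - x‖ ≤ ε0 / N
    have e1 := hlipi (Φ'.toFun (Ψ.toFun x)) (Ψ.toFun x)
    rw [hrl] at e1
    exact e1.trans (div_le_div_of_nonneg_right (h4 _ ((hmem x).1 hx)) hN.le)

/-- **uniform `ρ`** with control of the size -/
theorem uniform_rhoE (h4 : SmallGB4) (k₁ : ℕ) (hk₁ : 3 ≤ k₁) :
    ∃ ρ₁ > 0, ∀ (n₂ k₀ : ℕ) (v : V) (z : Fin 3 → ℤ), 1 ≤ k₀ →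
      CollarPropE (ra v n₂ k₁ k₀ z) (rb v n₂ k₁ k₀ z) (rm n₂ k₁ k₀) (feet v n₂ k₁ k₀ z)
        (ρ₁ / 2 ^ n₂) (1 / 2 ^ (n₂ + k₁)) := by
  set w : ℝ := 1 / 2 ^ k₁ with hwd
  have hw : 0 < w := by positivity
  have hw8 : 8 * w ≤ 1 := by
    have h1 : (8:ℝ) ≤ 2 ^ k₁ := by
      calc (8:ℝ) = 2 ^ 3 := by norm_num
        _ ≤ 2 ^ k₁ := pow_le_pow_right₀ (by norm_num) hk₁
    rw [hwd, mul_one_div, div_le_one (by positivity)]
    exact h1
  obtain ⟨ρ0, hρ0, H⟩ := specCollarE h4 (a := fun _ => w) (b := fun _ => 1 - w) (m := w) hw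
    (fun _ => by linarith) (feet0_finite hw) (by
      rintro x ⟨k, hk, hj⟩
      refine ⟨k, hk, fun j hjk => ?_⟩
      obtain ⟨-, h1, h2⟩ := hj j hjk
      constructor <;> linarith) hw
  refine ⟨ρ0 / 2, by positivity, fun n₂ k₀ v z hk₀ => ?_⟩
  set N : ℝ := 2 ^ n₂ with hNd
  have hN : 0 < N := by positivity
  set μ : ℝ := 1 / 2 ^ (k₁ + k₀) / 2 with hμd
  have hμ0 : 0 ≤ μ := by positivity
  have hμ4 : 4 * μ ≤ w := by
    have h1 : (2:ℝ) ≤ 2 ^ k₀ := by
      calc (2:ℝ) = 2 ^ 1 := by norm_num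
        _ ≤ 2 ^ k₀ := pow_le_pow_right₀ (by norm_num) hk₀
    have h2 : μ = w / 2 ^ k₀ / 2 := by
      rw [hμd, hwd, pow_add]; field_simp
    have h3 : w / 2 ^ k₀ ≤ w / 2 := div_le_div_of_nonneg_left hw.le (by norm_num) h1
    rw [h2]; linarith
  set c : V := fun k => v k + z k / N with hcd
  have e1 : (1:ℝ) / 2 ^ (n₂ + k₁) = w / N := by rw [hwd, hNd, pow_add]; field_simp
  have e2 : (1:ℝ) / 2 ^ (n₂ + k₁ + k₀) / 2 = μ / N := by
    rw [hμd, hNd, pow_add, pow_add, pow_add]; field_simp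
  have ha : ∀ k, ra v n₂ k₁ k₀ z k = c k + (w + μ) / N := by
    intro k
    simp only [ra, e1, e2, hcd, ← hNd]
    ring
  have hb : ∀ k, rb v n₂ k₁ k₀ z k = c k + (1 - w - μ) / N := by
    intro k
    simp only [rb, e1, e2, hcd, ← hNd]
    ring
  have hm : rm n₂ k₁ k₀ = (w - μ) / N := by
    simp only [rm, e1, e2]; ring
  have hww : w * 2 ^ k₁ = 1 := by rw [hwd]; field_simp
  have hw4 : 4 * w ≤ 1 := by linarith
  have hmp : 0 < w - μ := by linarith
  have hD : Dat (ra v n₂ k₁ k₀ z) (rb v n₂ k₁ k₀ z) c N w μ :=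
    ⟨hN, hw, hw8, hμ0, hμ4, ha, hb⟩
  have hmN : ∀ (t s : ℝ) (k : Fin 3), t = c k + s / N ↔ N * (t - c k) = s := by
    intro t s k
    rw [mul_comm, ← eq_div_iff hN.ne']
    constructor <;> intro h <;> linarith
  rw [hm, e1]
  refine transferE hD (X0 := feet0 w) (ρ0 := ρ0) ?_ ?_ ?_ H
  · have : 2 * N * (ρ0 / 2 / N) = ρ0 := by field_simp
    exact this.le
  · rintro x ⟨k, hk, hj⟩
    refine ⟨k, ?_, fun j hjk => ?_⟩
    · rcases hk with hk | hk
      · left
        have : N * (x k - c k) = w + μ := (hmN _ _ k).1 (by rw [hk, ha])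
        show psi w (w / (w - μ)) (N * (x k - c k)) = w
        rw [this, psi_lo hw4 (by linarith)]
        field_simp
        ring
      · right
        have : N * (x k - c k) = 1 - w - μ := (hmN _ _ k).1 (by rw [hk, hb])
        show psi w (w / (w - μ)) (N * (x k - c k)) = 1 - w
        rw [this, psi_hi hw4 (by linarith)]
        field_simp
        ring
    · obtain ⟨⟨i, hi⟩, h1, h2⟩ := hj j hjk
      have k1 : 2 * w ≤ N * (x j - c j) := by
        rw [hm, ha] at h1
        have h3 : c j + (2 * w) / N ≤ x j := by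
          have : c j + (w + μ) / N + (w - μ) / N = c j + (2 * w) / N := by ring
          linarith
        have h4 : (2 * w) / N ≤ x j - c j := by linarith
        rw [div_le_iff₀ hN] at h4
        linarith
      have k2 : N * (x j - c j) ≤ 1 - 2 * w := by
        rw [hm, hb] at h2
        have h3 : x j ≤ c j + (1 - 2 * w) / N := by
          have : c j + (1 - w - μ) / N - (w - μ) / N = c j + (1 - 2 * w) / N := by ring
          linarith
        have h4 : x j - c j ≤ (1 - 2 * w) / N := by linarith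
        rw [le_div_iff₀ hN] at h4
        linarith
      have k3 : psi w (w / (w - μ)) (N * (x j - c j)) = N * (x j - c j) := psi_mid k1 k2
      show (∃ i : ℤ, psi w (w / (w - μ)) (N * (x j - c j)) = i * w) ∧
        2 * w ≤ psi w (w / (w - μ)) (N * (x j - c j)) ∧
        psi w (w / (w - μ)) (N * (x j - c j)) ≤ 1 - 2 * w
      rw [k3]
      refine ⟨⟨i - z j * 2 ^ k₁, ?_⟩, k1, k2⟩
      rw [hi, e1]
      push_cast
      simp only [hcd]
      have : (z j : ℝ) = z j * (w * 2 ^ k₁) := by rw [hww, mul_one]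
      field_simp
      linear_combination -this
  · rintro y ⟨k, hk, hj⟩
    refine ⟨k, ?_, fun j hjk => ?_⟩
    · rcases hk with hk | hk
      · left
        show c k + psi w ((w - μ) / w) (y k) / N = _
        rw [ha, hk, psi_lo hw4 (by linarith)]
        field_simp
        ring
      · right
        show c k + psi w ((w - μ) / w) (y k) / N = _
        rw [hb, hk, psi_hi hw4 (by linarith)]
        field_simp
        ring
    · obtain ⟨⟨i, hi⟩, h1, h2⟩ := hj j hjk
      have k3 : psi w ((w - μ) / w) (y j) = y j := psi_mid h1 h2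
      show (∃ i : ℤ, c j + psi w ((w - μ) / w) (y j) / N = v j + i * (1 / 2 ^ (n₂ + k₁))) ∧
        ra v n₂ k₁ k₀ z j + rm n₂ k₁ k₀ ≤ c j + psi w ((w - μ) / w) (y j) / N ∧
        c j + psi w ((w - μ) / w) (y j) / N ≤ rb v n₂ k₁ k₀ z j - rm n₂ k₁ k₀
      rw [k3, ha, hb, hm, e1]
      refine ⟨⟨i + z j * 2 ^ k₁, ?_⟩, ?_, ?_⟩
      · rw [hi]
        push_cast
        simp only [hcd]
        have : (z j : ℝ) = z j * (w * 2 ^ k₁) := by rw [hww, mul_one]
        field_simp
        linear_combination this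
      · have h3 : (2 * w) / N ≤ y j / N := div_le_div_of_nonneg_right h1 hN.le
        have : c j + (w + μ) / N + (w - μ) / N = c j + (2 * w) / N := by ring
        linarith
      · have h3 : y j / N ≤ (1 - 2 * w) / N := div_le_div_of_nonneg_right h2 hN.le
        have : c j + (1 - w - μ) / N - (w - μ) / N = c j + (1 - 2 * w) / N := by ring
        linarith

/-- **(UE)** uniform collar with control of the size, from the small form of GB4 -/
theorem specUE (h4 : SmallGB4) : SpecUE := by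
  intro k₁ hk₁
  obtain ⟨ρ₁, h0, H⟩ := uniform_rhoE h4 k₁ hk₁
  refine ⟨ρ₁ * 2 ^ k₁, by positivity, fun v n₂ k₀ z hk₀ => ?_⟩
  rw [lo_eq, hi_eq, mg_eq, mpt_eq]
  have e : ρ₁ * 2 ^ k₁ / 2 ^ (n₂ + k₁) = ρ₁ / 2 ^ n₂ := by
    rw [pow_add]; field_simp
  rw [e]
  exact H n₂ k₀ v z hk₀

end P073.H16
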