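import Vale.Agent.P073.H16.ZoSum
import Vale.Agent.P073.H234.ChainDef

/-!
# P073 / H16: `SpecZo`
-/

namespace Vale.Agent.P073.H16

open MeasureTheory Set Filter Topology Metric Vale.Agent.P073.St
open Vale.Agent.P073.AB (Idx cl)
open Vale.Agent.P073.H696 (HF am Boxes Mx bx deep)
open P073.Net (dyc dyo)
open scoped ENNReal NNReal

variable {p : ℝ} {Ω Λ : Set V} {f : V → V} {F : V → Mat} {v : V} {K : Set Idx} {x : Idx → V}

/-- **[ZO-SUM]** general form with a bound `η` of the closeness -/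
theorem zo_sum_eta (hp : 1 ≤ p) (hΩ : St.IsBoundedDomain Ω) (hF : St.IsSobolev p Ω f F)
    (hsub : ∀ k ∈ K, dyc v k.1 k.2 ⊆ Ω)
    (hdisj : ∀ k ∈ K, ∀ k' ∈ K, k ≠ k' → Disjoint (dyo v k.1 k.2) (dyo v k'.1 k'.2))
    {κ : V → ℝ} (hleb : ∀ k ∈ K, ∫⁻ y in dyc v k.1 k.2, ‖cl (F y) - cl (F (x k))‖ₑ ^ p ≤
      ENNReal.ofReal (κ (x k)) * volume (dyc v k.1 k.2))
    {r ε η : ℝ} (hε : 0 < ε) (hη0 : 0 ≤ η) (hη : 2 ^ p * η * (volume Ω).toReal ≤ ε)
    (hclose : ∀ k ∈ K, ∀ y ∈ dyc v k.1 k.2, ‖f y - am f F (x k) y‖ ≤ r)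
    (hκ : ∀ k ∈ K, κ (x k) ≤ η)
    {Zo : Set V} (hZ : ∫⁻ y in {y | y ∈ Ω ∧ ∃ u ∈ Zo, ‖f y - u‖ ≤ r}, HF p Ω F y ≤
      ENNReal.ofReal (ε / 2 ^ p))
    {D : Idx → Set V} (hD : ∀ k ∈ K, D k ⊆ dyc v k.1 k.2) :
    ∑' k : {k : Idx // k ∈ K}, ‖cl (F (x k.1))‖ₑ ^ p *
      volume {y | y ∈ D k.1 ∧ am f F (x k.1) y ∈ Zo} ≤ ENNReal.ofReal ε := by
  have hp0 : 0 < p := by linarith
  have h2p : (0:ℝ) < 2 ^ p := by positivity
  have hvol : volume Ω ≠ ⊤ := PK.volume_ne_top_of_domain hΩ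
  set W₀ : Set V := {y | y ∈ Ω ∧ ∃ u ∈ Zo, ‖f y - u‖ ≤ r} with hW₀
  have hW₀t : volume W₀ ≠ ⊤ := ne_top_of_le_ne_top hvol (measure_mono fun y hy => hy.1)
  set W : Set V := toMeasurable volume W₀ with hWdef
  have hWm : MeasurableSet W := measurableSet_toMeasurable _ _
  have hWr : volume.restrict W = volume.restrict W₀ := Measure.restrict_toMeasurable hW₀t
  have hdm : ∀ k : Idx, MeasurableSet (dyc v k.1 k.2) := fun k =>
    (AB.P86.isCompact_dyc v k.1 k.2).measurableSet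
  have hFm : AEMeasurable (fun y => ‖cl (F y)‖ₑ ^ p) (volume.restrict Ω) :=
    (PK.IsSob.aesm hF).enorm.pow_const p
  have hterm : ∀ k : {k : Idx // k ∈ K}, ‖cl (F (x k.1))‖ₑ ^ p *
      volume {y | y ∈ D k.1 ∧ am f F (x k.1) y ∈ Zo} ≤
      2 ^ (p - 1) * ((∫⁻ y in dyc v k.1.1 k.1.2 ∩ W, HF p Ω F y) +
        ENNReal.ofReal η *
          ∫⁻ y in dyc v k.1.1 k.1.2 ∩ Ω, 1) := by
    intro k
    have h1 : {y | y ∈ D k.1 ∧ am f F (x k.1) y ∈ Zo} ⊆ dyc v k.1.1 k.1.2 ∩ W := by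
      rintro y ⟨hy, hyZ⟩
      have hy' := hD k.1 k.2 hy
      exact ⟨hy', subset_toMeasurable _ _ ⟨hsub k.1 k.2 hy', _, hyZ, hclose k.1 k.2 y hy'⟩⟩
    have h2 := const_energy_le (F := F) (W := W) hp
      (hFm.mono_measure (Measure.restrict_mono (hsub k.1 k.2) le_rfl)) (cl (F (x k.1)))
    have h3 : ∫⁻ y in dyc v k.1.1 k.1.2 ∩ W, ‖cl (F y)‖ₑ ^ p =
        ∫⁻ y in dyc v k.1.1 k.1.2 ∩ W, HF p Ω F y := by
      refine setLIntegral_congr_fun ((hdm k.1).inter hWm) fun y hy => ?_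
      rw [HF, indicator_of_mem (hsub k.1 k.2 hy.1)]
    have h4 : ∫⁻ y in dyc v k.1.1 k.1.2 ∩ Ω, (1:ℝ≥0∞) = volume (dyc v k.1.1 k.1.2) := by
      rw [inter_eq_left.2 (hsub k.1 k.2), setLIntegral_one]
    refine (mul_le_mul_right (measure_mono h1) _).trans (h2.trans ?_)
    rw [h3, h4]
    gcongr
    exact (hleb k.1 k.2).trans (mul_le_mul_left (ENNReal.ofReal_le_ofReal (hκ k.1 k.2)) _)
  have hpair : Pairwise (Function.onFun Disjoint
      fun i : {k : Idx // k ∈ K} => dyo v i.1.1 i.1.2) := fun i j hij =>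
    hdisj i.1 i.2 j.1 j.2 fun h => hij (Subtype.ext h)
  have hs1 := H911.tsum_dyc_le (v := v) (k := fun i : {k : Idx // k ∈ K} => i.1) hpair
    hWm.nullMeasurableSet (HF p Ω F)
  have hs2 := H911.tsum_dyc_le (v := v) (k := fun i : {k : Idx // k ∈ K} => i.1) hpair
    hΩ.1.measurableSet.nullMeasurableSet (fun _ => 1)
  rw [hWr] at hs1
  rw [setLIntegral_one] at hs2
  refine (ENNReal.tsum_le_tsum hterm).trans ?_
  rw [ENNReal.tsum_mul_left, ENNReal.tsum_add, ENNReal.tsum_mul_left]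
  have hfin : volume Ω = ENNReal.ofReal (volume Ω).toReal := (ENNReal.ofReal_toReal hvol).symm
  have hv0 : 0 ≤ (volume Ω).toReal := ENNReal.toReal_nonneg
  have e2 : (2 : ℝ≥0∞) ^ (p - 1) = ENNReal.ofReal (2 ^ (p - 1)) := by
    rw [← ENNReal.ofReal_rpow_of_pos (by norm_num), ENNReal.ofReal_ofNat]
  calc (2:ℝ≥0∞) ^ (p - 1) * ((∑' k : {k : Idx // k ∈ K},
        ∫⁻ y in dyc v k.1.1 k.1.2 ∩ W, HF p Ω F y) +
        ENNReal.ofReal η *
          ∑' k : {k : Idx // k ∈ K}, ∫⁻ y in dyc v k.1.1 k.1.2 ∩ Ω, 1)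
      ≤ 2 ^ (p - 1) * (ENNReal.ofReal (ε / 2 ^ p) +
        ENNReal.ofReal η * volume Ω) := by
        gcongr
        exact hs1.trans hZ
    _ = ENNReal.ofReal (2 ^ (p - 1) * (ε / 2 ^ p + η * (volume Ω).toReal)) := by
        rw [e2, hfin, ENNReal.toReal_ofReal hv0, ← ENNReal.ofReal_mul (by positivity),
          ← ENNReal.ofReal_add (by positivity) (by positivity),
          ← ENNReal.ofReal_mul (by positivity)]
    _ ≤ ENNReal.ofReal ε := by
        refine ENNReal.ofReal_le_ofReal ?_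
        have h6 : η * (volume Ω).toReal ≤ ε / 2 ^ p := by
          rw [le_div_iff₀ h2p]
          nlinarith [hη]
        have h7 : (2:ℝ) ^ (p - 1) = 2 ^ p / 2 := by
          rw [Real.rpow_sub (by norm_num), Real.rpow_one]
        rw [h7]
        calc 2 ^ p / 2 * (ε / 2 ^ p + η * (volume Ω).toReal)
            ≤ 2 ^ p / 2 * (ε / 2 ^ p + ε / 2 ^ p) := by gcongr
          _ = ε := by field_simp; ring

/-- **[ZO]** the cost of the exceptional set -/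
theorem specZo {p : ℝ} (hp : 1 ≤ p) : H234.Ch.SpecZo p := by
  intro Ω Λ f F εB ε M₀ r c τ φ κ μ s v nn K x c₀ a Zo hΩ _ hF B hc₀ hε hr hκr hκ hZ
  have h2p : (0:ℝ) < 2 ^ p := by positivity
  have hvol : volume Ω ≠ ⊤ := PK.volume_ne_top_of_domain hΩ
  have hv : 0 < (volume Ω).toReal :=
    ENNReal.toReal_pos (hΩ.1.measure_pos volume hΩ.2.1.nonempty).ne' hvol
  refine zo_sum_eta (v := v) (K := K) (x := x) hp hΩ hF (fun k hk => (B.pt k hk).2.1) B.disj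
    B.leb hε (η := ε / (2 ^ p * (volume Ω).toReal)) (by positivity) (le_of_eq (by field_simp))
    (r := r) (fun k hk y hy => ?_) (fun k _ => ?_) hZ
    (D := fun k => deep v (fun k => k.1 + a (x k)) (3 * c₀ (x k)) k) (fun k _ =>
      H582.R2.deep_sub (by have := hc₀ (x k); linarith) (Nat.le_add_right _ _))
  · refine (B.close k hk y hy).trans ?_
    rcases le_total 0 (κ (x k)) with h | h
    · exact (div_le_self h (one_le_pow₀ (by norm_num))).trans (hκr _)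
    · exact (div_nonpos_of_nonpos_of_nonneg h (by positivity)).trans hr.le
  · rw [le_div_iff₀ (by positivity)]
    have := hκ (x k)
    linarith

end Vale.Agent.P073.H16
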