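import Vale.Agent.P073.H911.Boxes
import Vale.Agent.P073.H582.E2d

/-!
# P073 / H16: the boxes near an exceptional set of the target
-/

namespace Vale.Agent.P073.H16

open MeasureTheory Set Filter Topology Metric Vale.Agent.P073.St
open Vale.Agent.P073.AB (Idx cl)
open Vale.Agent.P073.H696 (HF am Boxes Mx bx)
open P073.Net (dyc dyo)
open scoped ENNReal NNReal

variable {p : ℝ} {Ω Λ : Set V} {f : V → V} {F : V → Mat} {v : V} {K : Set Idx} {x : Idx → V}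

/-- the energy of the constant derivatives on a set -/
theorem const_energy_le (hp : 1 ≤ p) {D W : Set V}
    (hm : AEMeasurable (fun y => ‖cl (F y)‖ₑ ^ p) (volume.restrict D)) (a : V →L[ℝ] V) :
    ‖a‖ₑ ^ p * volume (D ∩ W) ≤ 2 ^ (p - 1) * ((∫⁻ y in D ∩ W, ‖cl (F y)‖ₑ ^ p) +
      ∫⁻ y in D, ‖cl (F y) - a‖ₑ ^ p) := by
  have h1 : ∀ y, ‖a‖ₑ ^ p ≤ 2 ^ (p - 1) * (‖cl (F y)‖ₑ ^ p + ‖cl (F y) - a‖ₑ ^ p) := by
    intro y
    refine le_trans ?_ (ENNReal.rpow_add_le_mul_rpow_add_rpow _ _ hp)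
    refine ENNReal.rpow_le_rpow ?_ (by linarith)
    have e : a = cl (F y) - (cl (F y) - a) := by abel
    conv_lhs => rw [e]
    exact enorm_sub_le
  calc ‖a‖ₑ ^ p * volume (D ∩ W) = ∫⁻ _ in D ∩ W, ‖a‖ₑ ^ p := by rw [setLIntegral_const]
    _ ≤ ∫⁻ y in D ∩ W, 2 ^ (p - 1) * (‖cl (F y)‖ₑ ^ p + ‖cl (F y) - a‖ₑ ^ p) :=
        lintegral_mono fun y => h1 y
    _ = 2 ^ (p - 1) * ((∫⁻ y in D ∩ W, ‖cl (F y)‖ₑ ^ p) + ∫⁻ y in D ∩ W, ‖cl (F y) - a‖ₑ ^ p) := by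
        rw [lintegral_const_mul' _ _ (ENNReal.rpow_ne_top_of_nonneg (by linarith) (by simp)),
          lintegral_add_left' (hm.mono_measure (Measure.restrict_mono inter_subset_left le_rfl))]
    _ ≤ _ := by
        gcongr
        exact inter_subset_left

/-- **[ZO-SUM]** general form: `D k`: subsets of the boxes -/
theorem zo_sum_of (hp : 1 ≤ p) (hΩ : St.IsBoundedDomain Ω) (hF : St.IsSobolev p Ω f F)
    (hsub : ∀ k ∈ K, dyc v k.1 k.2 ⊆ Ω)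
    (hdisj : ∀ k ∈ K, ∀ k' ∈ K, k ≠ k' → Disjoint (dyo v k.1 k.2) (dyo v k'.1 k'.2))
    {κ : V → ℝ} (hleb : ∀ k ∈ K, ∫⁻ y in dyc v k.1 k.2, ‖cl (F y) - cl (F (x k))‖ₑ ^ p ≤
      ENNReal.ofReal (κ (x k)) * volume (dyc v k.1 k.2))
    {r ε C : ℝ} (hε : 0 < ε) (hC : 2 ^ p ≤ C)
    (hclose : ∀ k ∈ K, ∀ y ∈ dyc v k.1 k.2, ‖f y - am f F (x k) y‖ ≤ r)
    (hκ : ∀ k ∈ K, κ (x k) ≤ ε / (2 ^ p * ((volume Ω).toReal + 1)))
    {Zo : Set V} (hZ : ∫⁻ y in {y | y ∈ Ω ∧ ∃ u ∈ Zo, ‖f y - u‖ ≤ r}, HF p Ω F y ≤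
      ENNReal.ofReal (ε / C))
    {D : Idx → Set V} (hD : ∀ k ∈ K, D k ⊆ dyc v k.1 k.2) :
    ∑' k : {k : Idx // k ∈ K}, ‖cl (F (x k.1))‖ₑ ^ p *
      volume {y | y ∈ D k.1 ∧ am f F (x k.1) y ∈ Zo} ≤ ENNReal.ofReal ε := by
  have hp0 : 0 < p := by linarith
  have h2p : (0:ℝ) < 2 ^ p := by positivity
  have hvol : volume Ω ≠ ⊤ := PK.volume_ne_top_of_domain hΩ
  set W₀ : Set V := {y | y ∈ Ω ∧ ∃ u ∈ Zo, ‖f y - u‖ ≤ r} with hW₀
  have hW₀t : volume W₀ ≠ ⊤ := ne_top_of_le_ne_top hvol (measure_mono fun y hy => hy.1)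
  set W : Set V := toMeasurable volume W₀ with hWdef
  have hWm : MeasurableSet W := measurableSet_toMeasurable _ _
  have hWr : volume.restrict W = volume.restrict W₀ := Measure.restrict_toMeasurable hW₀t
  have hdm : ∀ k : Idx, MeasurableSet (dyc v k.1 k.2) := fun k =>
    (AB.P86.isCompact_dyc v k.1 k.2).measurableSet
  have hFm : AEMeasurable (fun y => ‖cl (F y)‖ₑ ^ p) (volume.restrict Ω) :=
    (PK.IsSob.aesm hF).enorm.pow_const p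
  have hterm : ∀ k : {k : Idx // k ∈ K}, ‖cl (F (x k.1))‖ₑ ^ p *
      volume {y | y ∈ D k.1 ∧ am f F (x k.1) y ∈ Zo} ≤
      2 ^ (p - 1) * ((∫⁻ y in dyc v k.1.1 k.1.2 ∩ W, HF p Ω F y) +
        ENNReal.ofReal (ε / (2 ^ p * ((volume Ω).toReal + 1))) *
          ∫⁻ y in dyc v k.1.1 k.1.2 ∩ Ω, 1) := by
    intro k
    have h1 : {y | y ∈ D k.1 ∧ am f F (x k.1) y ∈ Zo} ⊆ dyc v k.1.1 k.1.2 ∩ W := by
      rintro y ⟨hy, hyZ⟩
      have hy' := hD k.1 k.2 hy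
      exact ⟨hy', subset_toMeasurable _ _ ⟨hsub k.1 k.2 hy', _, hyZ, hclose k.1 k.2 y hy'⟩⟩
    have h2 := const_energy_le (F := F) (W := W) hp
      (hFm.mono_measure (Measure.restrict_mono (hsub k.1 k.2) le_rfl)) (cl (F (x k.1)))
    have h3 : ∫⁻ y in dyc v k.1.1 k.1.2 ∩ W, ‖cl (F y)‖ₑ ^ p =
        ∫⁻ y in dyc v k.1.1 k.1.2 ∩ W, HF p Ω F y := by
      refine setLIntegral_congr_fun ((hdm k.1).inter hWm) fun y hy => ?_
      rw [HF, indicator_of_mem (hsub k.1 k.2 hy.1)]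
    have h4 : ∫⁻ y in dyc v k.1.1 k.1.2 ∩ Ω, (1:ℝ≥0∞) = volume (dyc v k.1.1 k.1.2) := by
      rw [inter_eq_left.2 (hsub k.1 k.2), setLIntegral_one]
    refine (mul_le_mul_right (measure_mono h1) _).trans (h2.trans ?_)
    rw [h3, h4]
    gcongr
    exact (hleb k.1 k.2).trans (mul_le_mul_left (ENNReal.ofReal_le_ofReal (hκ k.1 k.2)) _)
  have hpair : Pairwise (Function.onFun Disjoint
      fun i : {k : Idx // k ∈ K} => dyo v i.1.1 i.1.2) := fun i j hij =>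
    hdisj i.1 i.2 j.1 j.2 fun h => hij (Subtype.ext h)
  have hs1 := H911.tsum_dyc_le (v := v) (k := fun i : {k : Idx // k ∈ K} => i.1) hpair
    hWm.nullMeasurableSet (HF p Ω F)
  have hs2 := H911.tsum_dyc_le (v := v) (k := fun i : {k : Idx // k ∈ K} => i.1) hpair
    hΩ.1.measurableSet.nullMeasurableSet (fun _ => 1)
  rw [hWr] at hs1
  rw [setLIntegral_one] at hs2
  refine (ENNReal.tsum_le_tsum hterm).trans ?_
  rw [ENNReal.tsum_mul_left, ENNReal.tsum_add, ENNReal.tsum_mul_left]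
  have hfin : volume Ω = ENNReal.ofReal (volume Ω).toReal := (ENNReal.ofReal_toReal hvol).symm
  have hv0 : 0 ≤ (volume Ω).toReal := ENNReal.toReal_nonneg
  have e2 : (2 : ℝ≥0∞) ^ (p - 1) = ENNReal.ofReal (2 ^ (p - 1)) := by
    rw [← ENNReal.ofReal_rpow_of_pos (by norm_num), ENNReal.ofReal_ofNat]
  calc (2:ℝ≥0∞) ^ (p - 1) * ((∑' k : {k : Idx // k ∈ K},
        ∫⁻ y in dyc v k.1.1 k.1.2 ∩ W, HF p Ω F y) +
        ENNReal.ofReal (ε / (2 ^ p * ((volume Ω).toReal + 1))) *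
          ∑' k : {k : Idx // k ∈ K}, ∫⁻ y in dyc v k.1.1 k.1.2 ∩ Ω, 1)
      ≤ 2 ^ (p - 1) * (ENNReal.ofReal (ε / C) +
        ENNReal.ofReal (ε / (2 ^ p * ((volume Ω).toReal + 1))) * volume Ω) := by
        gcongr
        exact hs1.trans hZ
    _ = ENNReal.ofReal (2 ^ (p - 1) * (ε / C +
        ε / (2 ^ p * ((volume Ω).toReal + 1)) * (volume Ω).toReal)) := by
        have hC0 : 0 < C := h2p.trans_le hC
        rw [e2, hfin, ENNReal.toReal_ofReal hv0, ← ENNReal.ofReal_mul (by positivity),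
          ← ENNReal.ofReal_add (by positivity) (by positivity),
          ← ENNReal.ofReal_mul (by positivity)]
    _ ≤ ENNReal.ofReal ε := by
        refine ENNReal.ofReal_le_ofReal ?_
        have hC0 : 0 < C := h2p.trans_le hC
        have h5 : ε / C ≤ ε / 2 ^ p := by gcongr
        have h6 : ε / (2 ^ p * ((volume Ω).toReal + 1)) * (volume Ω).toReal ≤ ε / 2 ^ p := by
          rw [div_mul_eq_mul_div, div_le_div_iff₀ (by positivity) h2p]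
          nlinarith [mul_pos hε h2p]
        have h7 : (2:ℝ) ^ (p - 1) = 2 ^ p / 2 := by
          rw [Real.rpow_sub (by norm_num), Real.rpow_one]
        rw [h7]
        calc 2 ^ p / 2 * (ε / C + ε / (2 ^ p * ((volume Ω).toReal + 1)) * (volume Ω).toReal)
            ≤ 2 ^ p / 2 * (ε / 2 ^ p + ε / 2 ^ p) := by gcongr
          _ = ε := by field_simp; ring

/-- **[ZO-SUM]** for the good boxes -/
theorem zo_sum {εB M₀ : ℝ} {c : ℝ≥0∞} {τ φ κ μ : V → ℝ} {s : V → ℕ} {nn : ℕ → ℕ} (hp : 1 ≤ p)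
    (hΩ : St.IsBoundedDomain Ω) (hF : St.IsSobolev p Ω f F)
    (B : Boxes p εB M₀ c τ φ κ μ s Ω Λ f F v nn K x)
    {r ε C : ℝ} (hε : 0 < ε) (hC : 2 ^ p ≤ C) (hκ0 : ∀ k ∈ K, 0 ≤ κ (x k))
    (hκr : ∀ k ∈ K, κ (x k) ≤ r)
    (hκ : ∀ k ∈ K, κ (x k) ≤ ε / (2 ^ p * ((volume Ω).toReal + 1)))
    {Zo : Set V} (hZ : ∫⁻ y in {y | y ∈ Ω ∧ ∃ u ∈ Zo, ‖f y - u‖ ≤ r}, HF p Ω F y ≤
      ENNReal.ofReal (ε / C))
    {D : Idx → Set V} (hD : ∀ k ∈ K, D k ⊆ dyc v k.1 k.2) :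
    ∑' k : {k : Idx // k ∈ K}, ‖cl (F (x k.1))‖ₑ ^ p *
      volume {y | y ∈ D k.1 ∧ Matrix.mulVec (Mx F x k.1) y + bx f F x k.1 ∈ Zo} ≤
      ENNReal.ofReal ε := by
  have h := zo_sum_of (v := v) (K := K) (x := x) hp hΩ hF (fun k hk => (B.pt k hk).2.1) B.disj
    B.leb hε hC (r := r) (fun k hk y hy => ?_) hκ hZ hD
  · simp only [H582.R2.am_eq]
    exact h
  · refine (B.close k hk y hy).trans (le_trans ?_ (hκr k hk))
    exact div_le_self (hκ0 k hk) (one_le_pow₀ (by norm_num))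

end Vale.Agent.P073.H16
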